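import Vale.Agent.P011.Arith.Defs
import Vale.Agent.P011.Even.LocDefs
import Vale.Agent.P011.H305.SetF
import Vale.Agent.P011.H271.PmF
import Vale.Agent.P011.Hey.H63.Sk4
import Vale.Agent.P011.Hey.H63.Hensel

/-!
# Rank two over function fields: the letters, local squares and local norms (helper63)
-/

open Module Polynomial

set_option linter.unusedSectionVars false
set_option linter.style.haveILetI false

namespace Vale.Agent.P011.H63.FB

open Vale.Agent.P011.H738 Vale.Agent.P011.H271 Vale.Agent.P011.H271.S3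
open Vale.Agent.P011.Arith (NF)
open Vale.Agent.P011.Even (LN)

variable {F : Type} [Field F]

/-- The elements of `F` which are squares in the completion at `v`. -/
def LSF (v : Place F) : Subgroup Fˣ where
  carrier := {x | IsSquare (algebraMap F v.comp (x : F))}
  mul_mem' := by
    intro x y hx hy
    change IsSquare (algebraMap F v.comp ((x * y : Fˣ) : F))
    rw [Units.val_mul, map_mul]
    exact IsSquare.mul hx hy
  one_mem' := by
    change IsSquare (algebraMap F v.comp ((1 : Fˣ) : F))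
    rw [Units.val_one, map_one]
    exact IsSquare.one
  inv_mem' := by
    intro x hx
    change IsSquare (algebraMap F v.comp ((x⁻¹ : Fˣ) : F))
    rw [Units.val_inv_eq_inv_val, map_inv₀]
    exact IsSquare.inv hx

theorem mem_LSF {v : Place F} {x : Fˣ} : x ∈ LSF v ↔ IsSquare (algebraMap F v.comp (x : F)) :=
  Iff.rfl

/-- The embedding of the unit groups. -/
noncomputable def iuF (v : Place F) : Fˣ →* v.compˣ :=
  Units.map (algebraMap F v.comp : F →* v.comp)

theorem iuF_val (v : Place F) (a : Fˣ) : ((iuF v a : v.compˣ) : v.comp) =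
    algebraMap F v.comp (a : F) := rfl

/-- The places at which `b` is not a norm from `F(√a)`. -/
def badF (a b : Fˣ) : Set (Place F) := {v | b ∉ NF a ⊔ LSF v}

/-- The inclusion of the unit groups. -/
noncomputable def incF (F E : Type) [Field F] [Field E] [Algebra F E] : Fˣ →* Eˣ :=
  Units.map (algebraMap F E : F →* E)

/-- The norm on unit groups. -/
noncomputable def nrmF (F E : Type) [Field F] [Field E] [Algebra F E] : Eˣ →* Fˣ :=
  Units.map (Algebra.norm F : E →* F)

/-- The place `v` is totally split in `E`. -/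
def TotSplitF (E : Type) [Field E] [Algebra F E] (v : Place F) : Prop :=
  ∃ w : Fin (finrank F E) → Place E, Function.Injective w ∧ ∀ i, Ab (w i) v

/-- The conditions on the element `z = m⁻¹ r` of the two steps: its minimal polynomial has degree
`n`, it is totally split at the places of `V`, and at every `v ∈ V` one of the values of
`θ⁻¹ + 4⁻¹` is not a square. -/
def NiceF (k : Type) {D : Type} [Field k] [DivisionRing D] [Algebra k D]
    (n : ℕ) (V : Set (Place k)) (z : D) : Prop :=
  LinearIndependent k (fun i : Fin n => z ^ (i : ℕ)) ∧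
  ∀ v ∈ V, ∀ (E : Type) [Field E] [GFF E] [Algebra k E] (θ : E), finrank k E = n →
    (minpoly k θ).natDegree = n → aeval z (minpoly k θ) = 0 →
    TotSplitF E v ∧ ∃ w : Place E, Ab w v ∧
      ∀ c : Eˣ, (c : E) = θ⁻¹ + 4⁻¹ → c ∉ LSF w

section local_facts

theorem comp_norm_one (v : Place F) : ‖(1 : v.comp)‖ = 1 := norm_one

variable [GFF F]

theorem abv_two (v : Place F) (h2 : (2 : F) ≠ 0) : v.abv 2 = 1 := by
  have := Hey.H63.abv_nat_eq_one v (m := 2) (by simpa using h2)
  simpa using this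

theorem norm_two (v : Place F) (h2 : (2 : F) ≠ 0) : ‖(2 : v.comp)‖ = 1 := by
  have h : (2 : v.comp) = algebraMap F v.comp 2 := by rw [map_ofNat]
  rw [h, norm_alg, abv_two v h2]

theorem two_ne_comp (v : Place F) (h2 : (2 : F) ≠ 0) : (2 : v.comp) ≠ 0 := by
  rw [← norm_ne_zero_iff, norm_two v h2]
  exact one_ne_zero

/-- The elements near one are squares. -/
theorem isSquare_of_near (v : Place F) (h2 : (2 : F) ≠ 0) {x : v.comp} (hx : ‖x - 1‖ < 1) :
    IsSquare x := by
  have hxO : x ∈ Hey.H63.OK v.comp := by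
    have h : x = (x - 1) + 1 := by ring
    rw [h]
    exact (Hey.H63.OK v.comp).add_mem (Hey.H63.mem_OK.mpr hx.le) (Hey.H63.OK v.comp).one_mem
  let P : (Hey.H63.OK v.comp)[X] := X ^ 2 + C 2 * X + C (1 - ⟨x, hxO⟩)
  have h0 : P.coeff 0 = 1 - ⟨x, hxO⟩ := by simp [P]
  have h1 : P.coeff 1 = 2 := by simp [P, coeff_C, coeff_one]
  obtain ⟨z, -, hz⟩ := Hey.H63.hensel P (by
      rw [h0]
      push_cast
      rw [← norm_neg, neg_sub]
      exact hx) (by
      rw [h1]
      exact norm_two v h2)
  refine ⟨1 + z, ?_⟩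
  have h3 : (z ^ 2 + 2 * z + (1 - ⟨x, hxO⟩) : Hey.H63.OK v.comp) = 0 := by
    rw [← hz]; simp [P]
  have h4 := congrArg (Subring.subtype _) h3
  simp only [map_add, map_mul, map_pow, map_sub, map_one, map_ofNat, map_zero,
    Subring.subtype_apply] at h4
  linear_combination -h4

/-- The elements near a nonzero square are squares. -/
theorem isSquare_of_close (v : Place F) (h2 : (2 : F) ≠ 0) {x y : v.comp} (hx : IsSquare x)
    (hxy : ‖y - x‖ < ‖x‖) : IsSquare y := by
  have hx0 : x ≠ 0 := by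
    rintro rfl
    rw [norm_zero] at hxy
    exact absurd hxy (not_lt.mpr (norm_nonneg _))
  have h : IsSquare (y / x) := by
    apply isSquare_of_near v h2
    have e : y / x - 1 = (y - x) / x := by field_simp
    rw [e, norm_div, div_lt_one (norm_pos_iff.mpr hx0)]
    exact hxy
  have e : y = x * (y / x) := by field_simp
  rw [e]
  exact hx.mul h

/-- The elements near a local square are local squares. -/
theorem LSF_of_close (v : Place F) (h2 : (2 : F) ≠ 0) {x y : Fˣ} (hx : x ∈ LSF v)
    (hxy : v.abv ((y : F) - x) < v.abv (x : F)) : y ∈ LSF v := by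
  refine isSquare_of_close v h2 hx ?_
  rw [← map_sub, norm_alg, norm_alg]
  exact hxy

/-- The elements near one are local squares. -/
theorem LSF_of_near_one (v : Place F) (h2 : (2 : F) ≠ 0) {x : Fˣ}
    (hx : v.abv ((x : F) - 1) < 1) : x ∈ LSF v := by
  refine LSF_of_close v h2 (x := 1) (LSF v).one_mem ?_
  rw [Units.val_one, map_one]
  exact hx

theorem sq_mem_LSF (v : Place F) (x : Fˣ) : x ^ 2 ∈ LSF v :=
  ⟨algebraMap F v.comp x, by rw [Units.val_pow_eq_pow_val, map_pow, sq]⟩

theorem isUnit_alg (v : Place F) {x : F} (hx : x ≠ 0) : algebraMap F v.comp x ≠ 0 :=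
  (_root_.map_ne_zero _).mpr hx

/-- Every element of the completion is near an element of the field. -/
theorem exists_close (v : Place F) {x : v.comp} (hx : x ≠ 0) :
    ∃ a : Fˣ, ‖algebraMap F v.comp a - x‖ < ‖x‖ := by
  obtain ⟨a, ha⟩ := dense_alg v x (norm_pos_iff.mpr hx)
  rw [← norm_neg, neg_sub] at ha
  have ha0 : a ≠ 0 := by
    rintro rfl
    rw [map_zero, zero_sub, norm_neg] at ha
    exact lt_irrefl _ ha
  exact ⟨Units.mk0 a ha0, ha⟩

theorem norm_eq_of_close {v : Place F} {x y : v.comp} (h : ‖y - x‖ < ‖x‖) : ‖y‖ = ‖x‖ := by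
  have h1 := IsUltrametricDist.norm_add_eq_max_of_norm_ne_norm (x := y - x) (y := x) h.ne
  rw [sub_add_cancel, max_eq_right h.le] at h1
  exact h1

theorem abv_eq_of_close {v : Place F} {x y : F} (h : v.abv (y - x) < v.abv x) :
    v.abv y = v.abv x := by
  rw [← norm_alg, ← norm_alg]
  apply norm_eq_of_close
  rw [← map_sub, norm_alg, norm_alg]
  exact h

/-- Membership in the group of local squares, inside the field. -/
theorem mem_LSF_iff {v : Place F} (h2 : (2 : F) ≠ 0) {x : Fˣ} :
    x ∈ LSF v ↔ ∃ y : Fˣ, v.abv ((x : F) / (y : F) ^ 2 - 1) < 1 := by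
  constructor
  · rintro ⟨z, hz⟩
    have hx0 : algebraMap F v.comp (x : F) ≠ 0 := isUnit_alg v x.ne_zero
    have hz0 : z ≠ 0 := by
      rintro rfl
      rw [mul_zero] at hz
      exact hx0 hz
    obtain ⟨y, hy⟩ := exists_close v hz0
    refine ⟨y, ?_⟩
    have hy0 : algebraMap F v.comp (y : F) ≠ 0 := isUnit_alg v y.ne_zero
    have hny := norm_eq_of_close hy
    rw [← norm_alg, map_sub, map_div₀, map_pow, map_one, hz]
    have e : z * z / algebraMap F v.comp (y : F) ^ 2 - 1 =
        -((algebraMap F v.comp (y : F) - z) * (algebraMap F v.comp (y : F) + z)) /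
          algebraMap F v.comp (y : F) ^ 2 := by
      field_simp
      ring
    rw [e, norm_div, norm_neg, norm_mul, norm_pow, hny, div_lt_one (by
      have := norm_pos_iff.mpr hz0
      positivity), sq]
    refine mul_lt_mul_of_lt_of_le_of_nonneg_of_pos hy ?_ (norm_nonneg _)
      (norm_pos_iff.mpr hz0)
    refine (IsUltrametricDist.norm_add_le_max _ _).trans ?_
    rw [hny, max_self]
  · rintro ⟨y, hy⟩
    have hy0 : (y : F) ≠ 0 := y.ne_zero
    have h : x / y ^ 2 ∈ LSF v := by
      apply LSF_of_near_one v h2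
      rw [Units.val_div_eq_div_val, Units.val_pow_eq_pow_val]
      exact hy
    have e : x = x / y ^ 2 * y ^ 2 := by rw [div_mul_cancel]
    rw [e]
    exact (LSF v).mul_mem h (sq_mem_LSF v y)

/-- Every element of the completion is, up to a square, in the field. -/
theorem exists_global (v : Place F) (h2 : (2 : F) ≠ 0) (x : v.compˣ) :
    ∃ (a : Fˣ) (u : v.compˣ), x = iuF v a * u ^ 2 := by
  obtain ⟨a, ha⟩ := exists_close v x.ne_zero
  have hna := norm_eq_of_close ha
  have ha0 : algebraMap F v.comp (a : F) ≠ 0 := isUnit_alg v a.ne_zero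
  obtain ⟨u, hu⟩ := isSquare_of_near v h2 (x := (x : v.comp) / algebraMap F v.comp a) (by
    have e : (x : v.comp) / algebraMap F v.comp a - 1 =
        -(algebraMap F v.comp a - x) / algebraMap F v.comp a := by
      field_simp
      ring
    rw [e, norm_div, norm_neg, hna, div_lt_one (norm_pos_iff.mpr x.ne_zero)]
    exact ha)
  have hu0 : u ≠ 0 := by
    rintro rfl
    rw [mul_zero, div_eq_zero_iff] at hu
    exact hu.elim x.ne_zero ha0
  refine ⟨a, Units.mk0 u hu0, Units.ext ?_⟩
  rw [Units.val_mul, Units.val_pow_eq_pow_val, Units.val_mk0, iuF_val, sq, ← hu]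
  field_simp

/-- Local norms and norms from the completion. -/
theorem mem_LN_iff (v : Place F) (h2 : (2 : F) ≠ 0) (a b : Fˣ) :
    iuF v b ∈ LN (iuF v a) ↔ b ∈ NF a ⊔ LSF v := by
  set ι := algebraMap F v.comp with hι
  constructor
  · rintro ⟨X, Y, hXY⟩
    have hXY' : ι (b : F) = X ^ 2 - ι (a : F) * Y ^ 2 := hXY
    have hb0 : ι (b : F) ≠ 0 := isUnit_alg v b.ne_zero
    have hdense1 : DenseRange ι := by
      refine Metric.denseRange_iff.mpr fun x r hr => ?_
      obtain ⟨y, hy⟩ := dense_alg v x hr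
      exact ⟨y, by rw [dist_eq_norm]; exact hy⟩
    have hdense : DenseRange (Prod.map ι ι) := hdense1.prodMap hdense1
    have hopen : IsOpen {p : v.comp × v.comp |
        ‖p.1 ^ 2 - ι (a : F) * p.2 ^ 2 - ι (b : F)‖ < ‖ι (b : F)‖} := by
      apply isOpen_lt
      · fun_prop
      · exact continuous_const
    obtain ⟨⟨p, q⟩, hpq⟩ := hdense.exists_mem_open hopen ⟨(X, Y), by
      change ‖X ^ 2 - ι (a : F) * Y ^ 2 - ι (b : F)‖ < _
      rw [← hXY', sub_self, norm_zero]
      exact norm_pos_iff.mpr hb0⟩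
    have hpq' : ‖ι p ^ 2 - ι (a : F) * ι q ^ 2 - ι (b : F)‖ < ‖ι (b : F)‖ := hpq
    have e1 : ι p ^ 2 - ι (a : F) * ι q ^ 2 - ι (b : F) = ι (p ^ 2 - a * q ^ 2 - b) := by
      simp only [map_sub, map_mul, map_pow]
    rw [e1, norm_alg, norm_alg] at hpq'
    have hvc : v.abv (p ^ 2 - a * q ^ 2) = v.abv (b : F) := abv_eq_of_close hpq'
    have hc0 : p ^ 2 - a * q ^ 2 ≠ 0 := by
      intro h
      rw [h, map_zero, eq_comm] at hvc
      exact b.ne_zero (v.abv.eq_zero.mp hvc)
    refine Subgroup.mem_sup.mpr ⟨Units.mk0 _ hc0, ⟨p, q, rfl⟩, b / Units.mk0 _ hc0, ?_, by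
      rw [mul_div_cancel]⟩
    apply LSF_of_near_one v h2
    rw [Units.val_div_eq_div_val, Units.val_mk0]
    have e3 : (b : F) / (p ^ 2 - a * q ^ 2) - 1 =
        -((p ^ 2 - a * q ^ 2 - b) / (p ^ 2 - a * q ^ 2)) := by
      field_simp
      ring
    rw [e3, v.abv.map_neg, map_div₀, hvc, div_lt_one (v.abv.pos b.ne_zero)]
    exact hpq'
  · intro h
    obtain ⟨c, ⟨p, q, hpq⟩, s, hs, h⟩ := Subgroup.mem_sup.mp h
    obtain ⟨u, hu⟩ := hs
    refine ⟨ι p * u, ι q * u, ?_⟩
    rw [iuF_val, iuF_val, ← h, Units.val_mul, map_mul, hu, hpq]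
    simp only [map_sub, map_mul, map_pow]
    ring

theorem LN_mul_sq {F : Type} [Field F] (a u : Fˣ) : LN (a * u ^ 2) = LN a := by
  ext b
  constructor
  · rintro ⟨x, y, h⟩
    exact ⟨x, u * y, by rw [h]; push_cast; ring⟩
  · rintro ⟨x, y, h⟩
    refine ⟨x, y / u, ?_⟩
    rw [h]
    push_cast
    have : (u : F) ≠ 0 := u.ne_zero
    field_simp

theorem sq_mem_LN {F : Type} [Field F] (a u : Fˣ) : u ^ 2 ∈ LN a :=
  ⟨u, 0, by push_cast; ring⟩

theorem comap_LN (v : Place F) (h2 : (2 : F) ≠ 0) (a : Fˣ) :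
    (LN (iuF v a)).comap (iuF v) = NF a ⊔ LSF v := by
  ext b
  exact mem_LN_iff v h2 a b

theorem index_LN (v : Place F) (h2 : (2 : F) ≠ 0) (a : Fˣ) :
    (LN (iuF v a)).index = (NF a ⊔ LSF v).index := by
  rw [← comap_LN v h2, Subgroup.index_comap, ← Subgroup.relIndex_sup_right]
  have : LN (iuF v a) ⊔ (iuF v).range = ⊤ := by
    rw [eq_top_iff]
    intro x _
    obtain ⟨b, u, rfl⟩ := exists_global v h2 x
    exact mul_mem (Subgroup.mem_sup_right ⟨b, rfl⟩) (Subgroup.mem_sup_left (sq_mem_LN _ u))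
  rw [sup_comm, this, Subgroup.relIndex_top_right]

/-- The elements near a local norm are local norms. -/
theorem norm_of_close (v : Place F) (h2 : (2 : F) ≠ 0) {a x y : Fˣ} (hx : x ∈ NF a ⊔ LSF v)
    (hxy : v.abv ((y : F) - x) < v.abv (x : F)) : y ∈ NF a ⊔ LSF v := by
  have h : y / x ∈ LSF v := by
    apply LSF_of_near_one v h2
    have hx0 : (x : F) ≠ 0 := x.ne_zero
    have e : ((y / x : Fˣ) : F) - 1 = ((y : F) - x) / x := by
      rw [Units.val_div_eq_div_val]; field_simp
    rw [e, map_div₀, div_lt_one (v.abv.pos hx0)]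
    exact hxy
  have e : y = x * (y / x) := by rw [mul_div_cancel]
  rw [e]
  exact mul_mem hx (Subgroup.mem_sup_right h)

end local_facts

end Vale.Agent.P011.H63.FB
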