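import Vale.Agent.P011.H63.End

/-!
**The end of the pair route, in the division ring.** `D` is a division ring with involution,
`δ` an element with `star δ = -δ` and `δ ^ 2 = d` in `k`, `L = k(σ)` the field generated by a
symmetric element commuting with `δ`. Let `c` be a homomorphism from the unitary group to a finite
group with `c (-1) = 1`, such that `c (cay τ) = 1` implies `c (cay (τ + b)) = 1` for `τ` in `L`
and `b` in `k`. Then `c` is trivial on the unitary elements of `L + L δ`.
-/

namespace Vale.Agent.P011.H63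

open Polynomial

section field

variable {k L D Q : Type*} [Field k] [Field L] [DivisionRing D] [StarRing D] [Algebra k L]
  [Algebra k D] [Group Q]

theorem sub_ne_of_star {D : Type*} [DivisionRing D] [StarRing D] {s δ : D} (hs : star s = s)
    (hδ : star δ = -δ) (h2 : (2 : D) ≠ 0) (h0 : δ ≠ 0) : s - δ ≠ 0 ∧ s + δ ≠ 0 := by
  have key : s ≠ δ ∧ s ≠ -δ := by
    constructor
    · intro h
      rw [h, hδ] at hs
      apply h0
      have : (2 : D) * δ = 0 := by
        rw [two_mul]
        nth_rewrite 1 [← hs]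
        exact neg_add_cancel δ
      exact (mul_eq_zero.1 this).resolve_left h2
    · intro h
      rw [h, star_neg, hδ, neg_neg] at hs
      apply h0
      have : (2 : D) * δ = 0 := by
        rw [two_mul]
        nth_rewrite 1 [hs]
        exact neg_add_cancel δ
      exact (mul_eq_zero.1 this).resolve_left h2
  exact ⟨sub_ne_zero.2 key.1, fun h => key.2 (eq_neg_of_add_eq_zero_left h)⟩

/-- **Main theorem with a field `L` embedded in the symmetric elements.** -/
theorem end_field [Infinite k] [Finite Q] [Algebra.IsAlgebraic k L] (h2 : (2 : k) ≠ 0)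
    (U : Subgroup Dˣ) (hU : ∀ g : Dˣ, g ∈ U ↔ (g : D) * star (g : D) = 1) (c : U →* Q)
    (δ : D) (hδ : star δ = -δ) (d : k) (hd : δ * δ = algebraMap k D d) (h0 : δ ≠ 0)
    (i : L →ₐ[k] D) (hi : ∀ x, star (i x) = i x) (hcom : ∀ x, Commute δ (i x))
    (hneg : ∀ u : U, ((u : Dˣ) : D) = -1 → c u = 1)
    (hline : ∀ (τ : L) (b : k) (u v : U), ((u : Dˣ) : D) * (i τ - δ) = i τ + δ →
      ((v : Dˣ) : D) * (i τ + algebraMap k D b - δ) = i τ + algebraMap k D b + δ →
      c u = 1 → c v = 1) :
    ∀ (x y : L) (u : U), ((u : Dˣ) : D) = i x + i y * δ → c u = 1 := by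
  have h2D : (2 : D) ≠ 0 := by
    have h := (map_ne_zero (algebraMap k D)).2 h2
    rwa [map_ofNat] at h
  have hne : ∀ x : L, i x - δ ≠ 0 ∧ i x + δ ≠ 0 := fun x => sub_ne_of_star (hi x) hδ h2D h0
  have hcm : ∀ x : L, Commute (i x) δ := fun x => (hcom x).symm
  have hii : ∀ x y : L, Commute (i x) (i y) := fun x y => by
    rw [commute_iff_eq, ← map_mul, ← map_mul, mul_comm]
  -- the element `cay τ` of the unitary group
  have hex : ∀ τ : L, ∃ u : U, ((u : Dˣ) : D) * (i τ - δ) = i τ + δ := by
    intro τ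
    have h1 : Commute (i τ + δ) (i τ - δ) :=
      ((Commute.refl _).sub_right (hcm τ)).add_left ((hcom τ).sub_right (Commute.refl _))
    have h3 : ((i τ + δ) * (i τ - δ)⁻¹) ≠ 0 := mul_ne_zero (hne τ).2 (inv_ne_zero (hne τ).1)
    refine ⟨⟨Units.mk0 _ h3, (hU _).2 ?_⟩, ?_⟩
    · rw [Units.val_mk0, star_mul, star_inv₀, star_sub, star_add, hi, hδ, sub_neg_eq_add,
        ← sub_eq_add_neg]
      rw [mul_assoc, ← mul_assoc (i τ - δ)⁻¹]
      have h4 : (i τ - δ)⁻¹ * (i τ + δ)⁻¹ = (i τ + δ)⁻¹ * (i τ - δ)⁻¹ := by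
        rw [← mul_inv_rev, ← mul_inv_rev, h1.eq]
      rw [h4, mul_assoc, inv_mul_cancel₀ (hne τ).1, mul_one, mul_inv_cancel₀ (hne τ).2]
    · rw [Units.val_mk0, mul_assoc, inv_mul_cancel₀ (hne τ).1, mul_one]
  choose C hC using hex
  have huniq : ∀ (τ : L) (u : U), ((u : Dˣ) : D) * (i τ - δ) = i τ + δ → u = C τ := by
    intro τ u hu
    rw [← hC τ] at hu
    exact Subtype.ext (Units.ext (mul_right_cancel₀ (hne τ).1 hu))
  have hns : ∀ z : L, z ^ 2 ≠ algebraMap k L d := by
    intro z hz
    have h1 : i z * i z = δ * δ := by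
      rw [hd, ← map_mul, ← pow_two, hz, AlgHom.commutes]
    have h3 : (i z - δ) * (i z + δ) = 0 := by
      rw [sub_mul, mul_add, mul_add, h1, (hcm z).eq]
      abel
    rcases mul_eq_zero.1 h3 with h | h
    · exact (hne z).1 h
    · exact (hne z).2 h
  have hf : TorHom k d (fun z : L => c (C z)) := by
    refine ⟨?_, ?_, ?_, ?_⟩
    · apply hneg
      have h := hC 0
      rw [map_zero, zero_sub, zero_add, mul_neg] at h
      have h3 : (((C 0 : U) : Dˣ) : D) * δ = -1 * δ := by
        rw [neg_mul, one_mul]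
        exact neg_eq_iff_eq_neg.1 h
      exact mul_right_cancel₀ h0 h3
    · intro z w hzw
      rw [← map_mul]
      congr 1
      apply huniq
      have hzw' : i (z + w) ≠ 0 := (map_ne_zero i).2 hzw
      have h1 : i ((z * w + algebraMap k L d) / (z + w)) * i (z + w) = i z * i w + δ * δ := by
        rw [← map_mul, div_mul_cancel₀ _ hzw, map_add, map_mul, AlgHom.commutes, hd]
      have e1 : (i ((z * w + algebraMap k L d) / (z + w)) - δ) * i (z + w) =
          (i z - δ) * (i w - δ) := by
        rw [sub_mul, h1, map_add, sub_mul, mul_sub, mul_sub, mul_add, (hcm z).eq]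
        abel
      have e2 : (i ((z * w + algebraMap k L d) / (z + w)) + δ) * i (z + w) =
          (i z + δ) * (i w + δ) := by
        rw [add_mul, h1, map_add, add_mul, mul_add, mul_add, mul_add, (hcm z).eq]
        abel
      apply mul_right_cancel₀ hzw'
      rw [mul_assoc, e1, e2]
      rw [Subgroup.coe_mul, Units.val_mul, mul_assoc]
      have hCc : Commute ((((C w : U) : Dˣ) : D)) (i z - δ) := by
        have h3 : (((C w : U) : Dˣ) : D) = (i w + δ) * (i w - δ)⁻¹ := by
          rw [← hC w, mul_assoc, mul_inv_cancel₀ (hne w).1, mul_one]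
        rw [h3]
        have h4 : Commute (i w + δ) (i z - δ) :=
          ((hii w z).sub_right (hcm w)).add_left ((hcom z).sub_right (Commute.refl _))
        have h5 : Commute (i w - δ) (i z - δ) :=
          ((hii w z).sub_right (hcm w)).sub_left ((hcom z).sub_right (Commute.refl _))
        exact h4.mul_left h5.inv_left₀
      rw [← mul_assoc (((C w : U) : Dˣ) : D), hCc.eq, mul_assoc, hC w, ← mul_assoc, hC z]
    · intro z
      rw [← map_mul, ← map_one c]
      congr 1
      apply Subtype.ext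
      apply Units.ext
      rw [Subgroup.coe_mul, Units.val_mul, Subgroup.coe_one, Units.val_one]
      have h1 := hC (-z)
      rw [map_neg] at h1
      have h3 : (((C (-z) : U) : Dˣ) : D) * (i z + δ) = i z - δ := by
        have h4 : (((C (-z) : U) : Dˣ) : D) * (-(i z + δ)) = -(i z - δ) := by
          rw [neg_add, ← sub_eq_add_neg, h1, neg_sub]
          abel
        rw [mul_neg, neg_inj] at h4
        exact h4
      apply mul_right_cancel₀ (hne z).2
      rw [mul_assoc, h3, hC z, one_mul]
    · intro z hz b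
      refine hline z b (C z) (C (z + algebraMap k L b)) (hC z) ?_ hz
      have h1 := hC (z + algebraMap k L b)
      rwa [map_add, AlgHom.commutes] at h1
  have hall := hf.eq_one hns h2
  intro x y u hu
  have hnorm : x * x - y * y * algebraMap k L d = 1 := by
    have h1 := (hU _).1 u.2
    rw [hu, star_add, star_mul, hi, hi, hδ, neg_mul, (hcom y).eq, ← sub_eq_add_neg] at h1
    have h3 : (i x + i y * δ) * (i x - i y * δ) = i (x * x - y * y * algebraMap k L d) := by
      rw [map_sub, map_mul, map_mul, map_mul, AlgHom.commutes, ← hd, add_mul, mul_sub, mul_sub]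
      have h4 : i y * δ * i x = i x * (i y * δ) := by
        rw [mul_assoc, (hcom x).eq, ← mul_assoc, (hii y x).eq, mul_assoc]
      have h5 : i y * δ * (i y * δ) = i y * i y * (δ * δ) := by
        rw [mul_assoc, ← mul_assoc δ, (hcom y).eq, mul_assoc, ← mul_assoc]
      rw [h4, h5]
      abel
    rw [h3, ← map_one i] at h1
    exact i.injective h1
  by_cases hx : x = 1
  · have hy : y = 0 := by
      rw [hx, mul_one, sub_eq_self] at hnorm
      have hdL : algebraMap k L d ≠ 0 := fun h => hns 0 (by rw [h]; simp)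
      simpa using (mul_eq_zero.1 hnorm).resolve_right hdL
    have h1 : u = 1 := by
      apply Subtype.ext
      apply Units.ext
      rw [hu, hx, hy, map_one, map_zero, zero_mul, add_zero, Subgroup.coe_one, Units.val_one]
    rw [h1, map_one]
  · have hx1 : x - 1 ≠ 0 := sub_ne_zero.2 hx
    have hx1' : i (x - 1) ≠ 0 := (map_ne_zero i).2 hx1
    rw [huniq (y * algebraMap k L d / (x - 1)) u ?_]
    · exact hall _
    · apply mul_right_cancel₀ hx1'
      rw [mul_assoc, sub_mul, add_mul, ← map_mul i, div_mul_cancel₀ _ hx1, map_mul,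
        AlgHom.commutes, ← hd, hu]
      have h1 : i y * (δ * δ) - δ * i (x - 1) = (i y * δ - i (x - 1)) * δ := by
        rw [sub_mul, mul_assoc, (hcom (x - 1)).eq]
      have h3 : i y * (δ * δ) + δ * i (x - 1) = (i y * δ + i (x - 1)) * δ := by
        rw [add_mul, mul_assoc, (hcom (x - 1)).eq]
      rw [h1, h3, ← mul_assoc]
      congr 1
      have h4 : i y * δ * i x = i x * (i y * δ) := by
        rw [mul_assoc, (hcom x).eq, ← mul_assoc, (hii y x).eq, mul_assoc]
      have h5 : i y * δ * (i y * δ) = i x * i x - 1 := by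
        have h6 : i y * δ * (i y * δ) = i y * i y * (δ * δ) := by
          rw [mul_assoc, ← mul_assoc δ, (hcom y).eq, mul_assoc, ← mul_assoc]
        rw [h6, hd, ← AlgHom.commutes i d, ← map_mul, ← map_mul, ← map_mul, ← map_one i,
          ← map_sub]
        congr 1
        rw [← hnorm]
        ring
      rw [map_sub, map_one, add_mul, mul_sub, mul_sub, mul_sub, mul_sub, h4, h5, mul_one, mul_one]
      abel

end field

section adjoin

variable {k D Q : Type*} [Field k] [DivisionRing D] [StarRing D] [Algebra k D] [Group Q]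

/-- The field `k(σ)` as an abstract field, mapped to `D`. -/
noncomputable def emb (k : Type*) {D : Type*} [Field k] [DivisionRing D] [Algebra k D] (σ : D) :
    AdjoinRoot (minpoly k σ) →ₐ[k] D :=
  Ideal.Quotient.liftₐ _ (aeval σ) (by
    intro p hp
    obtain ⟨q, rfl⟩ := Ideal.mem_span_singleton'.1 hp
    rw [map_mul, minpoly.aeval, mul_zero])

omit [StarRing D] in
theorem emb_mk (σ : D) (p : k[X]) : emb k σ (AdjoinRoot.mk (minpoly k σ) p) = aeval σ p := rfl

omit [StarRing D] in
theorem mem_range_emb {σ x : D} : x ∈ Algebra.adjoin k {σ} ↔ ∃ y, emb k σ y = x := by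
  rw [Algebra.adjoin_singleton_eq_range_aeval]
  constructor
  · rintro ⟨p, rfl⟩
    exact ⟨AdjoinRoot.mk _ p, rfl⟩
  · rintro ⟨y, rfl⟩
    induction y using AdjoinRoot.induction_on with
    | ih p => exact ⟨p, rfl⟩

/-- **The end, for `L = k(σ)`**, `σ` a symmetric algebraic element commuting with `δ`: the
homomorphism `c` is trivial on the unitary elements of `L + L δ`. -/
theorem end_adjoin [Infinite k] [Finite Q] (h2 : (2 : k) ≠ 0)
    (hst : ∀ a : k, star (algebraMap k D a) = algebraMap k D a)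
    (U : Subgroup Dˣ) (hU : ∀ g : Dˣ, g ∈ U ↔ (g : D) * star (g : D) = 1) (c : U →* Q)
    (δ : D) (hδ : star δ = -δ) (d : k) (hd : δ * δ = algebraMap k D d) (h0 : δ ≠ 0)
    (σ : D) (hσ : star σ = σ) (hint : IsIntegral k σ) (hcom : Commute δ σ)
    (hneg : ∀ u : U, ((u : Dˣ) : D) = -1 → c u = 1)
    (hline : ∀ τ ∈ Algebra.adjoin k {σ}, ∀ (b : k) (u v : U), ((u : Dˣ) : D) * (τ - δ) = τ + δ →
      ((v : Dˣ) : D) * (τ + algebraMap k D b - δ) = τ + algebraMap k D b + δ →
      c u = 1 → c v = 1) :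
    ∀ x ∈ Algebra.adjoin k {σ}, ∀ y ∈ Algebra.adjoin k {σ}, ∀ u : U,
      ((u : Dˣ) : D) = x + y * δ → c u = 1 := by
  have : Fact (Irreducible (minpoly k σ)) := ⟨minpoly.irreducible hint⟩
  have hfin : Module.Finite k (AdjoinRoot (minpoly k σ)) :=
    (AdjoinRoot.powerBasis (minpoly.ne_zero hint)).finite
  have hsym : ∀ x ∈ Algebra.adjoin k {σ}, star x = x := by
    intro x hx
    induction hx using Algebra.adjoin_induction with
    | mem x hx => rw [Set.mem_singleton_iff.1 hx, hσ]
    | algebraMap r => exact hst r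
    | add x y _ _ hx hy => rw [star_add, hx, hy]
    | mul x y hx' hy' hx hy =>
      rw [star_mul, hx, hy]
      obtain ⟨a, rfl⟩ := mem_range_emb.1 hx'
      obtain ⟨b, rfl⟩ := mem_range_emb.1 hy'
      rw [← map_mul, ← map_mul, mul_comm]
  have hc : ∀ x ∈ Algebra.adjoin k {σ}, Commute δ x := by
    intro x hx
    induction hx using Algebra.adjoin_induction with
    | mem x hx => rw [Set.mem_singleton_iff.1 hx]; exact hcom
    | algebraMap r => exact (Algebra.commutes r δ).symm
    | add x y _ _ hx hy => exact hx.add_right hy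
    | mul x y _ _ hx hy => exact hx.mul_right hy
  intro x hx y hy u hu
  obtain ⟨a, rfl⟩ := mem_range_emb.1 hx
  obtain ⟨b, rfl⟩ := mem_range_emb.1 hy
  exact end_field h2 U hU c δ hδ d hd h0 (emb k σ) (fun x => hsym _ (mem_range_emb.2 ⟨x, rfl⟩))
    (fun x => hc _ (mem_range_emb.2 ⟨x, rfl⟩)) hneg
    (fun τ => hline _ (mem_range_emb.2 ⟨τ, rfl⟩)) a b u hu

omit [StarRing D] in
/-- The elements of `K(σ)` for `K = k + k δ` are of the form `x + y δ` with `x, y` in `k(σ)`. -/
theorem mem_adjoin_top {K : Type*} [Field K] [Algebra K D] {δ σ : D} {d : k}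
    (hK : ∀ z : K, ∃ a b : k, algebraMap K D z = algebraMap k D a + algebraMap k D b * δ)
    (hd : δ * δ = algebraMap k D d) (hcom : Commute δ σ) {x : D}
    (hx : x ∈ Algebra.adjoin K {σ}) :
    ∃ a ∈ Algebra.adjoin k {σ}, ∃ b ∈ Algebra.adjoin k {σ}, x = a + b * δ := by
  have hc : ∀ x ∈ Algebra.adjoin k {σ}, Commute δ x := by
    intro x hx
    induction hx using Algebra.adjoin_induction with
    | mem x hx => rw [Set.mem_singleton_iff.1 hx]; exact hcom
    | algebraMap r => exact (Algebra.commutes r δ).symm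
    | add x y _ _ hx hy => exact hx.add_right hy
    | mul x y _ _ hx hy => exact hx.mul_right hy
  induction hx using Algebra.adjoin_induction with
  | mem x hx =>
    rw [Set.mem_singleton_iff.1 hx]
    exact ⟨σ, Algebra.subset_adjoin rfl, 0, zero_mem _, by rw [zero_mul, add_zero]⟩
  | algebraMap r =>
    obtain ⟨a, b, h⟩ := hK r
    exact ⟨_, Subalgebra.algebraMap_mem _ a, _, Subalgebra.algebraMap_mem _ b, h⟩
  | add x y _ _ hx hy =>
    obtain ⟨a, ha, b, hb, rfl⟩ := hx
    obtain ⟨a', ha', b', hb', rfl⟩ := hy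
    exact ⟨a + a', add_mem ha ha', b + b', add_mem hb hb', by rw [add_mul]; abel⟩
  | mul x y _ _ hx hy =>
    obtain ⟨a, ha, b, hb, rfl⟩ := hx
    obtain ⟨a', ha', b', hb', rfl⟩ := hy
    refine ⟨a * a' + b * b' * algebraMap k D d, add_mem (mul_mem ha ha')
      (mul_mem (mul_mem hb hb') (Subalgebra.algebraMap_mem _ d)), a * b' + b * a',
      add_mem (mul_mem ha hb') (mul_mem hb ha'), ?_⟩
    have h1 : b * δ * a' = b * a' * δ := by rw [mul_assoc, (hc a' ha').eq, mul_assoc]
    have h3 : b * δ * (b' * δ) = b * b' * (δ * δ) := by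
      rw [mul_assoc, ← mul_assoc δ, (hc b' hb').eq, mul_assoc, mul_assoc]
    rw [add_mul, mul_add, mul_add, h1, h3, hd, add_mul, ← mul_assoc a b' δ]
    abel

/-- **The end, for `E = K(σ)`.** -/
theorem end_top [Infinite k] [Finite Q] (h2 : (2 : k) ≠ 0) {K : Type*} [Field K] [Algebra K D]
    (hst : ∀ a : k, star (algebraMap k D a) = algebraMap k D a)
    (U : Subgroup Dˣ) (hU : ∀ g : Dˣ, g ∈ U ↔ (g : D) * star (g : D) = 1) (c : U →* Q)
    (δ : D) (hδ : star δ = -δ) (d : k) (hd : δ * δ = algebraMap k D d) (h0 : δ ≠ 0)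
    (hK : ∀ z : K, ∃ a b : k, algebraMap K D z = algebraMap k D a + algebraMap k D b * δ)
    (σ : D) (hσ : star σ = σ) (hint : IsIntegral k σ) (hcom : Commute δ σ)
    (hneg : ∀ u : U, ((u : Dˣ) : D) = -1 → c u = 1)
    (hline : ∀ τ ∈ Algebra.adjoin k {σ}, ∀ (b : k) (u v : U), ((u : Dˣ) : D) * (τ - δ) = τ + δ →
      ((v : Dˣ) : D) * (τ + algebraMap k D b - δ) = τ + algebraMap k D b + δ →
      c u = 1 → c v = 1) :
    ∀ u : U, ((u : Dˣ) : D) ∈ Algebra.adjoin K {σ} → c u = 1 := by
  intro u hu
  obtain ⟨x, hx, y, hy, h⟩ := mem_adjoin_top (k := k) hK hd hcom hu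
  exact end_adjoin h2 hst U hU c δ hδ d hd h0 σ hσ hint hcom hneg hline x hx y hy u h

end adjoin

end Vale.Agent.P011.H63
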