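import Vale.Agent.P011.One.TwoSplit

/-!
**Split places over number fields.** For every finite set `T` of finite places of the number
field `k` and every `d` in `kˣ` there is a finite place outside `T` at which `d` is a square; so
there is a finite place outside `T` at which the algebra with involution splits.
-/

open NumberField IsDedekindDomain Module Filter

set_option linter.unusedSectionVars false

namespace Vale.Agent.P011.H63

open Vale.Agent.P011.Arith Vale.Agent.P011.Even Vale.Agent.P011.Two Vale.Agent.P011.One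

variable {k : Type} [Field k] [NumberField k]

/-- A polynomial `a t² - 1` takes a nonzero nonunit value. -/
theorem exists_nonunit (a : 𝓞 k) (ha : a ≠ 0) :
    ∃ t : ℕ, a * (t : 𝓞 k) ^ 2 - 1 ≠ 0 ∧ ¬ IsUnit (a * (t : 𝓞 k) ^ 2 - 1) := by
  have h1 : ∀ σ : k →ₐ[ℚ] ℂ, ∀ᶠ t : ℕ in atTop,
      (2 : ℝ) ≤ ‖σ ((a * (t : 𝓞 k) ^ 2 - 1 : 𝓞 k) : k)‖ := by
    intro σ
    have hσ : 0 < ‖σ (a : k)‖ := by
      rw [norm_pos_iff]
      exact (map_ne_zero σ).2 (by simpa using ha)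
    filter_upwards [eventually_ge_atTop (⌈3 / ‖σ (a : k)‖⌉₊), eventually_ge_atTop 1] with t h1 h2
    have h3 : 3 / ‖σ (a : k)‖ ≤ (t : ℝ) := (Nat.le_ceil _).trans (by exact_mod_cast h1)
    have h4 : (1 : ℝ) ≤ t := by exact_mod_cast h2
    have h5 : 3 ≤ ‖σ (a : k)‖ * (t : ℝ) := by
      rw [div_le_iff₀ hσ] at h3
      linarith
    have h6 : σ ((a * (t : 𝓞 k) ^ 2 - 1 : 𝓞 k) : k) = σ (a : k) * (t : ℂ) ^ 2 - 1 := by
      simp
    rw [h6]
    have h7 : ‖σ (a : k) * (t : ℂ) ^ 2‖ = ‖σ (a : k)‖ * (t : ℝ) ^ 2 := by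
      rw [norm_mul, norm_pow, Complex.norm_natCast]
    have h8 : ‖σ (a : k) * (t : ℂ) ^ 2‖ - ‖(1 : ℂ)‖ ≤ ‖σ (a : k) * (t : ℂ) ^ 2 - 1‖ :=
      norm_sub_norm_le _ _
    rw [h7, norm_one] at h8
    have h9 : ‖σ (a : k)‖ * (t : ℝ) ≤ ‖σ (a : k)‖ * (t : ℝ) ^ 2 := by
      apply mul_le_mul_of_nonneg_left _ hσ.le
      nlinarith
    linarith
  obtain ⟨t, ht⟩ := (eventually_all.2 h1).exists
  have h2 : (2 : ℝ) ≤ ‖((Algebra.norm ℚ ((a * (t : 𝓞 k) ^ 2 - 1 : 𝓞 k) : k) : ℚ) : ℂ)‖ := by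
    have h3 := Algebra.norm_eq_prod_embeddings ℚ ℂ ((a * (t : 𝓞 k) ^ 2 - 1 : 𝓞 k) : k)
    have h4 : ((Algebra.norm ℚ ((a * (t : 𝓞 k) ^ 2 - 1 : 𝓞 k) : k) : ℚ) : ℂ) =
        ∏ σ : k →ₐ[ℚ] ℂ, σ ((a * (t : 𝓞 k) ^ 2 - 1 : 𝓞 k) : k) := by
      rw [← h3]
      rfl
    rw [h4, norm_prod]
    have hne : (Finset.univ : Finset (k →ₐ[ℚ] ℂ)).Nonempty := by
      rw [Finset.univ_nonempty_iff, ← Fintype.card_pos_iff, AlgHom.card]
      exact finrank_pos
    obtain ⟨σ₀, hσ₀⟩ := hne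
    calc (2 : ℝ) ≤ ‖σ₀ ((a * (t : 𝓞 k) ^ 2 - 1 : 𝓞 k) : k)‖ := ht σ₀
      _ ≤ ∏ σ : k →ₐ[ℚ] ℂ, ‖σ ((a * (t : 𝓞 k) ^ 2 - 1 : 𝓞 k) : k)‖ :=
        by
          classical
          rw [← Finset.mul_prod_erase _ _ hσ₀]
          refine le_mul_of_one_le_right (norm_nonneg _) ?_
          calc (1 : ℝ) = ∏ _σ ∈ Finset.univ.erase σ₀, (1 : ℝ) := by rw [Finset.prod_const_one]
            _ ≤ _ := Finset.prod_le_prod (fun _ _ => zero_le_one)
              (fun σ _ => le_trans one_le_two (ht σ))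
  refine ⟨t, fun h0 => ?_, fun hu => ?_⟩
  · rw [h0] at h2
    simp at h2
    norm_num at h2
  · have h5 := (NumberField.isUnit_iff_norm (K := k)).1 hu
    rw [RingOfIntegers.coe_norm] at h5
    rw [← Complex.ofReal_ratCast, Complex.norm_real, Real.norm_eq_abs] at h2
    have h6 : (|Algebra.norm ℚ ((a * (t : 𝓞 k) ^ 2 - 1 : 𝓞 k) : k)| : ℝ) = 1 := by
      exact_mod_cast h5
    linarith

/-- **Places at which `d` is a square.** -/
theorem exists_ls (d : kˣ) (T : Set (HeightOneSpectrum (𝓞 k))) (hT : T.Finite) :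
    ∃ v ∉ T, d ∈ LS (v.valuation k) := by
  obtain ⟨p, q, hq, hpq⟩ := IsFractionRing.div_surjective (A := 𝓞 k) (d : k)
  have hq0 : q ≠ 0 := nonZeroDivisors.ne_zero hq
  have hqk : (algebraMap (𝓞 k) k q) ≠ 0 := by simpa using hq0
  have hp0 : p ≠ 0 := by
    rintro rfl
    rw [map_zero, zero_div] at hpq
    exact d.ne_zero hpq.symm
  -- a common multiple
  have hm : ∃ m : 𝓞 k, m ≠ 0 ∧ ∀ v ∈ T, m ∈ v.asIdeal := by
    have h1 : ∀ v : HeightOneSpectrum (𝓞 k), ∃ x ∈ v.asIdeal, x ≠ 0 := fun v =>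
      Submodule.exists_mem_ne_zero_of_ne_bot v.ne_bot
    choose x hx hx0 using h1
    refine ⟨∏ v ∈ hT.toFinset, x v, Finset.prod_ne_zero_iff.2 fun v _ => hx0 v, fun v hv => ?_⟩
    exact Ideal.mem_of_dvd _ (Finset.dvd_prod_of_mem _ (hT.mem_toFinset.2 hv)) (hx v)
  obtain ⟨m₀, hm₀, hmT⟩ := hm
  set D : 𝓞 k := p * q with hD
  have hD0 : D ≠ 0 := mul_ne_zero hp0 hq0
  set m : 𝓞 k := 2 * q * D * m₀ with hmdef
  have hm0 : m ≠ 0 := mul_ne_zero (mul_ne_zero (mul_ne_zero two_ne_zero hq0) hD0) hm₀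
  obtain ⟨t, hy0, hyu⟩ := exists_nonunit (m ^ 2 * D) (mul_ne_zero (pow_ne_zero 2 hm0) hD0)
  set y : 𝓞 k := m ^ 2 * D * (t : 𝓞 k) ^ 2 - 1 with hy
  obtain ⟨M, hM, hM2⟩ := Ideal.exists_le_maximal (Ideal.span {y})
    (fun h' => hyu (Ideal.span_singleton_eq_top.mp h'))
  have hyM : y ∈ M := hM2 (Ideal.mem_span_singleton_self y)
  have hMb : M ≠ ⊥ := by
    rintro rfl
    exact hy0 (by simpa using hyM)
  set v : HeightOneSpectrum (𝓞 k) := ⟨M, hM.isPrime, hMb⟩ with hv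
  have hm1 : m ∉ v.asIdeal := by
    intro h
    have h1 : m ^ 2 * D * (t : 𝓞 k) ^ 2 - y ∈ M :=
      M.sub_mem (M.mul_mem_right _ (M.mul_mem_right _ (Ideal.pow_mem_of_mem M h 2 (by norm_num))))
        hyM
    rw [hy, sub_sub_cancel] at h1
    exact hM.ne_top ((Ideal.eq_top_iff_one M).2 h1)
  have hval : ∀ z : 𝓞 k, z ∉ v.asIdeal → v.valuation k (algebraMap (𝓞 k) k z) = 1 := by
    intro z hz
    refine le_antisymm (v.valuation_le_one z) (not_lt.1 fun h => hz ?_)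
    exact (v.valuation_lt_one_iff_mem z).1 h
  have h2 : (2 : 𝓞 k) ∉ v.asIdeal := fun h => hm1 (by
    rw [hmdef, mul_assoc, mul_assoc]
    exact Ideal.mul_mem_right _ _ h)
  have hyv : v.valuation k (algebraMap (𝓞 k) k y) < 1 := (v.valuation_lt_one_iff_mem y).2 hyM
  have h1y : v.valuation k (1 + algebraMap (𝓞 k) k y) = 1 := by
    rw [Valuation.map_one_add_of_lt _ hyv]
  have hprod : (1 : k) + algebraMap (𝓞 k) k y =
      algebraMap (𝓞 k) k m ^ 2 * algebraMap (𝓞 k) k D * (t : k) ^ 2 := by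
    rw [hy, map_sub, map_one, map_mul, map_mul, map_pow, map_pow, map_natCast]
    ring
  have hne : (1 : k) + algebraMap (𝓞 k) k y ≠ 0 := by
    intro h
    rw [h, map_zero] at h1y
    exact zero_ne_one h1y
  have htk : (t : k) ≠ 0 := by
    intro h
    rw [hprod, h] at hne
    exact hne (by ring)
  have hmk : algebraMap (𝓞 k) k m ≠ 0 := by simpa using hm0
  have hDk : algebraMap (𝓞 k) k D ≠ 0 := by simpa using hD0
  refine ⟨v, fun hvT => hm1 ?_, Units.mk0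
    (algebraMap (𝓞 k) k m * algebraMap (𝓞 k) k D * (t : k) / algebraMap (𝓞 k) k q)
    (div_ne_zero (mul_ne_zero (mul_ne_zero hmk hDk) htk) hqk), ?_⟩
  · rw [hmdef]
    exact Ideal.mul_mem_left _ _ (hmT v hvT)
  · have h4 : v.valuation k (4 : k) = 1 := by
      have h5 := hval 2 h2
      rw [map_ofNat] at h5
      have h6 : (4 : k) = 2 * 2 := by norm_num
      rw [h6, map_mul, h5, one_mul]
    rw [h4, Units.val_mk0]
    have h7 : (d : k) / (algebraMap (𝓞 k) k m * algebraMap (𝓞 k) k D * (t : k) /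
        algebraMap (𝓞 k) k q) ^ 2 - 1 = -(algebraMap (𝓞 k) k y) / (1 + algebraMap (𝓞 k) k y) := by
      rw [eq_div_iff hne]
      have h8 : (d : k) / (algebraMap (𝓞 k) k m * algebraMap (𝓞 k) k D * (t : k) /
          algebraMap (𝓞 k) k q) ^ 2 * (1 + algebraMap (𝓞 k) k y) = 1 := by
        have hpk : (algebraMap (𝓞 k) k p) ≠ 0 := by simpa using hp0
        have h9 : ∀ P Q M t : k, P ≠ 0 → Q ≠ 0 → M ≠ 0 → t ≠ 0 →
            P / Q / (M * (P * Q) * t / Q) ^ 2 * (M ^ 2 * (P * Q) * t ^ 2) = 1 := by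
          intro P Q M t hP hQ hM ht
          field_simp
        have h10 : algebraMap (𝓞 k) k D = algebraMap (𝓞 k) k p * algebraMap (𝓞 k) k q := by
          rw [hD, map_mul]
        rw [hprod, ← hpq, h10]
        exact h9 _ _ _ _ hpk hqk hmk htk
      rw [sub_mul, h8]
      ring
    rw [h7, map_div₀, h1y, div_one, Valuation.map_neg]
    exact hyv

/-- **Split places.** -/
theorem exists_splAt {K D : Type} [Field K] [StarRing K]
    [DivisionRing D] [StarRing D] [Algebra k K] [Algebra k D] [Algebra K D] [IsScalarTower k K D]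
    {d : kˣ} {s : K} (hS : Setting k K D d s) {n : ℕ} (hn : 0 < n) (hdeg : finrank K D = n ^ 2)
    (T : Set (HeightOneSpectrum (𝓞 k))) (hT : T.Finite) :
    ∃ v ∉ T, ∃ (φ : K →+* v.adicCompletion k)
      (f : D →+* Matrix (Fin n) (Fin n) (v.adicCompletion k)), SplAt K D n v φ f := by
  obtain ⟨S, hSf, h⟩ := splAt_almost hS hn hdeg
  obtain ⟨v, hv, hd⟩ := exists_ls d (S ∪ T) (hSf.union hT)
  obtain ⟨φ, f, hf⟩ := h v (fun h => hv (Or.inl h)) hd
  exact ⟨v, fun h => hv (Or.inr h), φ, f, hf⟩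

end Vale.Agent.P011.H63
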