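import Vale.Agent.P011.H63.DnC
import Vale.Agent.P011.H167.LandF
import Vale.Agent.P011.H73.RepF

/-!
# Existence of `t` with `b + t * r₀ * star t` isometric to `r₁` and `t * r₀ * star t` close to
given elements at finitely many places (helper63)
-/

open Filter TensorProduct Topology Matrix Module

set_option linter.unusedSectionVars false

namespace Vale.Agent.P011.H63.DN

open Vale.Agent.P011.Two2 (CData BB bform bb_star bb_refl)
open Vale.Agent.P011.H738 Vale.Agent.P011.H271 Vale.Agent.P011.H305 Vale.Agent.P011.H182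
open Vale.Agent.P011.H63.FB
open Vale.Agent.P011.Arith (NF)

variable {k K D : Type} [Field k] [Field K] [StarRing K]
  [DivisionRing D] [StarRing D] [Algebra k K] [Algebra k D] [Algebra K D] [IsScalarTower k K D]
  {d : kˣ} {s : K} {n N : ℕ}

theorem infinite_of_gff (k : Type) [Field k] [GFF k] : Infinite k := by
  obtain ⟨F, _, _, φ, -⟩ := GFF.out (k := k)
  have : Infinite (RatFunc F) := Infinite.of_injective (algebraMap (Polynomial F) (RatFunc F))
    (RatFunc.algebraMap_injective F)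
  exact Infinite.of_injective φ φ.injective

/-- Rank one forms over the completion at a nonsplit place. -/
theorem fin_isoF [GFF k] (hS : SetF k K D d s) (hdeg : finrank K D = n ^ 2)
    (B : Module.Basis (Fin N) k D) {Ω : Type} [Field Ω]
    [Algebra K Ω] (f : D →ₐ[K] Matrix (Fin n) (Fin n) Ω) (v : Place k)
    (hv : d ∉ LSF v) {e e' : D} (he : star e = e) (he' : star e' = e')
    (h0 : e ≠ 0) (h0' : e' ≠ 0)
    (h : ∀ ν ν' : kˣ, (f e).det = algebraMap K Ω (algebraMap k K ν) →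
      (f e').det = algebraMap K Ω (algebraMap k K ν') → ν * ν' ∈ NF d ⊔ LSF v) :
    ∃ T : (cfin (F := v.comp) hS.sig hS.sig_apply B).E,
      T * (cfin (F := v.comp) hS.sig hS.sig_apply B).φ e *
        (cfin (F := v.comp) hS.sig hS.sig_apply B).σ T =
          (cfin (F := v.comp) hS.sig hS.sig_apply B).φ e' := by
  obtain ⟨ν, hν⟩ := H167.Lf.exists_nrd_unit hS hdeg f he h0
  obtain ⟨ν', hν'⟩ := H167.Lf.exists_nrd_unit hS hdeg f he' h0'
  obtain ⟨T, hT⟩ := H167.Lf.tensor_finF hS hdeg f v hv he he' hν hν' (h ν ν' hν hν')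
  have h2 : hS.sig.baseChange v.comp T * (1 ⊗ₜ e) *
      hS.sig.baseChange v.comp (hS.sig.baseChange v.comp T) = 1 ⊗ₜ e' := by
    rw [sg_sg hS.sig hS.sig_apply]
    exact hT
  exact ⟨hS.sig.baseChange v.comp T, h2⟩

/-- Simultaneous solutions close to given local ones. -/
theorem dense_coreF (hk : IsGlobalFunctionField k) (hS : SetF k K D d s)
    (hdeg : finrank K D = n ^ 2)
    (B : Module.Basis (Fin N) k D) {Ω : Type} [Field Ω] [Algebra K Ω]
    (f : D →ₐ[K] Matrix (Fin n) (Fin n) Ω) {b r₀ r₁ : D} (hb : star b = b) (h0 : star r₀ = r₀)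
    (h1 : star r₁ = r₁) (hb0 : b ≠ 0) (h00 : r₀ ≠ 0) (h10 : r₁ ≠ 0)
    {T : Set (Place k)} (hT : T.Finite) (hTne : T.Nonempty) (hTd : ∀ p ∈ T, d ∉ LSF p)
    (R : Place k → D) (δ : Place k → ℝ)
    (hδ : ∀ p, 0 < δ p) (hRs : ∀ p ∈ T, star (R p) = R p) (hR0 : ∀ p ∈ T, R p ≠ 0)
    (hbR : ∀ p ∈ T, b + R p ≠ 0)
    (hF : ∀ v ∈ T, ∀ ν ν' : kˣ, (f r₀).det = algebraMap K Ω (algebraMap k K ν) →
      (f (R v)).det = algebraMap K Ω (algebraMap k K ν') → ν * ν' ∈ NF d ⊔ LSF v)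
    (hF' : ∀ v ∈ T, ∀ ν ν' : kˣ, (f r₁).det = algebraMap K Ω (algebraMap k K ν) →
      (f (b + R v)).det = algebraMap K Ω (algebraMap k K ν') → ν * ν' ∈ NF d ⊔ LSF v) :
    ∃ t x : D, t ≠ 0 ∧ x ≠ 0 ∧ b + t * r₀ * star t = x * r₁ * star x ∧
      ∀ p ∈ T, ∀ i, p.abv (B.repr (t * r₀ * star t - R p) i) < δ p := by
  have := gff_of_isGlobal hk
  have := infinite_of_gff k
  have hn0 : 0 < n := H929.E.pos_of_deg hS hdeg
  obtain ⟨x, y, hxy⟩ := H73.repF hk hS hb h0 h1 hb0 h00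
  suffices hloc : ∀ p ∈ T, ∃ (P : PData B p s n) (t x : P.C.E),
      t * P.C.φ r₀ * P.C.σ t = P.C.φ (R p) ∧ x * P.C.φ (b + R p) * P.C.σ x = P.C.φ r₁ by
    obtain ⟨t, z, ht, hz, h2, h3⟩ := dense_of_sol hS hn0 B hb h0 h10 hT hTne R δ hδ hR0 hloc
      (z₀ := (x, y)) hxy
    refine ⟨t, z, ht, hz, h2, fun p hp i => lt_of_le_of_lt ?_ (h3 p hp)⟩
    exact Finset.single_le_sum (f := fun i => p.abv (B.repr (t * r₀ * star t - R p) i))
      (fun _ _ => AbsoluteValue.nonneg _ _) (Finset.mem_univ i)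
  intro v hp
  have hv : d ∉ LSF v := hTd _ hp
  obtain ⟨L, _, _, _, ρ, φ, G, -, -, -, -, -, hφ, -, -⟩ := H929.E.exists_model hS hdeg v hv
  obtain ⟨P, hP⟩ := exists_pfin (s := s) (n := n) hS.sig hS.sig_apply B v ρ (θ := φ s) (hφ s)
  obtain ⟨t, ht⟩ := fin_isoF hS hdeg B f v hv h0 (hRs _ hp) h00 (hR0 _ hp) (hF v hp)
  obtain ⟨z, hz⟩ := fin_isoF hS hdeg B f v hv
    (show star (b + R v) = b + R v by rw [star_add, hb, hRs _ hp]) h1
    (hbR _ hp) h10 (fun ν ν' hν hν' => by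
      rw [mul_comm]
      exact hF' v hp ν' ν hν' hν)
  refine ⟨P, ?_⟩
  rw [hP]
  exact ⟨t, z, ht, hz⟩

end Vale.Agent.P011.H63.DN
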