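import Vale.Agent.P011.H321.SplitAlg

/-!
**The symmetric elements are dense at a split place.** `D` is a division algebra with involution of
the second kind over `K`, `φ : K → F` a homomorphism to a topological field such that the image of
the fixed field `k` is dense, `f : D → M_n(F)` a splitting over `φ`. Then the image of the symmetric
elements is dense.
-/

open Module

namespace Vale.Agent.P011.H63

variable {k K D F : Type*} [Field k] [Field K] [DivisionRing D] [StarRing D] [Algebra k K]
  [Algebra k D] [Algebra K D] [IsScalarTower k K D] [Algebra.IsCentral K D] [Field F]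
  [TopologicalSpace F] [IsTopologicalRing F] {n : ℕ}

/-- **Density of the symmetric elements.** -/
theorem dense_sym (hn : finrank K D = n ^ 2) (hn0 : n ≠ 0) (φ : K →+* F)
    (f : D →+* Matrix (Fin n) (Fin n) F)
    (hf : ∀ c : K, f (algebraMap K D c) = algebraMap F _ (φ c))
    (hden : DenseRange fun c : k => φ (algebraMap k K c))
    (hst : ∀ c : k, star (algebraMap k D c) = algebraMap k D c) (δ : K)
    (hδ : star (algebraMap K D δ) = -algebraMap K D δ) (hδ0 : δ ≠ 0) (h2 : (2 : K) ≠ 0) :
    Dense (f '' {x : D | star x = x}) := by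
  set C := closure (f '' {x : D | star x = x}) with hC
  have hcen : ∀ x : D, Commute (algebraMap K D δ) x := fun x => Algebra.commutes δ x
  -- the closure is closed under addition and under scalars of `F`
  have hadd : ∀ X ∈ C, ∀ Y ∈ C, X + Y ∈ C := by
    intro X hX Y hY
    refine map_mem_closure₂ continuous_add hX hY ?_
    rintro _ ⟨x, hx, rfl⟩ _ ⟨y, hy, rfl⟩
    refine ⟨x + y, ?_, map_add f x y⟩
    change star (x + y) = x + y
    rw [star_add, hx, hy]
  have hsmk : ∀ (c : k), ∀ X ∈ C, φ (algebraMap k K c) • X ∈ C := by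
    intro c X hX
    have h1 : Continuous fun X : Matrix (Fin n) (Fin n) F => φ (algebraMap k K c) • X :=
      continuous_const_smul _
    refine map_mem_closure h1 hX ?_
    rintro _ ⟨x, hx, rfl⟩
    refine ⟨algebraMap k D c * x, ?_, ?_⟩
    · change star (algebraMap k D c * x) = algebraMap k D c * x
      rw [star_mul, hst, hx, Algebra.commutes]
    · rw [map_mul, IsScalarTower.algebraMap_apply k K D, hf, Algebra.smul_def]
  have hsm : ∀ (c : F), ∀ X ∈ C, c • X ∈ C := by
    intro c X hX
    refine hden.induction_on (p := fun c : F => c • X ∈ C) c ?_ (fun a => hsmk a X hX)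
    exact isClosed_closure.preimage (continuous_id.smul continuous_const)
  have h0 : (0 : Matrix (Fin n) (Fin n) F) ∈ C :=
    subset_closure ⟨0, star_zero D, map_zero f⟩
  let S : Submodule F (Matrix (Fin n) (Fin n) F) :=
    { carrier := C
      add_mem' := fun {X Y} hX hY => hadd X hX Y hY
      zero_mem' := h0
      smul_mem' := fun c X hX => hsm c X hX }
  have hδD : algebraMap K D δ ≠ 0 := by simpa using hδ0
  have h2D : (2 : D) ≠ 0 := by
    have h := (map_ne_zero (algebraMap K D)).2 h2
    rwa [map_ofNat] at h
  -- every element of `D` is a combination of two symmetric elements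
  have hD : ∀ x : D, f x ∈ S := by
    intro x
    have hs1 : star (x + star x) = x + star x := by rw [star_add, star_star, add_comm]
    have hs2 : star (algebraMap K D δ * (x - star x)) = algebraMap K D δ * (x - star x) := by
      rw [star_mul, star_sub, star_star, hδ, (hcen (x - star x)).eq, mul_neg, ← neg_mul, neg_sub]
    have h1 : f (x + star x) ∈ S := subset_closure ⟨_, hs1, rfl⟩
    have h3 : f (algebraMap K D δ * (x - star x)) ∈ S := subset_closure ⟨_, hs2, rfl⟩
    have h4 := S.smul_mem (φ δ)⁻¹ h3
    have h5 := S.smul_mem (2 : F)⁻¹ (S.add_mem h1 h4)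
    have hφδ : φ δ ≠ 0 := (map_ne_zero φ).2 hδ0
    have h2F : (2 : F) ≠ 0 := by
      have h := (map_ne_zero φ).2 h2
      rwa [map_ofNat] at h
    have h6 : (φ δ)⁻¹ • f (algebraMap K D δ * (x - star x)) = f (x - star x) := by
      rw [map_mul, hf, Algebra.algebraMap_eq_smul_one, smul_mul_assoc, one_mul, smul_smul,
        inv_mul_cancel₀ hφδ, one_smul]
    rw [h6, ← map_add] at h5
    have h7 : x + star x + (x - star x) = 2 * x := by
      rw [two_mul]
      abel
    have h8 : f (2 * x) = (2 : F) • f x := by
      rw [two_mul, map_add, two_smul]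
    rw [h7, h8, smul_smul, inv_mul_cancel₀ h2F, one_smul] at h5
    exact h5
  have htop : S = ⊤ := by
    rw [eq_top_iff, ← Vale.Agent.P011.H321.span_range_eq_top' hn hn0 φ f hf]
    refine Submodule.span_le.2 ?_
    rintro _ ⟨x, rfl⟩
    exact hD x
  intro X
  have h9 : X ∈ S := by rw [htop]; trivial
  exact h9

/-- A symmetric element whose image lies in a given open set. -/
theorem exists_sym_mem (hn : finrank K D = n ^ 2) (hn0 : n ≠ 0) (φ : K →+* F)
    (f : D →+* Matrix (Fin n) (Fin n) F)
    (hf : ∀ c : K, f (algebraMap K D c) = algebraMap F _ (φ c))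
    (hden : DenseRange fun c : k => φ (algebraMap k K c))
    (hst : ∀ c : k, star (algebraMap k D c) = algebraMap k D c) (δ : K)
    (hδ : star (algebraMap K D δ) = -algebraMap K D δ) (hδ0 : δ ≠ 0) (h2 : (2 : K) ≠ 0)
    {O : Set (Matrix (Fin n) (Fin n) F)} (hO : IsOpen O) (hne : O.Nonempty) :
    ∃ x : D, star x = x ∧ f x ∈ O := by
  obtain ⟨_, hX, x, hx, rfl⟩ := (dense_sym hn hn0 φ f hf hden hst δ hδ hδ0 h2).inter_open_nonempty
    O hO hne
  exact ⟨x, hx, hX⟩

end Vale.Agent.P011.H63
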