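import Vale.Agent.P011.H63.SplitNF
import Vale.Agent.P011.H63.DenseSym

/-!
**Number fields: the symmetric elements are dense at a split place.**
-/

open NumberField IsDedekindDomain Module Filter

namespace Vale.Agent.P011.H63

open Vale.Agent.P011.Arith Vale.Agent.P011.Even Vale.Agent.P011.Two Vale.Agent.P011.One

variable {k : Type} [Field k] [NumberField k] {K D : Type} [Field K] [StarRing K]
  [DivisionRing D] [StarRing D] [Algebra k K] [Algebra k D] [Algebra K D] [IsScalarTower k K D]
  {d : kˣ} {s : K}

/-- The symmetric elements are dense at a split place. -/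
theorem dense_sym_splAt (hS : Setting k K D d s) {n : ℕ} (hn : 0 < n) (hdeg : finrank K D = n ^ 2)
    {v : HeightOneSpectrum (𝓞 k)} {φ : K →+* v.adicCompletion k}
    {f : D →+* Matrix (Fin n) (Fin n) (v.adicCompletion k)} (h : SplAt K D n v φ f) :
    Dense (f '' {x : D | star x = x}) := by
  have := hS.cen
  have : CharZero K := charZero_of_injective_algebraMap (algebraMap k K).injective
  have hstK : ∀ c : K, star (algebraMap K D c) = algebraMap K D (star c) := by
    intro c
    have h1 := hS.star_smul c (1 : D)
    rwa [star_one, Algebra.smul_def, Algebra.smul_def, mul_one, mul_one] at h1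
  refine dense_sym (k := k) hdeg hn.ne' φ f (fun c => ?_) ?_ (fun c => ?_) s ?_ hS.s_ne two_ne_zero
  · rw [h.map, Matrix.algebraMap_eq_diagonal]
    rfl
  · have h1 : (fun c : k => φ (algebraMap k K c)) = algebraMap k (v.adicCompletion k) := by
      funext c
      exact h.base c
    rw [h1]
    exact HeightOneSpectrum.denseRange_algebraMap k v
  · rw [IsScalarTower.algebraMap_apply k K D, hstK, (hS.fix _).2 ⟨c, rfl⟩]
  · rw [hstK, hS.star_s, map_neg]

/-- A symmetric element whose image lies in a given open set. -/
theorem exists_sym_splAt (hS : Setting k K D d s) {n : ℕ} (hn : 0 < n)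
    (hdeg : finrank K D = n ^ 2)
    {v : HeightOneSpectrum (𝓞 k)} {φ : K →+* v.adicCompletion k}
    {f : D →+* Matrix (Fin n) (Fin n) (v.adicCompletion k)} (h : SplAt K D n v φ f)
    {O : Set (Matrix (Fin n) (Fin n) (v.adicCompletion k))} (hO : IsOpen O) (hne : O.Nonempty) :
    ∃ x : D, star x = x ∧ f x ∈ O := by
  obtain ⟨_, hX, x, hx, rfl⟩ := (dense_sym_splAt hS hn hdeg h).inter_open_nonempty O hO hne
  exact ⟨x, hx, hX⟩

end Vale.Agent.P011.H63
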