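import Vale.Agent.P011.H63.DnA
import Vale.Agent.P011.Two2.CData

/-!
# Density of the vectors of given length of a hermitian form of rank two (helper63)
-/

open Filter

set_option linter.unusedSectionVars false

namespace Vale.Agent.P011.H63.DN

open Vale.Agent.P011.Two2 (CData BB bform bb_star bb_refl)
open Vale.Agent.P011.H738 Vale.Agent.P011.H271 Vale.Agent.P011.H305

section sphere

variable {D : Type} [DivisionRing D] [StarRing D]

theorem star_two_inv : star (2 : D)⁻¹ = (2 : D)⁻¹ := by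
  rw [star_inv₀, star_ofNat]

theorem two_inv_comm (h2 : (2 : D) ≠ 0) (x : D) : x * (2 : D)⁻¹ = (2 : D)⁻¹ * x := by
  rw [mul_inv_eq_iff_eq_mul₀ h2, mul_assoc, mul_two, mul_add, ← mul_add, ← two_mul,
    ← mul_assoc, inv_mul_cancel₀ h2, one_mul]

/-- Density of the vectors of given length, at several places simultaneously, under an
invertibility assumption. -/
theorem sphere (h2 : (2 : D) ≠ 0) {J : Type} (C : J → CData D)
    (hsim : ∀ X : ∀ p, (C p).E, ∃ x : ℕ → D, ∀ p, (C p).cv x (X p)) {b g c : D}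
    (hb : star b = b) (hg : star g = g) {z₀ : D × D} (hz₀ : bform b g z₀ z₀ = c)
    (Z : ∀ p, (C p).E × (C p).E) (hZ : ∀ p, BB (C p) b g (Z p) (Z p) = (C p).φ c)
    (Λ : ∀ p, (C p).E)
    (hΛ : ∀ p, ((C p).φ c - BB (C p) b g ((C p).φ z₀.1, (C p).φ z₀.2) (Z p)) * Λ p = 1) :
    ∃ z : ℕ → D × D, (∀ j, bform b g (z j) (z j) = c) ∧
      ∀ p, (C p).cv (fun j => (z j).1) (Z p).1 ∧ (C p).cv (fun j => (z j).2) (Z p).2 := by
  classical
  have hcs : star c = c := by rw [← hz₀, bb_star hb hg]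
  obtain ⟨w₁, hw₁⟩ := hsim fun p => (C p).φ z₀.1 - (Z p).1
  obtain ⟨w₂, hw₂⟩ := hsim fun p => (C p).φ z₀.2 - (Z p).2
  obtain ⟨t, ht⟩ := hsim fun p =>
    (C p).φ c - BB (C p) b g ((C p).φ z₀.1, (C p).φ z₀.2) (Z p)
  obtain ⟨κ, hκ⟩ : ∃ κ : ℕ → D, ∀ j, κ j =
    (2 : D)⁻¹ * (bform b g (w₁ j, w₂ j) (w₁ j, w₂ j) + (t j - star (t j))) := ⟨_, fun _ => rfl⟩
  have hκs : ∀ j, κ j + star (κ j) = bform b g (w₁ j, w₂ j) (w₁ j, w₂ j) := by
    intro j
    have h3 := bb_star hb hg (w₁ j, w₂ j) (w₁ j, w₂ j)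
    rw [hκ, star_mul, star_two_inv, two_inv_comm h2, ← mul_add, star_add, star_sub, star_star, h3]
    have h5 : bform b g (w₁ j, w₂ j) (w₁ j, w₂ j) + (t j - star (t j)) +
        (bform b g (w₁ j, w₂ j) (w₁ j, w₂ j) + (star (t j) - t j)) =
        2 * bform b g (w₁ j, w₂ j) (w₁ j, w₂ j) := by
      rw [two_mul]
      abel
    rw [h5, ← mul_assoc, inv_mul_cancel₀ h2, one_mul]
  -- the limits
  have hbb : ∀ p, ∀ {x y : ℕ → D × D} {X Y : (C p).E × (C p).E},
      (C p).cv (fun j => (x j).1) X.1 → (C p).cv (fun j => (x j).2) X.2 →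
      (C p).cv (fun j => (y j).1) Y.1 → (C p).cv (fun j => (y j).2) Y.2 →
      (C p).cv (fun j => bform b g (x j) (y j)) (BB (C p) b g X Y) := by
    intro p x y X Y h1 h2 h3 h4
    exact (C p).add ((C p).mul ((C p).mul h1 ((C p).const b)) ((C p).star' h3))
      ((C p).mul ((C p).mul h2 ((C p).const g)) ((C p).star' h4))
  have hκc : ∀ p, (C p).cv κ
      ((C p).φ c - BB (C p) b g ((C p).φ z₀.1, (C p).φ z₀.2) (Z p)) := by
    intro p
    set T := (C p).φ c - BB (C p) b g ((C p).φ z₀.1, (C p).φ z₀.2) (Z p) with hT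
    set W : (C p).E × (C p).E := ((C p).φ z₀.1 - (Z p).1, (C p).φ z₀.2 - (Z p).2) with hW
    have h1 := (C p).mul ((C p).const (2 : D)⁻¹) ((C p).add
      (hbb p (x := fun j => (w₁ j, w₂ j)) (y := fun j => (w₁ j, w₂ j)) (X := W) (Y := W)
        (hw₁ p) (hw₂ p) (hw₁ p) (hw₂ p)) ((C p).sub (ht p) ((C p).star' (ht p))))
    have hσT : (C p).σ T = (C p).φ c - BB (C p) b g (Z p) ((C p).φ z₀.1, (C p).φ z₀.2) := by
      rw [hT, (C p).σ_sub, (C p).σ_φ, hcs]
      congr 1
      have hadd : ∀ x y, (C p).σ (x + y) = (C p).σ x + (C p).σ y := by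
        intro x y
        have h0 : (C p).σ 0 = 0 := by simpa using (C p).σ_sub 0 0
        have h2 : (C p).σ (-y) = -(C p).σ y := by
          rw [← zero_sub, (C p).σ_sub, h0, zero_sub]
        rw [← sub_neg_eq_add, (C p).σ_sub, h2, sub_neg_eq_add]
      simp only [BB, hadd, (C p).σ_mul, (C p).σ_σ, (C p).σ_φ, hb, hg, mul_assoc]
    have hWW : BB (C p) b g W W = T + (C p).σ T := by
      rw [hσT, hT]
      have h2 : BB (C p) b g ((C p).φ z₀.1, (C p).φ z₀.2) ((C p).φ z₀.1, (C p).φ z₀.2) =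
          (C p).φ c := by
        rw [← hz₀]
        simp only [BB, bform, (C p).σ_φ, map_add, map_mul]
      have h3 : BB (C p) b g W W = BB (C p) b g ((C p).φ z₀.1, (C p).φ z₀.2)
          ((C p).φ z₀.1, (C p).φ z₀.2) - BB (C p) b g ((C p).φ z₀.1, (C p).φ z₀.2) (Z p) -
          BB (C p) b g (Z p) ((C p).φ z₀.1, (C p).φ z₀.2) + BB (C p) b g (Z p) (Z p) := by
        simp only [BB, hW, (C p).σ_sub]
        noncomm_ring
      rw [h3, h2, hZ p]
      abel
    have h4 : (C p).φ (2 : D)⁻¹ * (BB (C p) b g W W + (T - (C p).σ T)) = T := by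
      rw [hWW]
      have h5 : T + (C p).σ T + (T - (C p).σ T) = (C p).φ 2 * T := by
        have h6 : (C p).φ 2 = 1 + 1 := by rw [← one_add_one_eq_two, map_add, map_one]
        rw [h6, add_mul, one_mul]
        abel
      rw [h5, ← mul_assoc, ← map_mul, inv_mul_cancel₀ h2, map_one, one_mul]
    rw [← hT, h4] at h1
    exact (C p).congr h1 (Eventually.of_forall fun j => (hκ j).symm)
  refine ⟨fun j => if κ j = 0 then z₀ else
    z₀ - (bform b g z₀ (w₁ j, w₂ j) * (κ j)⁻¹) • (w₁ j, w₂ j), fun j => ?_, fun p => ?_⟩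
  · dsimp only
    split_ifs with h
    · exact hz₀
    · rw [bb_refl hb hg h (hκs j), hz₀]
  · have hκ0 : ∀ᶠ j in atTop, κ j ≠ 0 := by
      refine (C p).ne (hκc p) fun h => ?_
      have h1 := hΛ p
      rw [h, zero_mul] at h1
      exact zero_ne_one h1
    have h3 := (C p).inv (hκc p) (hΛ p) hκ0
    have h5 := hbb p (x := fun _ => z₀) (y := fun j => (w₁ j, w₂ j))
      (X := ((C p).φ z₀.1, (C p).φ z₀.2))
      (Y := ((C p).φ z₀.1 - (Z p).1, (C p).φ z₀.2 - (Z p).2))
      ((C p).const _) ((C p).const _) (hw₁ p) (hw₂ p)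
    have h6 : BB (C p) b g ((C p).φ z₀.1, (C p).φ z₀.2)
        ((C p).φ z₀.1 - (Z p).1, (C p).φ z₀.2 - (Z p).2) =
        (C p).φ c - BB (C p) b g ((C p).φ z₀.1, (C p).φ z₀.2) (Z p) := by
      rw [← hz₀]
      simp only [BB, bform, (C p).σ_sub, (C p).σ_φ, map_add, map_mul]
      noncomm_ring
    rw [h6] at h5
    have h7 := (C p).mul h5 h3
    rw [hΛ p] at h7
    constructor
    · have h8 := (C p).sub ((C p).const z₀.1) ((C p).mul h7 (hw₁ p))
      rw [one_mul, sub_sub_cancel] at h8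
      refine (C p).congr h8 ?_
      filter_upwards [hκ0] with j hj
      rw [if_neg hj]
      rfl
    · have h8 := (C p).sub ((C p).const z₀.2) ((C p).mul h7 (hw₂ p))
      rw [one_mul, sub_sub_cancel] at h8
      refine (C p).congr h8 ?_
      filter_upwards [hκ0] with j hj
      rw [if_neg hj]
      rfl

end sphere

section bad

variable {k L : Type} [Field k] [Field L] {n : ℕ}

/-- Only finitely many twists are bad. -/
theorem finite_bad_twist (h2 : (2 : L) ≠ 0) (i : k →+* L) {θ : L} {d : k} (hθ : θ ^ 2 = i d) (hd : ¬ IsSquare d)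
    (P M : Matrix (Fin n) (Fin n) L) (hP : IsUnit P) :
    {x : k | ¬ IsUnit (P * Matrix.scalar (Fin n) ((i x + θ) / (i x - θ)) - M)}.Finite := by
  classical
  have hθ0 : θ ≠ 0 := by
    rintro rfl
    apply hd
    rw [zero_pow two_ne_zero] at hθ
    have h1 : d = 0 := (map_eq_zero i).mp hθ.symm
    rw [h1]
    exact ⟨0, by simp⟩
  have hne : ∀ x : k, i x - θ ≠ 0 := by
    intro x h
    apply hd
    refine ⟨x, i.injective ?_⟩
    rw [← hθ, ← sub_eq_zero.mp h, map_mul, sq]
  have hinj : Function.Injective fun x : k => (i x + θ) / (i x - θ) := by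
    intro x y hxy
    simp only at hxy
    rw [div_eq_div_iff (hne x) (hne y)] at hxy
    have h1 : (2 * θ) * (i y - i x) = 0 := by linear_combination hxy
    have h2 := (mul_eq_zero.mp h1).resolve_left (mul_ne_zero h2 hθ0)
    exact i.injective (sub_eq_zero.mp h2).symm
  obtain ⟨u, hu⟩ := hP
  have hfin : {t : L | ((((u⁻¹ : (Matrix (Fin n) (Fin n) L)ˣ) : Matrix (Fin n) (Fin n) L) *
      M).charpoly).IsRoot t}.Finite :=
    Polynomial.finite_setOfPred_isRoot (Matrix.charpoly_monic _).ne_zero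
  refine (hfin.preimage hinj.injOn).subset fun x hx => ?_
  by_contra hcon
  apply hx
  have h3 : IsUnit (Matrix.scalar (Fin n) ((i x + θ) / (i x - θ)) -
      (((u⁻¹ : (Matrix (Fin n) (Fin n) L)ˣ) : Matrix (Fin n) (Fin n) L) * M)) := by
    rw [Matrix.isUnit_iff_isUnit_det, ← Matrix.eval_charpoly]
    exact (show _ ≠ (0 : L) from hcon).isUnit
  have h4 : P * Matrix.scalar (Fin n) ((i x + θ) / (i x - θ)) - M = P *
      (Matrix.scalar (Fin n) ((i x + θ) / (i x - θ)) -
      (((u⁻¹ : (Matrix (Fin n) (Fin n) L)ˣ) : Matrix (Fin n) (Fin n) L) * M)) := by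
    rw [mul_sub, ← mul_assoc, ← hu, Units.mul_inv, one_mul]
  rw [h4]
  exact (hu ▸ u.isUnit).mul h3

end bad

section twist

variable {D : Type} [DivisionRing D] [StarRing D]

/-- Density after a twist by a central element. -/
theorem sphere_twist (h2 : (2 : D) ≠ 0) {J : Type} (C : J → CData D)
    (hsim : ∀ X : ∀ p, (C p).E, ∃ x : ℕ → D, ∀ p, (C p).cv x (X p)) {b g c : D}
    (hb : star b = b) (hg : star g = g) {z₀ : D × D} (hz₀ : bform b g z₀ z₀ = c)
    {w : D} (hww : w * star w = 1) (hww' : star w * w = 1) (hcw : ∀ x, w * x = x * w)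
    (Z : ∀ p, (C p).E × (C p).E) (hZ : ∀ p, BB (C p) b g (Z p) (Z p) = (C p).φ c)
    (hinv : ∀ p, IsUnit ((C p).φ (c * w) -
      BB (C p) b g ((C p).φ z₀.1, (C p).φ z₀.2) (Z p))) :
    ∃ z : ℕ → D × D, (∀ j, bform b g (z j) (z j) = c) ∧
      ∀ p, (C p).cv (fun j => (z j).1) (Z p).1 ∧ (C p).cv (fun j => (z j).2) (Z p).2 := by
  have hcs : star c = c := by rw [← hz₀, bb_star hb hg]
  have hcw' : ∀ x, star w * x = x * star w := by
    intro x
    have h1 := congrArg star (hcw (star x))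
    rw [star_mul, star_mul, star_star] at h1
    exact h1.symm
  -- the twisted form
  have hBB : ∀ p (X Y : (C p).E × (C p).E), BB (C p) b g X ((C p).φ w * Y.1, (C p).φ w * Y.2) =
      BB (C p) b g X Y * (C p).φ (star w) := by
    intro p X Y
    simp only [BB, (C p).σ_mul, (C p).σ_φ]
    noncomm_ring
  choose u hu using hinv
  obtain ⟨z, hz, hz'⟩ := sphere h2 C hsim hb hg hz₀
    (fun p => ((C p).φ w * (Z p).1, (C p).φ w * (Z p).2)) (fun p => by
      have h1 : BB (C p) b g ((C p).φ w * (Z p).1, (C p).φ w * (Z p).2)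
          ((C p).φ w * (Z p).1, (C p).φ w * (Z p).2) =
          (C p).φ w * BB (C p) b g (Z p) (Z p) * (C p).φ (star w) := by
        rw [hBB]
        simp only [BB]
        noncomm_ring
      rw [h1, hZ, ← map_mul, ← map_mul, hcw, mul_assoc, hww, mul_one])
    (fun p => (C p).φ w * (((u p)⁻¹ : ((C p).E)ˣ) : (C p).E)) (fun p => by
      have h1 : (C p).φ c - BB (C p) b g ((C p).φ z₀.1, (C p).φ z₀.2)
          ((C p).φ w * (Z p).1, (C p).φ w * (Z p).2) =
          ((C p).φ (c * w) - BB (C p) b g ((C p).φ z₀.1, (C p).φ z₀.2) (Z p)) *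
            (C p).φ (star w) := by
        rw [hBB, sub_mul, ← map_mul, mul_assoc c, hww, mul_one]
      rw [h1, mul_assoc, ← mul_assoc ((C p).φ (star w)), ← map_mul, hww', map_one, one_mul,
        ← hu p, Units.mul_inv])
  refine ⟨fun j => star w • z j, fun j => ?_, fun p => ?_⟩
  · have h1 : bform b g (star w • z j) (star w • z j) = star w * bform b g (z j) (z j) * w := by
      simp only [bform, Prod.smul_fst, Prod.smul_snd, smul_eq_mul, star_mul, star_star]
      noncomm_ring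
    rw [h1, hz, hcw', mul_assoc, hww', mul_one]
  · have h1 := (C p).mul ((C p).const (star w)) (hz' p).1
    have h2 := (C p).mul ((C p).const (star w)) (hz' p).2
    rw [← mul_assoc, ← map_mul, hww', map_one, one_mul] at h1 h2
    exact ⟨h1, h2⟩

end twist

section model

variable {k K D : Type} [Field k] [Field K] [StarRing K]
  [DivisionRing D] [StarRing D] [Algebra k K] [Algebra k D] [Algebra K D] [IsScalarTower k K D]
  {d : kˣ} {s : K}

/-- A matrix model of a completion. -/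
structure CMod (k : Type) {K D : Type} [Field k] [Field K] [DivisionRing D] [StarRing D]
    [Algebra k D] [Algebra K D] (s : K) (C : CData D) (n : ℕ) where
  L : Type
  [field : Field L]
  i : k →+* L
  θ : L
  ρ : C.E ≃+* Matrix (Fin n) (Fin n) L
  hk : ∀ x : k, ρ (C.φ (algebraMap k D x)) = Matrix.scalar (Fin n) (i x)
  hs : ρ (C.φ (algebraMap K D s)) = Matrix.scalar (Fin n) θ

attribute [instance] CMod.field

theorem CMod.bad (hS : SetF k K D d s) {n : ℕ} (hn : 0 < n) {C : CData D}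
    (M : CMod k s C n) {c : D} (hc : c ≠ 0) (X : C.E) :
    {x : k | ¬ IsUnit (C.φ (c * algebraMap K D
      ((algebraMap k K x + s) * (algebraMap k K x - s)⁻¹)) - X)}.Finite := by
  have : Nonempty (Fin n) := ⟨⟨0, hn⟩⟩
  have hL2 : (2 : M.L) ≠ 0 := by
    rw [← map_ofNat M.i 2]
    exact (_root_.map_ne_zero _).mpr hS.two_ne
  have hθ : M.θ ^ 2 = M.i d := by
    have h1 : M.ρ (C.φ (algebraMap K D (s ^ 2))) = Matrix.scalar (Fin n) (M.θ ^ 2) := by
      rw [map_pow, map_pow, map_pow, M.hs, map_pow]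
    rw [hS.sq, ← IsScalarTower.algebraMap_apply, M.hk] at h1
    exact (Matrix.scalar_inj.mp h1).symm
  have hne : ∀ x : k, algebraMap k K x - s ≠ 0 := by
    intro x h
    apply hS.ns
    refine ⟨x, (algebraMap k K).injective ?_⟩
    rw [← hS.sq, ← sub_eq_zero.mp h, map_mul, sq]
  have hne' : ∀ x : k, M.i x - M.θ ≠ 0 := by
    intro x h
    apply hS.ns
    refine ⟨x, M.i.injective ?_⟩
    rw [← hθ, ← sub_eq_zero.mp h, map_mul, sq]
  have hcu : IsUnit (M.ρ (C.φ c)) := ((isUnit_iff_ne_zero.mpr hc).map C.φ).map M.ρ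
  refine (finite_bad_twist hL2 M.i hθ hS.ns (M.ρ (C.φ c)) (M.ρ X) hcu).subset fun x hx => ?_
  intro hcon
  apply hx
  have h1 : M.ρ (C.φ (c * algebraMap K D ((algebraMap k K x + s) * (algebraMap k K x - s)⁻¹)) - X) =
      M.ρ (C.φ c) * Matrix.scalar (Fin n) ((M.i x + M.θ) / (M.i x - M.θ)) - M.ρ X := by
    rw [map_sub, map_mul, map_mul]
    congr 2
    have h2 : ∀ y : K, M.ρ (C.φ (algebraMap K D (y * (algebraMap k K x - s)))) =
        M.ρ (C.φ (algebraMap K D y)) * Matrix.scalar (Fin n) (M.i x - M.θ) := by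
      intro y
      rw [map_mul, map_mul, map_mul, map_sub, map_sub, map_sub, M.hs,
        ← IsScalarTower.algebraMap_apply, M.hk, map_sub]
    have h3 := h2 ((algebraMap k K x + s) * (algebraMap k K x - s)⁻¹)
    rw [mul_assoc, inv_mul_cancel₀ (hne x), mul_one, map_add, map_add, map_add, M.hs,
      ← IsScalarTower.algebraMap_apply, M.hk, ← map_add] at h3
    have h4 : Matrix.scalar (Fin n) (M.i x + M.θ) =
        Matrix.scalar (Fin n) ((M.i x + M.θ) / (M.i x - M.θ)) *
          Matrix.scalar (Fin n) (M.i x - M.θ) := by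
      rw [← map_mul, div_mul_cancel₀ _ (hne' x)]
    rw [h4] at h3
    have h5 : IsUnit (Matrix.scalar (Fin n) (M.i x - M.θ)) :=
      (isUnit_iff_ne_zero.mpr (hne' x)).map (Matrix.scalar (Fin n))
    exact (h5.mul_right_cancel h3).symm
  have h6 : IsUnit (M.ρ (C.φ (c * algebraMap K D
      ((algebraMap k K x + s) * (algebraMap k K x - s)⁻¹)) - X)) := by
    rw [h1]; exact hcon
  have h7 := h6.map M.ρ.symm
  rwa [RingEquiv.symm_apply_apply] at h7

/-- **Density of the vectors of given length**, at several places simultaneously. -/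
theorem sphere_dense [Infinite k] (hS : SetF k K D d s) {n : ℕ} (hn : 0 < n) {J : Type} [Finite J]
    (C : J → CData D) (M : ∀ p, CMod k s (C p) n)
    (hsim : ∀ X : ∀ p, (C p).E, ∃ x : ℕ → D, ∀ p, (C p).cv x (X p)) {b g c : D}
    (hb : star b = b) (hg : star g = g) (hc : c ≠ 0) {z₀ : D × D} (hz₀ : bform b g z₀ z₀ = c)
    (Z : ∀ p, (C p).E × (C p).E) (hZ : ∀ p, BB (C p) b g (Z p) (Z p) = (C p).φ c) :
    ∃ z : ℕ → D × D, (∀ j, bform b g (z j) (z j) = c) ∧
      ∀ p, (C p).cv (fun j => (z j).1) (Z p).1 ∧ (C p).cv (fun j => (z j).2) (Z p).2 := by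
  have h2 : (2 : D) ≠ 0 := by
    rw [← map_ofNat (algebraMap k D) 2]
    exact (_root_.map_ne_zero _).mpr hS.two_ne
  have hne : ∀ x : k, algebraMap k K x - s ≠ 0 := by
    intro x h
    apply hS.ns
    refine ⟨x, (algebraMap k K).injective ?_⟩
    rw [← hS.sq, ← sub_eq_zero.mp h, map_mul, sq]
  have hne2 : ∀ x : k, algebraMap k K x + s ≠ 0 := by
    intro x h
    have h1 := congrArg star h
    rw [star_add, (hS.fix _).mpr ⟨x, rfl⟩, hS.star_s, star_zero, ← sub_eq_add_neg] at h1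
    exact hne x h1
  obtain ⟨x, hx⟩ : ∃ x : k, ∀ p, IsUnit ((C p).φ (c * algebraMap K D
      ((algebraMap k K x + s) * (algebraMap k K x - s)⁻¹)) -
      BB (C p) b g ((C p).φ z₀.1, (C p).φ z₀.2) (Z p)) := by
    have h1 := Set.finite_iUnion fun p => (M p).bad hS hn hc
      (BB (C p) b g ((C p).φ z₀.1, (C p).φ z₀.2) (Z p))
    obtain ⟨x, -, hx⟩ := (Set.infinite_univ (α := k)).sdiff h1 |>.nonempty
    refine ⟨x, fun p => ?_⟩
    by_contra hcon
    exact hx (Set.mem_iUnion.mpr ⟨p, hcon⟩)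
  have hst : star (algebraMap k K x + s) = algebraMap k K x - s := by
    rw [star_add, (hS.fix _).mpr ⟨x, rfl⟩, hS.star_s, ← sub_eq_add_neg]
  have hst' : star (algebraMap k K x - s) = algebraMap k K x + s := by
    rw [← hst, star_star]
  have hw : ((algebraMap k K x + s) * (algebraMap k K x - s)⁻¹) *
      star ((algebraMap k K x + s) * (algebraMap k K x - s)⁻¹) = 1 := by
    rw [star_mul', star_inv₀, hst, hst']
    have h1 := hne x
    have h2 := hne2 x
    field_simp
  have halg : ∀ y : K, star (algebraMap K D y) = algebraMap K D (star y) := by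
    intro y
    rw [Algebra.algebraMap_eq_smul_one, hS.star_smul, star_one, ← Algebra.algebraMap_eq_smul_one]
  refine sphere_twist h2 C hsim hb hg hz₀
    (w := algebraMap K D ((algebraMap k K x + s) * (algebraMap k K x - s)⁻¹)) ?_ ?_
    (fun y => Algebra.commutes _ y) Z hZ hx
  · rw [halg, ← map_mul, hw, map_one]
  · rw [halg, ← map_mul, mul_comm, hw, map_one]

end model

end Vale.Agent.P011.H63.DN
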