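import Vale.Agent.P011.H63.DnB

/-!
# From one global solution and local solutions to global solutions close to the local ones
(helper63)
-/

open Filter TensorProduct Topology Matrix Module

set_option linter.unusedSectionVars false

namespace Vale.Agent.P011.H63.DN

open Vale.Agent.P011.Two2 (CData BB bform bb_star bb_refl)
open Vale.Agent.P011.H738 Vale.Agent.P011.H271 Vale.Agent.P011.H305 Vale.Agent.P011.H182

/-- The completion at a place, with a matrix model. -/
structure PData {k K D : Type} [Field k] [Field K] [DivisionRing D] [StarRing D]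
    [Algebra k D] [Algebra K D] {N : ℕ} (B : Module.Basis (Fin N) k D) (p : Place k) (s : K)
    (n : ℕ) where
  C : CData D
  M : CMod k s C n
  near : ∀ {x y : ℕ → D} {X : C.E}, C.cv x X →
    Tendsto (fun j => na B p.abv (y j - x j)) atTop (𝓝 0) → C.cv y X
  surj : ∀ X, ∃ x, C.cv x X
  size : ∀ {x : ℕ → D} {X : D}, C.cv x (C.φ X) →
    Tendsto (fun j => na B p.abv (x j - X)) atTop (𝓝 0)

section one

variable {k D F : Type} [Field k] [NormedField F] [Algebra k F] [DivisionRing D] [StarRing D]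
  [Algebra k D] {N : ℕ} (τ : D →ₗ[k] D) (hτ : ∀ x, τ x = star x)

include hτ

theorem sg_mul (X Y : F ⊗[k] D) :
    τ.baseChange F (X * Y) = τ.baseChange F Y * τ.baseChange F X := by
  induction X using TensorProduct.induction_on with
  | zero => rw [zero_mul, map_zero, mul_zero]
  | add X X' h h' => rw [add_mul, map_add, h, h', map_add, mul_add]
  | tmul a x =>
    induction Y using TensorProduct.induction_on with
    | zero => rw [mul_zero, map_zero, zero_mul]
    | add Y Y' h h' => rw [mul_add, map_add, h, h', map_add, add_mul]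
    | tmul b y =>
      rw [Algebra.TensorProduct.tmul_mul_tmul, LinearMap.baseChange_tmul,
        LinearMap.baseChange_tmul, LinearMap.baseChange_tmul,
        Algebra.TensorProduct.tmul_mul_tmul, hτ, hτ, hτ, star_mul, mul_comm]

theorem sg_sg (X : F ⊗[k] D) : τ.baseChange F (τ.baseChange F X) = X := by
  induction X using TensorProduct.induction_on with
  | zero => rw [map_zero, map_zero]
  | add X X' h h' => rw [map_add, map_add, h, h']
  | tmul a x => rw [LinearMap.baseChange_tmul, LinearMap.baseChange_tmul, hτ, hτ, star_star]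

omit hτ in
theorem nontrivial_fin (B : Module.Basis (Fin N) k D) : Nontrivial (F ⊗[k] D) := by
  refine ⟨⟨1, 0, fun h => ?_⟩⟩
  have h1 : ∀ i, B.repr (1 : D) i = 0 := by
    intro i
    apply (algebraMap k F).injective
    rw [← cof_tmul, ← Algebra.TensorProduct.one_def, h, map_zero, cof, map_zero]
    rfl
  have h2 : (1 : D) = 0 := B.repr.injective (by
    rw [map_zero]
    exact Finsupp.ext h1)
  exact one_ne_zero h2

omit hτ in
theorem Cv.star' {B : Module.Basis (Fin N) k D} (hτ : ∀ x, τ x = star x) {x : ℕ → D}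
    {X : F ⊗[k] D} (hx : Cv B x X) : Cv B (fun j => star (x j)) (τ.baseChange F X) := by
  have := hx.linear τ
  simp only [hτ] at this
  exact this

/-- The completion at a finite place. -/
noncomputable def cfin (B : Module.Basis (Fin N) k D) : CData D :=
  have := nontrivial_fin (F := F) B
  { E := F ⊗[k] D
    φ := (Algebra.TensorProduct.includeRight : D →ₐ[k] F ⊗[k] D).toRingHom
    σ := τ.baseChange F
    σ_mul := sg_mul τ hτ
    σ_sub := fun x y => map_sub _ x y
    σ_σ := sg_sg τ hτ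
    σ_φ := fun x => by
      change τ.baseChange F ((1 : F) ⊗ₜ x) = (1 : F) ⊗ₜ star x
      rw [LinearMap.baseChange_tmul, hτ]
    cv := Cv B
    const := Cv.const B
    add := Cv.add
    sub := Cv.sub
    mul := Cv.mul
    star' := Cv.star' τ hτ
    inv := Cv.inv
    ne := fun hx hX => hx.ne (y := 0) (by rwa [TensorProduct.tmul_zero])
    congr := fun hx h i => (hx i).congr' (h.mono fun j hj => by rw [hj])
    unique := Cv.unique B }

end one

variable {k K D : Type} [Field k] [Field K] [StarRing K]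
  [DivisionRing D] [StarRing D] [Algebra k K] [Algebra k D] [Algebra K D] [IsScalarTower k K D]
  {d : kˣ} {s : K} {n N : ℕ}

theorem Cv.near {B : Module.Basis (Fin N) k D} {v : Place k} {x y : ℕ → D}
    {X : v.comp ⊗[k] D} (hx : Cv B x X)
    (h : Tendsto (fun j => na B v.abv (y j - x j)) atTop (𝓝 0)) : Cv B y X := by
  intro i
  have h1 : Tendsto (fun j => algebraMap k v.comp (B.repr (y j - x j) i)) atTop (𝓝 0) := by
    rw [tendsto_zero_iff_norm_tendsto_zero]
    refine squeeze_zero (fun _ => norm_nonneg _) (fun j => ?_) h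
    rw [norm_alg]
    exact Finset.single_le_sum (f := fun i => v.abv (B.repr (y j - x j) i))
      (fun _ _ => AbsoluteValue.nonneg _ _) (Finset.mem_univ i)
  have h2 := (hx i).add h1
  rw [add_zero] at h2
  refine h2.congr fun j => ?_
  rw [map_sub, Finsupp.sub_apply, map_sub, add_sub_cancel]

theorem Cv.size {B : Module.Basis (Fin N) k D} {v : Place k} {x : ℕ → D} {X : D}
    (hx : Cv B x ((1 : v.comp) ⊗ₜ X)) :
    Tendsto (fun j => na B v.abv (x j - X)) atTop (𝓝 0) := by
  have h1 : ∀ j, na B v.abv (x j - X) = ∑ i, ‖algebraMap k v.comp (B.repr (x j - X) i)‖ := by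
    intro j
    refine Finset.sum_congr rfl fun i _ => ?_
    rw [norm_alg]
  simp only [h1]
  have h2 : (0 : ℝ) = ∑ i : Fin N, (0 : ℝ) := by simp
  rw [h2]
  exact tendsto_finsetSum _ fun i _ => hx.coord i

/-- The data at a nonsplit finite place. -/
theorem exists_pfin (τ : D →ₗ[k] D) (hτ : ∀ x, τ x = star x) (B : Module.Basis (Fin N) k D)
    (v : Place k) {L : Type} [Field L] [Algebra v.comp L]
    (ρ : v.comp ⊗[k] D ≃ₐ[v.comp] Matrix (Fin n) (Fin n) L) {θ : L}
    (hθ : ρ (1 ⊗ₜ algebraMap K D s) = Matrix.scalar (Fin n) θ) :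
    ∃ P : PData B v s n, P.C = cfin (F := v.comp) τ hτ B := by
  refine ⟨⟨cfin (F := v.comp) τ hτ B, ⟨L, (algebraMap v.comp L).comp (algebraMap k v.comp), θ,
    ρ.toRingEquiv, ?_, ?_⟩, ?_, ?_, ?_⟩, rfl⟩
  · intro x
    change ρ ((1 : v.comp) ⊗ₜ[k] algebraMap k D x) = _
    have h2 : (1 : v.comp) ⊗ₜ[k] algebraMap k D x =
        algebraMap v.comp _ (algebraMap k v.comp x) := by
      rw [Algebra.TensorProduct.algebraMap_apply, Algebra.algebraMap_eq_smul_one x,
        TensorProduct.tmul_smul, TensorProduct.smul_tmul', Algebra.smul_def, mul_one]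
      rfl
    rw [h2, AlgEquiv.commutes]
    rfl
  · exact hθ
  · exact fun hx h => Cv.near hx h
  · exact fun X => exists_Cv B (fun x ε hε => dense_alg v x hε) X
  · exact fun hx => Cv.size hx

/-- Simultaneous approximation. -/
theorem exists_sim [GFF k] (B : Module.Basis (Fin N) k D) {T : Set (Place k)} (hT : T.Finite)
    (P : ∀ p : T, PData B (p : Place k) s n) (X : ∀ p : T, (P p).C.E) :
    ∃ x : ℕ → D, ∀ p : T, (P p).C.cv x (X p) := by
  classical
  choose Y hY using fun p : T => (P p).surj (X p)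
  have h1 : ∀ j : ℕ, ∃ x : D, ∀ p ∈ T,
      na B p.abv (x - (if h : p ∈ T then Y ⟨p, h⟩ j else 0)) < 1 / ((j : ℝ) + 1) := fun j =>
    H167.Lf.approxD B hT (fun p => if h : p ∈ T then Y ⟨p, h⟩ j else 0)
      (δ := fun _ => 1 / ((j : ℝ) + 1)) (fun _ => by positivity)
  choose x hx using h1
  refine ⟨x, fun p => (P p).near (hY p) ?_⟩
  refine squeeze_zero (fun j => na_nonneg _ _ _) (fun j => ?_)
    tendsto_one_div_add_atTop_nhds_zero_nat
  have h2 := hx j p p.2
  rw [dif_pos p.2] at h2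
  exact h2.le

theorem dense_of_sol [GFF k] [Infinite k] (hS : SetF k K D d s) (hn : 0 < n)
    (B : Module.Basis (Fin N) k D)
    {b r₀ r₁ : D} (hb : star b = b) (h0 : star r₀ = r₀) (h10 : r₁ ≠ 0)
    {T : Set (Place k)} (hT : T.Finite) (hTne : T.Nonempty) (R : Place k → D) (δ : Place k → ℝ)
    (hδ : ∀ p, 0 < δ p) (hR0 : ∀ p ∈ T, R p ≠ 0)
    (hloc : ∀ p ∈ T, ∃ (P : PData B p s n) (t x : P.C.E),
      t * P.C.φ r₀ * P.C.σ t = P.C.φ (R p) ∧ x * P.C.φ (b + R p) * P.C.σ x = P.C.φ r₁)
    {z₀ : D × D} (hz₀ : bform b r₀ z₀ z₀ = r₁) :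
    ∃ t x : D, t ≠ 0 ∧ x ≠ 0 ∧ b + t * r₀ * star t = x * r₁ * star x ∧
      ∀ p ∈ T, na B p.abv (t * r₀ * star t - R p) < δ p := by
  have hfin : Finite T := hT
  choose P t x ht hx using fun p : T => hloc p p.2
  obtain ⟨z, hz, hzc⟩ := sphere_dense hS hn (fun p : T => (P p).C) (fun p => (P p).M)
    (exists_sim B hT P) hb h0 h10 hz₀ (fun p => (x p, x p * t p)) (fun p => by
      simp only [BB, (P p).C.σ_mul]
      have h1 : x p * t p * (P p).C.φ r₀ * ((P p).C.σ (t p) * (P p).C.σ (x p)) =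
          x p * (t p * (P p).C.φ r₀ * (P p).C.σ (t p)) * (P p).C.σ (x p) := by
        simp only [mul_assoc]
      rw [h1, ht, ← add_mul, ← mul_add, ← map_add, hx])
  -- the inverse of the first coordinate
  obtain ⟨Λ, hΛ⟩ : ∃ Λ : ∀ p : T, (P p).C.E, ∀ p, x p * Λ p = 1 := by
    refine ⟨fun p => (P p).C.φ (b + R p) * (P p).C.σ (x p) * (P p).C.φ r₁⁻¹, fun p => ?_⟩
    rw [← mul_assoc, ← mul_assoc, hx, ← map_mul, mul_inv_cancel₀ h10, map_one]
  have hne1 : ∀ p : T, ∀ᶠ j in atTop, (z j).1 ≠ 0 := fun p => by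
    refine (P p).C.ne (hzc p).1 fun h => ?_
    have h1 := hΛ p
    rw [show x p = 0 from h, zero_mul] at h1
    exact zero_ne_one h1
  have hinv : ∀ p : T, (P p).C.cv (fun j => ((z j).1)⁻¹) (Λ p) := fun p =>
    (P p).C.inv (hzc p).1 (hΛ p) (hne1 p)
  have hΛ' : ∀ p : T, Λ p * x p = 1 := by
    intro p
    have h1 := (P p).C.mul (hinv p) (hzc p).1
    have h2 : (P p).C.cv (fun j => ((z j).1)⁻¹ * (z j).1) ((P p).C.φ 1) := by
      refine (P p).C.congr ((P p).C.const 1) ?_
      filter_upwards [hne1 p] with j hj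
      rw [inv_mul_cancel₀ hj]
    have h3 := (P p).C.unique h1 h2
    rw [map_one] at h3
    exact h3
  have htc : ∀ p : T, (P p).C.cv (fun j => ((z j).1)⁻¹ * (z j).2) (t p) := by
    intro p
    have h1 := (P p).C.mul (hinv p) (hzc p).2
    rwa [← mul_assoc, hΛ', one_mul] at h1
  have htne : ∀ p : T, ∀ᶠ j in atTop, ((z j).1)⁻¹ * (z j).2 ≠ 0 := by
    intro p
    refine (P p).C.ne (htc p) fun h => ?_
    have h1 := ht p
    rw [h, zero_mul, zero_mul] at h1
    exact hR0 p p.2 ((P p).C.φ.injective (by rw [← h1, map_zero]))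
  have hrc : ∀ p : T, (P p).C.cv (fun j => ((z j).1)⁻¹ * (z j).2 * r₀ *
      star (((z j).1)⁻¹ * (z j).2)) ((P p).C.φ (R p)) := by
    intro p
    have h1 := (P p).C.mul ((P p).C.mul (htc p) ((P p).C.const r₀)) ((P p).C.star' (htc p))
    rwa [ht] at h1
  have hev : ∀ᶠ j in atTop, ∀ p : T, na B (p : Place k).abv (((z j).1)⁻¹ * (z j).2 * r₀ *
      star (((z j).1)⁻¹ * (z j).2) - R p) < δ p := by
    rw [eventually_all]
    intro p
    exact ((P p).size (hrc p)).eventually (Iio_mem_nhds (hδ p))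
  obtain ⟨p₀, hp₀⟩ := hTne
  obtain ⟨j, hj1, hj2, hj3⟩ := ((hne1 ⟨p₀, hp₀⟩).and ((htne ⟨p₀, hp₀⟩).and hev)).exists
  refine ⟨((z j).1)⁻¹ * (z j).2, ((z j).1)⁻¹, hj2, inv_ne_zero hj1, ?_, fun p hp => hj3 ⟨p, hp⟩⟩
  have hs1 : star (z j).1 ≠ 0 := star_ne_zero.mpr hj1
  rw [← hz j, bform, mul_add, add_mul, star_mul, star_inv₀]
  congr 1
  · calc b = ((z j).1)⁻¹ * (z j).1 * b * (star (z j).1 * (star (z j).1)⁻¹) := by
          rw [inv_mul_cancel₀ hj1, mul_inv_cancel₀ hs1, one_mul, mul_one]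
      _ = _ := by simp only [mul_assoc]
  · simp only [mul_assoc]

end Vale.Agent.P011.H63.DN
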