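import Mathlib

/-!
**The end of the pair route, in a commutative field.** Let `L/k` be an algebraic extension of
fields, `k` infinite of characteristic not two, `d` in `k` not a square in `L`. On `L ∪ {∞}` there
is the group law `z ∘ w = (z w + d) / (z + w)` of the torus `L(√d)ˣ / Lˣ`. Let `f` be a
homomorphism from this group to a finite group, trivial at `0`, whose kernel is stable under
`z ↦ z + b` for `b` in `k`. Then `f` is trivial.
-/

namespace Vale.Agent.P011.H63

/-- The data: `f` is a homomorphism on the torus, trivial at `0`, and its kernel is stable under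
translations by the small field. -/
structure TorHom (k : Type*) {L Q : Type*} [Field k] [Field L] [Algebra k L] [Group Q] (d : k)
    (f : L → Q) : Prop where
  zero : f 0 = 1
  mul : ∀ z w : L, z + w ≠ 0 → f z * f w = f ((z * w + algebraMap k L d) / (z + w))
  neg : ∀ z : L, f z * f (-z) = 1
  line : ∀ z : L, f z = 1 → ∀ b : k, f (z + algebraMap k L b) = 1

namespace TorHom

variable {k L Q : Type*} [Field k] [Field L] [Algebra k L] [Group Q] {d : k} {f : L → Q}

theorem neg_one (hf : TorHom k d f) {z : L} (hz : f z = 1) : f (-z) = 1 := by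
  have h := hf.neg z
  rwa [hz, one_mul] at h

theorem neg_eq (hf : TorHom k d f) (z : L) : f (-z) = (f z)⁻¹ :=
  eq_inv_of_mul_eq_one_right (hf.neg z)

theorem base (hf : TorHom k d f) (b : k) : f (algebraMap k L b) = 1 := by
  have h := hf.line 0 hf.zero b
  rwa [zero_add] at h

/-- Inversion. -/
theorem inv_eq (hf : TorHom k d f) {z : L} (hz : z ≠ 0) : f (algebraMap k L d / z) = f z := by
  have h := hf.mul z 0 (by rwa [add_zero])
  rw [hf.zero, mul_one, mul_zero, zero_add, add_zero] at h
  exact h.symm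

theorem comp (hf : TorHom k d f) {z w : L} (hz : f z = 1) (hw : f w = 1) (h : z + w ≠ 0) :
    f ((z * w + algebraMap k L d) / (z + w)) = 1 := by
  rw [← hf.mul z w h, hz, hw, one_mul]

/-- The map `z ↦ -u² / z`. -/
theorem inv_sq (hf : TorHom k d f) {z : L} (hz : f z = 1) (h0 : z ≠ 0) {u : k} (hu : u ≠ 0)
    (hd : d ≠ 0) : f (-(algebraMap k L u ^ 2 / z)) = 1 := by
  have hu' : algebraMap k L u ≠ 0 := by simpa using hu
  have hd' : algebraMap k L d ≠ 0 := by simpa using hd
  by_cases h1 : z + algebraMap k L u = 0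
  · have h2 : -(algebraMap k L u ^ 2 / z) = algebraMap k L u := by
      rw [eq_neg_of_add_eq_zero_left h1]
      field_simp
    rw [h2]
    exact hf.base u
  · have h2 := hf.line z hz u
    rw [← hf.inv_eq h1] at h2
    have h3 := hf.line _ h2 (-(d / u))
    have h4 : algebraMap k L d / (z + algebraMap k L u) + algebraMap k L (-(d / u)) =
        -(algebraMap k L d * z / ((z + algebraMap k L u) * algebraMap k L u)) := by
      rw [map_neg, map_div₀]
      field_simp
      ring
    rw [h4] at h3
    have h5 : -(algebraMap k L d * z / ((z + algebraMap k L u) * algebraMap k L u)) ≠ 0 := by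
      rw [neg_ne_zero]
      exact div_ne_zero (mul_ne_zero hd' h0) (mul_ne_zero h1 hu')
    rw [← hf.inv_eq h5] at h3
    have h6 := hf.line _ h3 u
    rw [← h6]
    congr 1
    field_simp
    ring

/-- Scaling by `d v²`. -/
theorem scale (hf : TorHom k d f) (hd : d ≠ 0) {z : L} (hz : f z = 1) (v : k) :
    f (algebraMap k L (d * v ^ 2) * z) = 1 := by
  by_cases h0 : z = 0
  · rw [h0, mul_zero, hf.zero]
  by_cases hv : v = 0
  · rw [hv]
    simpa using hf.zero
  have hv' : algebraMap k L v ≠ 0 := by simpa using hv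
  have hd' : algebraMap k L d ≠ 0 := by simpa using hd
  have h1 := hf.inv_sq hz h0 (inv_ne_zero hv) hd
  have h2 : -(algebraMap k L v⁻¹ ^ 2 / z) ≠ 0 := by
    rw [neg_ne_zero, map_inv₀]
    exact div_ne_zero (pow_ne_zero _ (inv_ne_zero hv')) h0
  rw [← hf.inv_eq h2] at h1
  have h3 := hf.neg_one h1
  rw [← h3]
  congr 1
  rw [map_inv₀, map_mul, map_pow]
  field_simp

/-- The translations which preserve the kernel, a `k`-space. -/
def per (f : L → Q) : Set L := {l | ∀ z, f z = 1 → f (z + l) = 1}

theorem per_add {l m : L} (hl : l ∈ per f) (hm : m ∈ per f) : l + m ∈ per f := by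
  intro z hz
  rw [← add_assoc]
  exact hm _ (hl z hz)

theorem per_neg (hf : TorHom k d f) {l : L} (hl : l ∈ per f) : -l ∈ per f := by
  intro z hz
  have h := hf.neg_one (hl _ (hf.neg_one hz))
  rwa [neg_add, neg_neg] at h

theorem per_scale (hf : TorHom k d f) (hd : d ≠ 0) {l : L} (hl : l ∈ per f) (v : k) :
    algebraMap k L (d * v ^ 2) * l ∈ per f := by
  by_cases hv : v = 0
  · intro z hz
    rw [hv]
    simpa using hz
  intro z hz
  have hv' : algebraMap k L v ≠ 0 := by simpa using hv
  have hd' : algebraMap k L d ≠ 0 := by simpa using hd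
  have h1 := hf.scale hd hz (d⁻¹ * v⁻¹)
  have h2 := hf.scale hd (hl _ h1) v
  rw [← h2]
  congr 1
  simp only [map_mul, map_pow, map_inv₀]
  field_simp

theorem per_smul (hf : TorHom k d f) (hd : d ≠ 0) (h2 : (2 : k) ≠ 0) {l : L} (hl : l ∈ per f)
    (x : k) : algebraMap k L x * l ∈ per f := by
  have h1 := per_scale hf hd hl ((x / d + 1) / 2)
  have h3 := per_neg hf (per_scale hf hd hl ((x / d - 1) / 2))
  have h4 := per_add h1 h3
  rw [← neg_mul, ← map_neg, ← add_mul, ← map_add] at h4
  convert h4 using 3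
  field_simp
  ring

/-- The `k`-space of the translations preserving the kernel. -/
def perS (hf : TorHom k d f) (hd : d ≠ 0) (h2 : (2 : k) ≠ 0) : Submodule k L where
  carrier := per f
  add_mem' := per_add
  zero_mem' := fun z hz => by rwa [add_zero]
  smul_mem' := fun x l hl => by
    rw [Algebra.smul_def]
    exact per_smul hf hd h2 hl x

/-- The affine map attached to `τ` and `β` preserves the kernel. -/
theorem aff (hf : TorHom k d f) (hns : ∀ z : L, z ^ 2 ≠ algebraMap k L d) {τ : L} (hτ : f τ = 1)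
    (β : k) {z : L} (hz : f z = 1) :
    f (((τ + algebraMap k L β) ^ 2 - algebraMap k L d) / (τ ^ 2 - algebraMap k L d) * z +
      algebraMap k L β * (algebraMap k L d + τ * (τ + algebraMap k L β)) /
        (τ ^ 2 - algebraMap k L d)) = 1 := by
  have hτ2 : τ ^ 2 - algebraMap k L d ≠ 0 := sub_ne_zero.2 (hns τ)
  have hτ' := hf.neg_one (hf.line τ hτ β)
  by_cases h0 : z + τ = 0
  · rw [← hτ']
    congr 1
    rw [eq_neg_of_add_eq_zero_left h0]
    field_simp
    ring
  · have h1 := hf.line _ (hf.comp hz hτ h0) β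
    have h3 : (z * τ + algebraMap k L d) / (z + τ) + algebraMap k L β +
        -(τ + algebraMap k L β) = -((τ ^ 2 - algebraMap k L d) / (z + τ)) := by
      field_simp
      ring
    have h4 : (z * τ + algebraMap k L d) / (z + τ) + algebraMap k L β +
        -(τ + algebraMap k L β) ≠ 0 := by
      rw [h3, neg_ne_zero]
      exact div_ne_zero hτ2 h0
    have h5 := hf.comp h1 hτ' h4
    rw [h3] at h5
    rw [← h5]
    congr 1
    field_simp
    ring

/-- The periods are stable under multiplication by `((τ + β)² - d) / (τ² - d)`. -/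
theorem per_mul (hf : TorHom k d f) (hns : ∀ z : L, z ^ 2 ≠ algebraMap k L d) {τ : L}
    (hτ : f τ = 1) (β : k) {l : L} (hl : l ∈ per f) :
    ((τ + algebraMap k L β) ^ 2 - algebraMap k L d) / (τ ^ 2 - algebraMap k L d) * l ∈ per f := by
  intro w hw
  have hτ2 : τ ^ 2 - algebraMap k L d ≠ 0 := sub_ne_zero.2 (hns τ)
  have hτ3 : (τ + algebraMap k L β) ^ 2 - algebraMap k L d ≠ 0 := sub_ne_zero.2 (hns _)
  have h1 := hf.aff hns (hf.line τ hτ β) (-β) hw
  rw [map_neg, add_neg_cancel_right] at h1
  have h2 := hf.aff hns hτ β (hl _ h1)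
  rw [← h2]
  congr 1
  field_simp
  ring

/-- The multipliers of the space of periods. -/
def mulS (hf : TorHom k d f) (hd : d ≠ 0) (h2 : (2 : k) ≠ 0) : Subalgebra k L where
  carrier := {x | ∀ l ∈ perS hf hd h2, x * l ∈ perS hf hd h2}
  mul_mem' := fun {x y} hx hy l hl => by
    rw [mul_assoc]
    exact hx _ (hy l hl)
  add_mem' := fun {x y} hx hy l hl => by
    rw [add_mul]
    exact add_mem (hx l hl) (hy l hl)
  algebraMap_mem' := fun x l hl => by
    rw [← Algebra.smul_def]
    exact Submodule.smul_mem _ x hl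

theorem mem_mulS (hf : TorHom k d f) (hns : ∀ z : L, z ^ 2 ≠ algebraMap k L d) (hd : d ≠ 0)
    (h2 : (2 : k) ≠ 0) [Algebra.IsAlgebraic k L] {τ : L} (hτ : f τ = 1) :
    τ ∈ mulS hf hd h2 := by
  have hτ2 : τ ^ 2 - algebraMap k L d ≠ 0 := sub_ne_zero.2 (hns τ)
  have key : ∀ β : k, ∀ l ∈ perS hf hd h2,
      (2 * algebraMap k L β * (τ / (τ ^ 2 - algebraMap k L d)) +
        algebraMap k L β ^ 2 * (τ ^ 2 - algebraMap k L d)⁻¹) * l ∈ perS hf hd h2 := by
    intro β l hl
    have h1 : ((τ + algebraMap k L β) ^ 2 - algebraMap k L d) / (τ ^ 2 - algebraMap k L d) * l ∈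
        perS hf hd h2 := per_mul hf hns hτ β hl
    have h3 := sub_mem h1 hl
    convert h3 using 1
    field_simp
    ring
  have hu : (τ ^ 2 - algebraMap k L d)⁻¹ ∈ mulS hf hd h2 := by
    intro l hl
    have h1 := add_mem (key 1 l hl) (key (-1) l hl)
    have h3 := Submodule.smul_mem _ (2⁻¹ : k) h1
    rw [Algebra.smul_def] at h3
    convert h3 using 1
    have h2L : (2 : L) ≠ 0 := by
      have h0 := (map_ne_zero (algebraMap k L)).2 h2
      rwa [map_ofNat] at h0
    simp only [map_neg, map_one, map_inv₀, map_ofNat]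
    field_simp
    ring
  have hv : τ / (τ ^ 2 - algebraMap k L d) ∈ mulS hf hd h2 := by
    intro l hl
    have h1 := sub_mem (key 1 l hl) (key (-1) l hl)
    have h3 := Submodule.smul_mem _ ((2⁻¹ : k) * 2⁻¹) h1
    rw [Algebra.smul_def] at h3
    convert h3 using 1
    have h2L : (2 : L) ≠ 0 := by
      have h0 := (map_ne_zero (algebraMap k L)).2 h2
      rwa [map_ofNat] at h0
    simp only [map_neg, map_one, map_inv₀, map_ofNat, map_mul]
    field_simp
    ring
  have hu' := Subalgebra.inv_mem_of_algebraic (mulS hf hd h2) (x := ⟨_, hu⟩)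
    (Algebra.IsAlgebraic.isAlgebraic _)
  simp only [inv_inv] at hu'
  have h5 := mul_mem hv hu'
  rwa [div_mul_cancel₀ _ hτ2] at h5

theorem f_eq_one_of_mem_mulS (hf : TorHom k d f) (hd : d ≠ 0) (h2 : (2 : k) ≠ 0) {x : L}
    (hx : x ∈ mulS hf hd h2) : f x = 1 := by
  have h1 : (1 : L) ∈ perS hf hd h2 := fun z hz => by
    have := hf.line z hz 1
    rwa [map_one] at this
  have h3 : x * 1 ∈ per f := hx 1 h1
  have h4 := h3 0 hf.zero
  rwa [mul_one, zero_add] at h4

/-- **The homomorphism is trivial.** -/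
theorem eq_one (hf : TorHom k d f) [Infinite k] [Finite Q] [Algebra.IsAlgebraic k L]
    (hns : ∀ z : L, z ^ 2 ≠ algebraMap k L d) (h2 : (2 : k) ≠ 0) (z : L) : f z = 1 := by
  classical
  have hd : d ≠ 0 := by
    rintro rfl
    exact hns 0 (by simp)
  obtain ⟨q, hq⟩ := Finite.exists_infinite_fiber (fun x : k => f (z + algebraMap k L x))
  have hq' : ((fun x : k => f (z + algebraMap k L x)) ⁻¹' {q}).Infinite := Set.infinite_coe_iff.1 hq
  obtain ⟨t, ht, ht3⟩ := hq'.exists_subset_card_eq 3
  obtain ⟨x₁, x₂, x₃, h12, h13, h23, rfl⟩ := Finset.card_eq_three.1 ht3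
  have hm : ∀ x ∈ ({x₁, x₂, x₃} : Finset k), f (z + algebraMap k L x) = q := fun x hx => ht hx
  have key : ∀ x y : k, f (z + algebraMap k L x) = q → f (z + algebraMap k L y) = q → x ≠ y →
      (z + algebraMap k L x) * (z + algebraMap k L y) ∈ mulS hf hd h2 := by
    intro x y hx hy hxy
    have h0 : z + algebraMap k L x + -(z + algebraMap k L y) = algebraMap k L (x - y) := by
      rw [map_sub]
      ring
    have h0' : algebraMap k L (x - y) ≠ 0 := by simpa [sub_eq_zero] using hxy
    have h1 := hf.mul (z + algebraMap k L x) (-(z + algebraMap k L y)) (by rwa [h0])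
    rw [hf.neg_eq, hx, hy, mul_inv_cancel, h0] at h1
    have h3 := mem_mulS hf hns hd h2 h1.symm
    have h4 := mul_mem h3 ((mulS hf hd h2).algebraMap_mem (x - y))
    rw [div_mul_cancel₀ _ h0'] at h4
    have h5 := sub_mem ((mulS hf hd h2).algebraMap_mem d) h4
    convert h5 using 1
    ring
  have h5 := key x₁ x₂ (hm _ (by simp)) (hm _ (by simp)) h12
  have h6 := key x₁ x₃ (hm _ (by simp)) (hm _ (by simp)) h13
  have h7 := sub_mem h5 h6
  have h8 : algebraMap k L (x₂ - x₃) ≠ 0 := by simpa [sub_eq_zero] using h23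
  have h9 := mul_mem ((mulS hf hd h2).algebraMap_mem (x₂ - x₃)⁻¹) h7
  have h10 := sub_mem h9 ((mulS hf hd h2).algebraMap_mem x₁)
  apply f_eq_one_of_mem_mulS hf hd h2
  convert h10 using 1
  rw [map_inv₀, map_sub]
  rw [map_sub] at h8
  field_simp
  ring

end TorHom

end Vale.Agent.P011.H63
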