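import Mathlib

/-!
**The end of the pair route, in a commutative field of any characteristic.** Let `L/k` be an
algebraic extension of fields, `k` infinite, `e, a` in `k` such that `ν(z) = z² + e z + a` has no
zero in `L`, and not both `2` and `e` are zero. On `L ∪ {∞}` there is the group law
`z ∘ w = (z w - a) / (z + w + e)` of the torus. Let `f` be a homomorphism from this group to a
finite group, trivial at `0`, whose kernel is stable under `z ↦ z + b` for `b` in `k`. Then `f` is
trivial.
-/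

namespace Vale.Agent.P011.H63

/-- The data: `f` is a homomorphism on the torus, trivial at `0`, and its kernel is stable under
translations by the small field. -/
structure TorHom2 (k : Type*) {L Q : Type*} [Field k] [Field L] [Algebra k L] [Group Q] (e a : k)
    (f : L → Q) : Prop where
  zero : f 0 = 1
  mul : ∀ z w : L, z + w + algebraMap k L e ≠ 0 →
    f z * f w = f ((z * w - algebraMap k L a) / (z + w + algebraMap k L e))
  neg : ∀ z : L, f z * f (-z - algebraMap k L e) = 1
  line : ∀ z : L, f z = 1 → ∀ b : k, f (z + algebraMap k L b) = 1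

namespace TorHom2

variable {k L Q : Type*} [Field k] [Field L] [Algebra k L] [Group Q] {e a : k} {f : L → Q}

/-- The norm. -/
def nu (L : Type*) [Field L] [Algebra k L] (e a : k) (z : L) : L :=
  z ^ 2 + algebraMap k L e * z + algebraMap k L a

theorem base (hf : TorHom2 k e a f) (b : k) : f (algebraMap k L b) = 1 := by
  have h := hf.line 0 hf.zero b
  rwa [zero_add] at h

theorem inv_eq (hf : TorHom2 k e a f) (z : L) : f (-z - algebraMap k L e) = (f z)⁻¹ :=
  eq_inv_of_mul_eq_one_right (hf.neg z)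

theorem inv_one (hf : TorHom2 k e a f) {z : L} (hz : f z = 1) : f (-z - algebraMap k L e) = 1 := by
  rw [hf.inv_eq, hz, _root_.inv_one]

theorem neg_one (hf : TorHom2 k e a f) {z : L} (hz : f z = 1) : f (-z) = 1 := by
  have h := hf.line _ (hf.inv_one hz) e
  rwa [sub_add_cancel] at h

theorem comp (hf : TorHom2 k e a f) {z w : L} (hz : f z = 1) (hw : f w = 1)
    (h : z + w + algebraMap k L e ≠ 0) :
    f ((z * w - algebraMap k L a) / (z + w + algebraMap k L e)) = 1 := by
  rw [← hf.mul z w h, hz, hw, one_mul]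

/-- The maps `z ↦ -ν(y) / z`. -/
theorem refl (hf : TorHom2 k e a f) {z : L} (hz : f z = 1) (h0 : z ≠ 0) (y : k) :
    f (-(nu L e a (algebraMap k L y) / z)) = 1 := by
  have h1 := hf.line z hz (-y - e)
  have h2 : z + algebraMap k L (-y - e) + algebraMap k L y + algebraMap k L e = z := by
    rw [map_sub, map_neg]
    ring
  have h3 := hf.comp h1 (hf.base y) (by rwa [h2])
  rw [h2] at h3
  have h4 := hf.line _ h3 (-y)
  rw [← h4]
  congr 1
  rw [map_sub, map_neg, nu]
  field_simp
  ring

/-- The maps `z ↦ -u² / z`. -/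
theorem inv_sq (hf : TorHom2 k e a f) {z : L} (hz : f z = 1) (h0 : z ≠ 0) {u : k} (hu : u ≠ 0)
    (ha : a ≠ 0) : f (-(algebraMap k L u ^ 2 / z)) = 1 := by
  have hu' : algebraMap k L u ≠ 0 := by simpa using hu
  have ha' : algebraMap k L a ≠ 0 := by simpa using ha
  have hJ : ∀ w : L, f w = 1 → w ≠ 0 → f (-(algebraMap k L a / w)) = 1 := by
    intro w hw hw0
    have h := hf.refl hw hw0 0
    rwa [nu, map_zero, zero_pow two_ne_zero, mul_zero, zero_add, zero_add] at h
  by_cases h1 : z + algebraMap k L u = 0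
  · have h2 : -(algebraMap k L u ^ 2 / z) = algebraMap k L u := by
      rw [eq_neg_of_add_eq_zero_left h1]
      field_simp
    rw [h2]
    exact hf.base u
  · have h2 := hJ _ (hf.line z hz u) h1
    have h3 := hf.line _ h2 (a / u)
    have h4 : -(algebraMap k L a / (z + algebraMap k L u)) + algebraMap k L (a / u) =
        algebraMap k L a * z / ((z + algebraMap k L u) * algebraMap k L u) := by
      rw [map_div₀]
      field_simp
      ring
    rw [h4] at h3
    have h5 : algebraMap k L a * z / ((z + algebraMap k L u) * algebraMap k L u) ≠ 0 :=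
      div_ne_zero (mul_ne_zero ha' h0) (mul_ne_zero h1 hu')
    have h6 := hf.line _ (hJ _ h3 h5) u
    rw [← h6]
    congr 1
    field_simp
    ring

/-- Scaling by squares. -/
theorem scale_sq (hf : TorHom2 k e a f) (ha : a ≠ 0) (u : k) {z : L} (hz : f z = 1) :
    f (algebraMap k L (u ^ 2) * z) = 1 := by
  by_cases h0 : z = 0
  · rw [h0, mul_zero, hf.zero]
  by_cases hu : u = 0
  · rw [hu, zero_pow two_ne_zero, map_zero, zero_mul, hf.zero]
  have h1 := hf.inv_sq hz h0 one_ne_zero ha
  have h2 : -(algebraMap k L 1 ^ 2 / z) ≠ 0 := by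
    rw [neg_ne_zero, map_one]
    exact div_ne_zero (pow_ne_zero _ one_ne_zero) h0
  have h3 := hf.inv_sq h1 h2 hu ha
  rw [← h3]
  congr 1
  rw [map_one, map_pow]
  field_simp

/-- Scaling by norms. -/
theorem scale_nu (hf : TorHom2 k e a f) (ha : a ≠ 0) (y : k) {z : L} (hz : f z = 1) :
    f (algebraMap k L (y ^ 2 + e * y + a) * z) = 1 := by
  by_cases h0 : z = 0
  · rw [h0, mul_zero, hf.zero]
  have h1 := hf.inv_sq hz h0 one_ne_zero ha
  have h2 : -(algebraMap k L 1 ^ 2 / z) ≠ 0 := by
    rw [neg_ne_zero, map_one]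
    exact div_ne_zero (pow_ne_zero _ one_ne_zero) h0
  have h3 := hf.refl h1 h2 y
  rw [← h3]
  congr 1
  rw [map_one, nu, map_add, map_add, map_pow, map_mul]
  field_simp

/-- The translations which preserve the kernel. -/
def per (f : L → Q) : Set L := {l | ∀ z, f z = 1 → f (z + l) = 1}

theorem per_add {l m : L} (hl : l ∈ per f) (hm : m ∈ per f) : l + m ∈ per f := by
  intro z hz
  rw [← add_assoc]
  exact hm _ (hl z hz)

theorem per_neg (hf : TorHom2 k e a f) {l : L} (hl : l ∈ per f) : -l ∈ per f := by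
  intro z hz
  have h := hf.neg_one (hl _ (hf.neg_one hz))
  rwa [neg_add, neg_neg] at h

theorem per_scale {c : k} (hc : c ≠ 0) (h1 : ∀ z : L, f z = 1 → f (algebraMap k L c * z) = 1)
    (h2 : ∀ z : L, f z = 1 → f (algebraMap k L c⁻¹ * z) = 1) {l : L} (hl : l ∈ per f) :
    algebraMap k L c * l ∈ per f := by
  intro z hz
  have h3 := h1 _ (hl _ (h2 z hz))
  rw [← h3]
  congr 1
  have hc' : algebraMap k L c ≠ 0 := by simpa using hc
  rw [map_inv₀]
  field_simp

theorem per_sq (hf : TorHom2 k e a f) (ha : a ≠ 0) (u : k) {l : L} (hl : l ∈ per f) :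
    algebraMap k L (u ^ 2) * l ∈ per f := by
  by_cases hu : u = 0
  · rw [hu, zero_pow two_ne_zero, map_zero, zero_mul]
    intro z hz
    rwa [add_zero]
  · refine per_scale (pow_ne_zero 2 hu) (fun z hz => hf.scale_sq ha u hz) (fun z hz => ?_) hl
    rw [← inv_pow]
    exact hf.scale_sq ha u⁻¹ hz

theorem per_nu (hf : TorHom2 k e a f) (ha : a ≠ 0) (hns : ∀ z : L, nu L e a z ≠ 0) (y : k) {l : L}
    (hl : l ∈ per f) : algebraMap k L (y ^ 2 + e * y + a) * l ∈ per f := by
  have h0 : y ^ 2 + e * y + a ≠ 0 := by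
    intro h
    apply hns (algebraMap k L y)
    rw [nu, ← map_pow, ← map_mul, ← map_add, ← map_add, h, map_zero]
  refine per_scale h0 (fun z hz => hf.scale_nu ha y hz) (fun z hz => ?_) hl
  have h1 := hf.scale_sq ha (y ^ 2 + e * y + a)⁻¹ (hf.scale_nu ha y hz)
  rw [← h1]
  congr 1
  rw [← mul_assoc, ← map_mul]
  congr 2
  field_simp

theorem per_smul (hf : TorHom2 k e a f) (hns : ∀ z : L, nu L e a z ≠ 0)
    (h2 : (2 : k) ≠ 0 ∨ e ≠ 0) {l : L} (hl : l ∈ per f) (x : k) :
    algebraMap k L x * l ∈ per f := by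
  have ha : a ≠ 0 := by
    rintro rfl
    apply hns 0
    rw [nu, map_zero]
    ring
  rcases h2 with h2 | he
  · have h1 := per_sq hf ha ((x + 1) / 2) hl
    have h3 := per_neg hf (per_sq hf ha ((x - 1) / 2) hl)
    have h4 := per_add h1 h3
    rw [← neg_mul, ← map_neg, ← add_mul, ← map_add] at h4
    convert h4 using 3
    field_simp
    ring
  · have h1 := per_nu hf ha hns (x / e) hl
    have h3 := per_neg hf (per_sq hf ha (x / e) hl)
    have h4 := per_neg hf (per_nu hf ha hns 0 hl)
    have h5 := per_add (per_add h1 h3) h4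
    rw [← neg_mul, ← neg_mul, ← map_neg, ← map_neg, ← add_mul, ← map_add, ← add_mul,
      ← map_add] at h5
    convert h5 using 3
    field_simp
    ring

/-- The `k`-space of the translations preserving the kernel. -/
def perS (hf : TorHom2 k e a f) (hns : ∀ z : L, nu L e a z ≠ 0) (h2 : (2 : k) ≠ 0 ∨ e ≠ 0) :
    Submodule k L where
  carrier := per f
  add_mem' := per_add
  zero_mem' := fun z hz => by rwa [add_zero]
  smul_mem' := fun x l hl => by
    rw [Algebra.smul_def]
    exact per_smul hf hns h2 hl x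

/-- The affine map attached to `τ` and `β` preserves the kernel. -/
theorem aff (hf : TorHom2 k e a f) (hns : ∀ z : L, nu L e a z ≠ 0) {τ : L} (hτ : f τ = 1)
    (β : k) {z : L} (hz : f z = 1) :
    f (nu L e a (τ + algebraMap k L β) / nu L e a τ * (z + τ + algebraMap k L e) -
      (τ + algebraMap k L β + algebraMap k L e)) = 1 := by
  have hτ' := hf.inv_one (hf.line τ hτ β)
  by_cases h0 : z + τ + algebraMap k L e = 0
  · rw [← hτ', h0]
    congr 1
    ring
  · have h1 := hf.line _ (hf.comp hz hτ h0) β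
    have h3 : (z * τ - algebraMap k L a) / (z + τ + algebraMap k L e) + algebraMap k L β +
        (-(τ + algebraMap k L β) - algebraMap k L e) + algebraMap k L e =
        -(nu L e a τ / (z + τ + algebraMap k L e)) := by
      rw [nu]
      field_simp
      ring
    have h4 : (z * τ - algebraMap k L a) / (z + τ + algebraMap k L e) + algebraMap k L β +
        (-(τ + algebraMap k L β) - algebraMap k L e) + algebraMap k L e ≠ 0 := by
      rw [h3, neg_ne_zero]
      exact div_ne_zero (hns τ) h0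
    have h5 := hf.comp h1 hτ' h4
    rw [h3] at h5
    rw [← h5]
    congr 1
    have h6 := hns τ
    generalize hN : nu L e a τ = N at h6 ⊢
    field_simp
    rw [← hN]
    simp only [nu]
    ring

/-- The periods are stable under multiplication by `ν(τ + β) / ν(τ)`. -/
theorem per_mul (hf : TorHom2 k e a f) (hns : ∀ z : L, nu L e a z ≠ 0) {τ : L}
    (hτ : f τ = 1) (β : k) {l : L} (hl : l ∈ per f) :
    nu L e a (τ + algebraMap k L β) / nu L e a τ * l ∈ per f := by
  intro w hw
  have hτ2 := hns τ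
  have hτ3 := hns (τ + algebraMap k L β)
  have h1 := hf.aff hns (hf.line τ hτ β) (-β) hw
  rw [map_neg, add_neg_cancel_right] at h1
  have h2 := hf.aff hns hτ β (hl _ h1)
  rw [← h2]
  congr 1
  field_simp
  ring

/-- The multipliers of the space of periods. -/
def mulS (hf : TorHom2 k e a f) (hns : ∀ z : L, nu L e a z ≠ 0) (h2 : (2 : k) ≠ 0 ∨ e ≠ 0) :
    Subalgebra k L where
  carrier := {x | ∀ l ∈ perS hf hns h2, x * l ∈ perS hf hns h2}
  mul_mem' := fun {x y} hx hy l hl => by
    rw [mul_assoc]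
    exact hx _ (hy l hl)
  add_mem' := fun {x y} hx hy l hl => by
    rw [add_mul]
    exact add_mem (hx l hl) (hy l hl)
  algebraMap_mem' := fun x l hl => by
    rw [← Algebra.smul_def]
    exact Submodule.smul_mem _ x hl

theorem nu_mem (hf : TorHom2 k e a f) (hns : ∀ z : L, nu L e a z ≠ 0)
    (h2 : (2 : k) ≠ 0 ∨ e ≠ 0) [Algebra.IsAlgebraic k L] {x : k} (hx0 : x ≠ 0) (hx1 : x ≠ 1)
    {τ : L} (hτ : f τ = 1) :
    nu L e a τ ∈ mulS hf hns h2 ∧ 2 * τ ∈ mulS hf hns h2 := by
  have hτ2 := hns τ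
  have key : ∀ β : k, algebraMap k L β ^ 2 * (nu L e a τ)⁻¹ +
      algebraMap k L β * ((2 * τ + algebraMap k L e) / nu L e a τ) ∈ mulS hf hns h2 := by
    intro β
    have h1 : nu L e a (τ + algebraMap k L β) / nu L e a τ ∈ mulS hf hns h2 :=
      fun l hl => per_mul hf hns hτ β hl
    have h3 := sub_mem h1 (one_mem (mulS hf hns h2))
    convert h3 using 1
    have h6 := hns τ
    generalize hN : nu L e a τ = N at h6 ⊢
    field_simp
    rw [← hN]
    simp only [nu]
    ring
  have hu : (nu L e a τ)⁻¹ ∈ mulS hf hns h2 := by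
    have h1 := key 1
    have h3 := key x
    have h4 := sub_mem h3 (mul_mem ((mulS hf hns h2).algebraMap_mem x) h1)
    have h5 := mul_mem ((mulS hf hns h2).algebraMap_mem (x ^ 2 - x)⁻¹) h4
    have h6 : x ^ 2 - x ≠ 0 := by
      have : x ^ 2 - x = x * (x - 1) := by ring
      rw [this]
      exact mul_ne_zero hx0 (sub_ne_zero.2 hx1)
    have h7 : algebraMap k L (x ^ 2 - x) ≠ 0 := (map_ne_zero _).2 h6
    convert h5 using 1
    rw [map_inv₀, eq_inv_mul_iff_mul_eq₀ h7, map_sub, map_pow, map_one]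
    ring
  have hv : (2 * τ + algebraMap k L e) / nu L e a τ ∈ mulS hf hns h2 := by
    have h1 := sub_mem (key 1) hu
    convert h1 using 1
    rw [map_one]
    ring
  have hu' := Subalgebra.inv_mem_of_algebraic (mulS hf hns h2) (x := ⟨_, hu⟩)
    (Algebra.IsAlgebraic.isAlgebraic _)
  simp only [inv_inv] at hu'
  refine ⟨hu', ?_⟩
  have h5 := mul_mem hv hu'
  rw [div_mul_cancel₀ _ hτ2] at h5
  have h6 := sub_mem h5 ((mulS hf hns h2).algebraMap_mem e)
  rwa [add_sub_cancel_right] at h6

theorem mem_mulS (hf : TorHom2 k e a f) (hns : ∀ z : L, nu L e a z ≠ 0)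
    (h2 : (2 : k) ≠ 0 ∨ e ≠ 0) [Infinite k] [Algebra.IsAlgebraic k L] {τ : L} (hτ : f τ = 1) :
    τ ∈ mulS hf hns h2 := by
  classical
  have ha : a ≠ 0 := by
    rintro rfl
    apply hns 0
    rw [nu, map_zero]
    ring
  obtain ⟨x, hx⟩ := Infinite.exists_notMem_finset ({0, 1, -1} : Finset k)
  simp only [Finset.mem_insert, Finset.mem_singleton, not_or] at hx
  obtain ⟨hx0, hx1, hx2⟩ := hx
  have h1 := nu_mem hf hns h2 hx0 hx1 hτ
  by_cases h2' : (2 : k) = 0
  · have he : e ≠ 0 := h2.resolve_left (fun h => h h2')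
    have h3 := (nu_mem hf hns h2 hx0 hx1 (hf.scale_sq ha x hτ)).1
    have h4 := sub_mem h3 (mul_mem ((mulS hf hns h2).algebraMap_mem (x ^ 4)) h1.1)
    have h5 := sub_mem h4 ((mulS hf hns h2).algebraMap_mem (a * (1 - x ^ 4)))
    have h6 : e * x ^ 2 * (1 - x ^ 2) ≠ 0 := by
      refine mul_ne_zero (mul_ne_zero he (pow_ne_zero 2 hx0)) ?_
      have : (1 : k) - x ^ 2 = -((x - 1) * (x - -1)) := by ring
      rw [this, neg_ne_zero]
      exact mul_ne_zero (sub_ne_zero.2 hx1) (sub_ne_zero.2 hx2)
    have h7 := mul_mem ((mulS hf hns h2).algebraMap_mem (e * x ^ 2 * (1 - x ^ 2))⁻¹) h5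
    have h8 : algebraMap k L (e * x ^ 2 * (1 - x ^ 2)) ≠ 0 := (map_ne_zero _).2 h6
    convert h7 using 1
    rw [map_inv₀, eq_inv_mul_iff_mul_eq₀ h8]
    simp only [nu, map_mul, map_sub, map_pow, map_one]
    ring
  · have h3 := mul_mem ((mulS hf hns h2).algebraMap_mem (2 : k)⁻¹) h1.2
    have h2L : (2 : L) ≠ 0 := by
      have h0 := (map_ne_zero (algebraMap k L)).2 h2'
      rwa [map_ofNat] at h0
    convert h3 using 1
    rw [map_inv₀, map_ofNat, inv_mul_cancel_left₀ h2L]

theorem f_eq_one_of_mem_mulS (hf : TorHom2 k e a f) (hns : ∀ z : L, nu L e a z ≠ 0)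
    (h2 : (2 : k) ≠ 0 ∨ e ≠ 0) {x : L} (hx : x ∈ mulS hf hns h2) : f x = 1 := by
  have h1 : (1 : L) ∈ perS hf hns h2 := fun z hz => by
    have := hf.line z hz 1
    rwa [map_one] at this
  have h3 : x * 1 ∈ per f := hx 1 h1
  have h4 := h3 0 hf.zero
  rwa [mul_one, zero_add] at h4

/-- **The homomorphism is trivial.** -/
theorem eq_one (hf : TorHom2 k e a f) [Infinite k] [Finite Q] [Algebra.IsAlgebraic k L]
    (hns : ∀ z : L, nu L e a z ≠ 0) (h2 : (2 : k) ≠ 0 ∨ e ≠ 0) (z : L) : f z = 1 := by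
  classical
  obtain ⟨q, hq⟩ := Finite.exists_infinite_fiber (fun x : k => f (z + algebraMap k L x))
  have hq' : ((fun x : k => f (z + algebraMap k L x)) ⁻¹' {q}).Infinite := Set.infinite_coe_iff.1 hq
  obtain ⟨t, ht, ht3⟩ := hq'.exists_subset_card_eq 3
  obtain ⟨x₁, x₂, x₃, h12, h13, h23, rfl⟩ := Finset.card_eq_three.1 ht3
  have hm : ∀ x ∈ ({x₁, x₂, x₃} : Finset k), f (z + algebraMap k L x) = q := fun x hx => ht hx
  have key : ∀ x y : k, f (z + algebraMap k L x) = q → f (z + algebraMap k L y) = q → x ≠ y →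
      (z + algebraMap k L x) * (z + algebraMap k L y + algebraMap k L e) ∈ mulS hf hns h2 := by
    intro x y hx hy hxy
    have h0 : z + algebraMap k L x + (-(z + algebraMap k L y) - algebraMap k L e) +
        algebraMap k L e = algebraMap k L (x - y) := by
      rw [map_sub]
      ring
    have h0' : algebraMap k L (x - y) ≠ 0 := by simpa [sub_eq_zero] using hxy
    have h1 := hf.mul (z + algebraMap k L x) (-(z + algebraMap k L y) - algebraMap k L e)
      (by rwa [h0])
    rw [hf.inv_eq, hx, hy, mul_inv_cancel, h0] at h1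
    have h3 := mem_mulS hf hns h2 h1.symm
    have h4 := mul_mem h3 ((mulS hf hns h2).algebraMap_mem (x - y))
    rw [div_mul_cancel₀ _ h0'] at h4
    have h5 := neg_mem (add_mem h4 ((mulS hf hns h2).algebraMap_mem a))
    convert h5 using 1
    ring
  have h5 := key x₁ x₂ (hm _ (by simp)) (hm _ (by simp)) h12
  have h6 := key x₁ x₃ (hm _ (by simp)) (hm _ (by simp)) h13
  have h7 := sub_mem h5 h6
  have h8 : algebraMap k L (x₂ - x₃) ≠ 0 := by simpa [sub_eq_zero] using h23
  have h9 := mul_mem ((mulS hf hns h2).algebraMap_mem (x₂ - x₃)⁻¹) h7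
  have h10 := sub_mem h9 ((mulS hf hns h2).algebraMap_mem x₁)
  apply f_eq_one_of_mem_mulS hf hns h2
  convert h10 using 1
  rw [map_inv₀, map_sub]
  rw [map_sub] at h8
  field_simp
  ring

end TorHom2

end Vale.Agent.P011.H63
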