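import Vale.Agent.P011.H63.End2

/-!
**The end of the pair route, in a ring with anisotropic involution, any characteristic.** `A` is a
ring with involution with `star x * x = 0 → x = 0`, `w` an element with `w + star w = e` and
`w * star w = a` in `k` and `w ≠ star w`, `L = k(σ)` the field generated by a symmetric element
commuting with `w`. The Cayley transform is `cay τ = (τ + w) (τ + star w)⁻¹`. Let `c` be a
homomorphism from the unitary group to a finite group with `c (w / star w) = 1`, such that
`c (cay τ) = 1` implies `c (cay (τ + b)) = 1` for `τ` in `L` and `b` in `k`. Then `c` is trivial on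
the unitary elements of `L + L w`.
-/

namespace Vale.Agent.P011.H63

open Polynomial

section field

variable {k L A Q : Type*} [Field k] [Field L] [Ring A] [StarRing A] [Algebra k L]
  [Algebra k A] [Group Q]

/-- **Main theorem with a field `L` embedded in the symmetric elements.** -/
theorem end2_field [Nontrivial A] [Infinite k] [Finite Q] [Algebra.IsAlgebraic k L]
    (han : ∀ x : A, star x * x = 0 → x = 0)
    (U : Subgroup Aˣ) (hU : ∀ g : Aˣ, g ∈ U ↔ (g : A) * star (g : A) = 1) (c : U →* Q)
    (w : A) (e a : k) (he : w + star w = algebraMap k A e) (ha : w * star w = algebraMap k A a)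
    (hw : w ≠ star w)
    (i : L →ₐ[k] A) (hi : ∀ x, star (i x) = i x) (hcom : ∀ x, Commute w (i x))
    (hbase : ∀ u : U, ((u : Aˣ) : A) * star w = w → c u = 1)
    (hline : ∀ (τ : L) (b : k) (u v : U), ((u : Aˣ) : A) * (i τ + star w) = i τ + w →
      ((v : Aˣ) : A) * (i τ + algebraMap k A b + star w) = i τ + algebraMap k A b + w →
      c u = 1 → c v = 1) :
    ∀ (x y : L) (u : U), ((u : Aˣ) : A) = i x + i y * w → c u = 1 := by
  have hcm : ∀ x : L, Commute (i x) w := fun x => (hcom x).symm
  have hcoms : ∀ x : L, Commute (star w) (i x) := fun x => by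
    have h := (hcom x).star_star
    rwa [hi] at h
  have hcms : ∀ x : L, Commute (i x) (star w) := fun x => (hcoms x).symm
  have hii : ∀ x y : L, Commute (i x) (i y) := fun x y => by
    rw [commute_iff_eq, ← map_mul, ← map_mul, mul_comm]
  have hww : Commute w (star w) := by
    have h1 : star w = algebraMap k A e - w := eq_sub_of_add_eq' he
    rw [h1]
    exact (Algebra.commute_algebraMap_right e w).sub_right (Commute.refl w)
  have hprod : ∀ z : L, (i z + w) * (i z + star w) = i (TorHom2.nu L e a z) := by
    intro z
    rw [TorHom2.nu, map_add, map_add, map_mul, map_pow, AlgHom.commutes, AlgHom.commutes, ← ha,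
      ← he, add_mul, mul_add, mul_add, pow_two, (hcom z).eq, add_mul, (hcom z).eq, (hcoms z).eq]
    abel
  have hns : ∀ z : L, TorHom2.nu L e a z ≠ 0 := by
    intro z hz
    have h1 := hprod z
    rw [hz, map_zero] at h1
    have h3 : star (i z + star w) * (i z + star w) = 0 := by
      rw [star_add, star_star, hi, h1]
    have h4 := han _ h3
    apply hw
    have h5 : star w = -i z := (neg_eq_of_add_eq_zero_right h4).symm
    have h6 : w = -i z := by
      have h7 := congrArg star h5
      rwa [star_star, star_neg, hi] at h7
    rw [h5]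
    exact h6
  have h2e : (2 : k) ≠ 0 ∨ e ≠ 0 := by
    by_contra hcon
    push Not at hcon
    apply hw
    have h1 : (2 : A) = 0 := by
      have h3 := congrArg (algebraMap k A) hcon.1
      rwa [map_ofNat, map_zero] at h3
    have h3 : star w = -w := by
      rw [hcon.2, map_zero] at he
      exact (neg_eq_of_add_eq_zero_right he).symm
    rw [h3]
    have h4 : w + w = 0 := by rw [← two_mul, h1, zero_mul]
    exact eq_neg_of_add_eq_zero_left h4
  -- units
  have hunit : ∀ z : L, IsUnit (i z + w) ∧ IsUnit (i z + star w) := by
    intro z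
    have h1 : IsUnit (i (TorHom2.nu L e a z)) := (IsUnit.mk0 _ (hns z)).map i
    have h3 : Commute (i z + w) (i z + star w) :=
      ((Commute.refl _).add_right (hcms z)).add_left ((hcom z).add_right hww)
    rw [← hprod z] at h1
    exact (h3.isUnit_mul_iff).1 h1
  have hcancel : ∀ (z : L) (x y : A), x * (i z + star w) = y * (i z + star w) → x = y :=
    fun z x y h => (hunit z).2.mul_left_injective h
  have hcancel' : ∀ (z : L) (x y : A), x * (i z + w) = y * (i z + w) → x = y :=
    fun z x y h => (hunit z).1.mul_left_injective h
  -- the element `cay τ` of the unitary group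
  have hex : ∀ τ : L, ∃ u : U, ((u : Aˣ) : A) * (i τ + star w) = i τ + w := by
    intro τ
    obtain ⟨p, hp⟩ := (hunit τ).1
    obtain ⟨q, hq⟩ := (hunit τ).2
    have h1 : (p : A) * (q : A) = (q : A) * (p : A) := by
      rw [hp, hq]
      exact ((Commute.refl _).add_right (hcms τ)).add_left ((hcom τ).add_right hww)
    have hpq : Commute p q := Units.ext (by rw [Units.val_mul, Units.val_mul, h1])
    have hsp : star (p : A) = q := by rw [hp, hq, star_add, hi]
    have hsq : star (q : A) = p := by rw [hp, hq, star_add, hi, star_star]
    refine ⟨⟨p * q⁻¹, (hU _).2 ?_⟩, ?_⟩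
    · have h3 : star ((q⁻¹ : Aˣ) : A) = ((p⁻¹ : Aˣ) : A) := by
        have h4 : star ((q⁻¹ : Aˣ) : A) * p = 1 := by
          rw [← hsq, ← star_mul, Units.mul_inv, star_one]
        exact (Units.inv_eq_of_mul_eq_one_left h4).symm
      rw [Units.val_mul, star_mul, h3, hsp]
      have h6 : (p * q⁻¹) * (p⁻¹ * q) = 1 := by
        have h7 : q⁻¹ * p⁻¹ = p⁻¹ * q⁻¹ := by
          rw [← mul_inv_rev, ← mul_inv_rev, hpq.eq]
        rw [mul_assoc, ← mul_assoc q⁻¹, h7, mul_assoc, inv_mul_cancel, mul_one, mul_inv_cancel]
      have h8 := congrArg (Units.val) h6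
      simpa only [Units.val_mul, Units.val_one] using h8
    · change ((p * q⁻¹ : Aˣ) : A) * _ = _
      rw [← hq, ← hp, Units.val_mul, mul_assoc, Units.inv_mul, mul_one]
  choose C hC using hex
  have huniq : ∀ (τ : L) (u : U), ((u : Aˣ) : A) * (i τ + star w) = i τ + w → u = C τ := by
    intro τ u hu
    rw [← hC τ] at hu
    exact Subtype.ext (Units.ext (hcancel τ _ _ hu))
  have hf : TorHom2 k e a (fun z : L => c (C z)) := by
    refine ⟨?_, ?_, ?_, ?_⟩
    · apply hbase
      have h := hC 0
      rwa [map_zero, zero_add, zero_add] at h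
    · intro z v hzv
      rw [← map_mul]
      congr 1
      apply huniq
      have hzv' : IsUnit (i (z + v + algebraMap k L e)) := (IsUnit.mk0 _ hzv).map i
      have h1 : i ((z * v - algebraMap k L a) / (z + v + algebraMap k L e)) *
          i (z + v + algebraMap k L e) = i z * i v - w * star w := by
        rw [← map_mul, div_mul_cancel₀ _ hzv, map_sub, map_mul, AlgHom.commutes, ha]
      have hsum : i (z + v + algebraMap k L e) = i z + i v + (w + star w) := by
        rw [map_add, map_add, AlgHom.commutes, he]
      have e1 : (i ((z * v - algebraMap k L a) / (z + v + algebraMap k L e)) + star w) *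
          i (z + v + algebraMap k L e) = (i z + star w) * (i v + star w) := by
        rw [add_mul, h1, hsum, add_mul, mul_add, mul_add, mul_add, mul_add, mul_add,
          (hcms z).eq, hww.eq]
        abel
      have e2 : (i ((z * v - algebraMap k L a) / (z + v + algebraMap k L e)) + w) *
          i (z + v + algebraMap k L e) = (i z + w) * (i v + w) := by
        rw [add_mul, h1, hsum, add_mul, mul_add, mul_add, mul_add, mul_add, mul_add, (hcm z).eq]
        abel
      apply hzv'.mul_left_injective
      change _ * _ * _ = (_ : A) * _
      rw [mul_assoc, e1, e2]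
      rw [Subgroup.coe_mul, Units.val_mul, mul_assoc]
      have hCc : Commute ((((C v : U) : Aˣ) : A)) (i z + star w) := by
        have h4 : Commute (i v + w) (i z + star w) :=
          ((hii v z).add_right (hcms v)).add_left ((hcom z).add_right hww)
        have h5 : Commute (i v + star w) (i z + star w) :=
          ((hii v z).add_right (hcms v)).add_left ((hcoms z).add_right (Commute.refl _))
        apply hcancel v
        rw [mul_assoc, ← h5.eq, ← mul_assoc, hC v, h4.eq, mul_assoc, hC v]
      rw [← mul_assoc (((C v : U) : Aˣ) : A), hCc.eq, mul_assoc, hC v, ← mul_assoc, hC z]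
    · intro z
      rw [← map_mul, ← map_one c]
      congr 1
      apply Subtype.ext
      apply Units.ext
      rw [Subgroup.coe_mul, Units.val_mul, Subgroup.coe_one, Units.val_one]
      have h1 := hC (-z - algebraMap k L e)
      have h4 : i (-z - algebraMap k L e) = -(i z + (w + star w)) := by
        rw [map_sub, map_neg, AlgHom.commutes, he]
        abel
      have h3 : (((C (-z - algebraMap k L e) : U) : Aˣ) : A) * (i z + w) = i z + star w := by
        rw [h4] at h1
        have h5 : -(i z + (w + star w)) + star w = -(i z + w) := by abel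
        have h6 : -(i z + (w + star w)) + w = -(i z + star w) := by abel
        rw [h5, h6, mul_neg, neg_inj] at h1
        exact h1
      apply hcancel' z
      rw [mul_assoc, h3, hC z, one_mul]
    · intro z hz b
      refine hline z b (C z) (C (z + algebraMap k L b)) (hC z) ?_ hz
      have h1 := hC (z + algebraMap k L b)
      rwa [map_add, AlgHom.commutes] at h1
  have hall := hf.eq_one hns h2e
  intro x y u hu
  have hyw : ∀ z : L, i z * star w = i z * algebraMap k A e - i z * w := by
    intro z
    rw [← he, mul_add]
    abel
  have hnorm : x * x + x * y * algebraMap k L e + y * y * algebraMap k L a = 1 := by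
    have h1 := (hU _).1 u.2
    rw [hu, star_add, star_mul, hi, hi, (hcoms y).eq] at h1
    have h3 : (i x + i y * w) * (i x + i y * star w) =
        i (x * x + x * y * algebraMap k L e + y * y * algebraMap k L a) := by
      rw [map_add, map_add, map_mul, map_mul, map_mul, map_mul, map_mul, AlgHom.commutes,
        AlgHom.commutes, ← ha, ← he, add_mul, mul_add, mul_add]
      have h4 : i y * w * i x = i x * i y * w := by
        rw [mul_assoc, (hcom x).eq, ← mul_assoc, (hii y x).eq]
      have h5 : i y * w * (i y * star w) = i y * i y * (w * star w) := by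
        rw [mul_assoc, ← mul_assoc w, (hcom y).eq, mul_assoc, mul_assoc]
      rw [h4, h5, mul_add, ← mul_assoc (i x) (i y) (star w)]
      abel
    rw [h3, ← map_one i] at h1
    exact i.injective h1
  by_cases hy : y = 0
  · rw [hy, mul_zero, zero_mul, zero_mul, zero_mul, add_zero, add_zero] at hnorm
    rcases mul_self_eq_one_iff.1 hnorm with hx | hx
    · have h1 : u = 1 := by
        apply Subtype.ext
        apply Units.ext
        rw [hu, hx, hy, map_one, map_zero, zero_mul, add_zero, Subgroup.coe_one, Units.val_one]
      rw [h1, map_one]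
    · by_cases h2 : (2 : L) = 0
      · have h1 : u = 1 := by
          apply Subtype.ext
          apply Units.ext
          have h3 : x = 1 := by
            rw [hx, eq_comm, ← sub_eq_zero, sub_neg_eq_add, one_add_one_eq_two, h2]
          rw [hu, h3, hy, map_one, map_zero, zero_mul, add_zero, Subgroup.coe_one, Units.val_one]
        rw [h1, map_one]
      · rw [huniq (-(algebraMap k L e / 2)) u ?_]
        · exact hall _
        · rw [hu, hx, hy, map_zero, zero_mul, add_zero, map_neg i 1, map_one, neg_mul, one_mul]
          have h3 : i (-(algebraMap k L e / 2)) + i (-(algebraMap k L e / 2)) =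
              -(w + star w) := by
            rw [← map_add, he, ← AlgHom.commutes i e, ← map_neg]
            congr 1
            field_simp
            ring
          have h4 : i (-(algebraMap k L e / 2)) + star w +
              (i (-(algebraMap k L e / 2)) + w) = 0 := by
            have : i (-(algebraMap k L e / 2)) + star w +
              (i (-(algebraMap k L e / 2)) + w) = (i (-(algebraMap k L e / 2)) +
              i (-(algebraMap k L e / 2))) + (w + star w) := by abel
            rw [this, h3, neg_add_cancel]
          exact neg_eq_of_add_eq_zero_right h4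
  · rw [huniq ((1 + x) / y) u ?_]
    · exact hall _
    · have hyU : IsUnit (i y) := (IsUnit.mk0 _ hy).map i
      apply hyU.mul_left_injective
      change _ * _ * _ = (_ : A) * _
      have h1 : i ((1 + x) / y) * i y = 1 + i x := by
        rw [← map_mul, div_mul_cancel₀ _ hy, map_add, map_one]
      rw [mul_assoc, add_mul, add_mul, h1, (hcoms y).eq, (hcom y).eq, hu]
      have h4 : i y * w * i x = i x * (i y * w) := by
        rw [mul_assoc, (hcom x).eq, ← mul_assoc, (hii y x).eq, mul_assoc]
      have h5 : i y * w * (i y * star w) = 1 - i x * i x - i x * (i y * algebraMap k A e) := by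
        have h6 : i y * w * (i y * star w) = i y * i y * (w * star w) := by
          rw [mul_assoc, ← mul_assoc w, (hcom y).eq, mul_assoc, mul_assoc]
        rw [h6, ha, ← AlgHom.commutes i a, ← AlgHom.commutes i e, ← map_mul, ← map_mul, ← map_mul,
          ← map_mul, ← map_mul, ← map_one i, ← map_sub, ← map_sub]
        congr 1
        rw [← hnorm]
        ring
      rw [add_mul, mul_add, mul_add, mul_add, mul_add, mul_one, mul_one, h4, h5, hyw y, mul_sub]
      abel

end field

section adjoin

variable {k A Q : Type*} [Field k] [Ring A] [StarRing A] [Algebra k A] [Group Q]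

/-- The field `k(σ)` as an abstract field, mapped to `A`. -/
noncomputable def embA (k : Type*) {A : Type*} [Field k] [Ring A] [Algebra k A] (σ : A) :
    AdjoinRoot (minpoly k σ) →ₐ[k] A :=
  Ideal.Quotient.liftₐ _ (aeval σ) (by
    intro p hp
    obtain ⟨q, rfl⟩ := Ideal.mem_span_singleton'.1 hp
    rw [map_mul, minpoly.aeval, mul_zero])

omit [StarRing A] in
theorem mem_range_embA {σ x : A} : x ∈ Algebra.adjoin k {σ} ↔ ∃ y, embA k σ y = x := by
  rw [Algebra.adjoin_singleton_eq_range_aeval]
  constructor
  · rintro ⟨p, rfl⟩
    exact ⟨AdjoinRoot.mk _ p, rfl⟩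
  · rintro ⟨y, rfl⟩
    induction y using AdjoinRoot.induction_on with
    | ih p => exact ⟨p, rfl⟩

/-- **The end, for `L = k(σ)`**, `σ` a symmetric algebraic element with irreducible minimal
polynomial commuting with `w`: the homomorphism `c` is trivial on the unitary elements of
`L + L w`. -/
theorem end2_adjoin [Nontrivial A] [Infinite k] [Finite Q]
    (han : ∀ x : A, star x * x = 0 → x = 0)
    (hst : ∀ a : k, star (algebraMap k A a) = algebraMap k A a)
    (U : Subgroup Aˣ) (hU : ∀ g : Aˣ, g ∈ U ↔ (g : A) * star (g : A) = 1) (c : U →* Q)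
    (w : A) (e a : k) (he : w + star w = algebraMap k A e) (ha : w * star w = algebraMap k A a)
    (hw : w ≠ star w)
    (σ : A) (hσ : star σ = σ) (hint : IsIntegral k σ) (hirr : Irreducible (minpoly k σ))
    (hcom : Commute w σ)
    (hbase : ∀ u : U, ((u : Aˣ) : A) * star w = w → c u = 1)
    (hline : ∀ τ ∈ Algebra.adjoin k {σ}, ∀ (b : k) (u v : U),
      ((u : Aˣ) : A) * (τ + star w) = τ + w →
      ((v : Aˣ) : A) * (τ + algebraMap k A b + star w) = τ + algebraMap k A b + w →
      c u = 1 → c v = 1) :
    ∀ x ∈ Algebra.adjoin k {σ}, ∀ y ∈ Algebra.adjoin k {σ}, ∀ u : U,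
      ((u : Aˣ) : A) = x + y * w → c u = 1 := by
  have : Fact (Irreducible (minpoly k σ)) := ⟨hirr⟩
  have hfin : Module.Finite k (AdjoinRoot (minpoly k σ)) :=
    (AdjoinRoot.powerBasis (minpoly.ne_zero hint)).finite
  have hsym : ∀ x ∈ Algebra.adjoin k {σ}, star x = x := by
    intro x hx
    induction hx using Algebra.adjoin_induction with
    | mem x hx => rw [Set.mem_singleton_iff.1 hx, hσ]
    | algebraMap r => exact hst r
    | add x y _ _ hx hy => rw [star_add, hx, hy]
    | mul x y hx' hy' hx hy =>
      rw [star_mul, hx, hy]
      obtain ⟨a, rfl⟩ := mem_range_embA.1 hx'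
      obtain ⟨b, rfl⟩ := mem_range_embA.1 hy'
      rw [← map_mul, ← map_mul, mul_comm]
  have hc : ∀ x ∈ Algebra.adjoin k {σ}, Commute w x := by
    intro x hx
    induction hx using Algebra.adjoin_induction with
    | mem x hx => rw [Set.mem_singleton_iff.1 hx]; exact hcom
    | algebraMap r => exact (Algebra.commutes r w).symm
    | add x y _ _ hx hy => exact hx.add_right hy
    | mul x y _ _ hx hy => exact hx.mul_right hy
  intro x hx y hy u hu
  obtain ⟨p, rfl⟩ := mem_range_embA.1 hx
  obtain ⟨q, rfl⟩ := mem_range_embA.1 hy
  exact end2_field han U hU c w e a he ha hw (embA k σ)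
    (fun x => hsym _ (mem_range_embA.2 ⟨x, rfl⟩))
    (fun x => hc _ (mem_range_embA.2 ⟨x, rfl⟩)) hbase
    (fun τ => hline _ (mem_range_embA.2 ⟨τ, rfl⟩)) p q u hu

end adjoin

end Vale.Agent.P011.H63
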