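import Vale.Agent.P011.H63.Link
import Vale.Agent.P011.H436.Weyl2
import Vale.Agent.P011.H73.CellSpec

/-!
# The `L²` form of the linking bound

`linkL2` : for a family `B_j ∈ ℤ^N` any `N` members of which are linearly independent, the mean
square of the averages of `b - K b` over the translates `x + i A_j + i² B_j`, `i < I`, is at most
`(4 (N-1)/J + δ) ‖b‖²`.
-/

namespace Vale.Agent.P011.H63

open Finset Real

variable {N J : ℕ}

theorem ee_eq_e (x : ℝ) : H436.ee x = e x := by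
  unfold H436.ee e
  congr 1

/-- the multiplier of the single average -/
noncomputable def m1 (B A : Fin J → Fin N → ℤ) (I : ℕ) (j : Fin J) (θ : Fin N → ℝ) : ℂ :=
  ∑ i ∈ range I, e (dot θ (sh B A j i))

theorem norm_m1_le (B A : Fin J → Fin N → ℤ) (I : ℕ) (j : Fin J) (θ : Fin N → ℝ) :
    ‖m1 B A I j θ‖ ≤ I := by
  unfold m1
  refine (norm_sum_le _ _).trans ?_
  simp

/-- all coordinates are almost rational if `N` of the multipliers are large -/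
theorem coord_bound1 (B : Fin J → Fin N → ℤ) (hB : GenPos B) {δ : ℝ} (hδ : 0 < δ)
    (hδ1 : δ ≤ 1) : ∃ (Q : ℕ) (K : ℝ), 1 ≤ Q ∧ 0 < K ∧ ∀ I : ℕ, 1 ≤ I →
      ∀ (A : Fin J → Fin N → ℤ) (θ : Fin N → ℝ) (F : Finset (Fin J)), F.card = N →
      (∀ j ∈ F, δ * (I : ℝ) ≤ ‖m1 B A I j θ‖) → ∀ s, nd (Q * θ s) ≤ K / (I : ℝ) ^ 2 := by
  obtain ⟨Q0, hQ0, hW⟩ := H436.weyl_inverse2 δ hδ hδ1
  obtain ⟨Q, K, hQ, hK, hco⟩ := cramer_bound B hB Q0
  have hQ0' : (0 : ℝ) < Q0 := by exact_mod_cast hQ0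
  refine ⟨Q, K * Q0, hQ, by positivity, ?_⟩
  intro I hI A θ F hF hlarge s
  rw [mul_div_assoc]
  refine hco θ F hF _ (by positivity) (fun j hj => ?_) s
  have h2 := hlarge j hj
  unfold m1 at h2
  simp only [dot_sh] at h2
  push_cast at h2
  simp only [← ee_eq_e] at h2
  obtain ⟨q, hq1, hqQ, a, ha⟩ := hW (dot θ (B j)) (dot θ (A j)) I hI h2
  exact ⟨q, hq1, hqQ, (nd_le _ a).trans ha⟩

/-- pointwise bound for the product of the multipliers, squared form -/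
theorem pointwise2 (hN : 1 ≤ N) (B : Fin J → Fin N → ℤ) (hB : GenPos B) {δ : ℝ} (hδ : 0 < δ) :
    ∃ (Q : ℕ) (κ : ℝ), 1 ≤ Q ∧ 0 < κ ∧ ∀ I Y : ℕ, 1 ≤ I → 1 ≤ Y →
      (Y : ℝ) ≤ κ * (I : ℝ) ^ 2 → ∀ (A : Fin J → Fin N → ℤ) (θ : Fin N → ℝ),
      ‖kh Q Y θ - 1‖ ^ 2 * ∑ j, ‖m1 B A I j θ‖ ^ 2 ≤
        (4 * ((N : ℝ) - 1) + δ * J) * (I : ℝ) ^ 2 := by
  classical
  obtain ⟨δ1, hδ1, hδ1', hδ1''⟩ : ∃ δ1 : ℝ, 0 < δ1 ∧ δ1 ≤ 1 ∧ 4 * δ1 ≤ δ :=
    ⟨min (δ / 4) 1, by positivity, min_le_right _ _, by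
      have := min_le_left (δ / 4) 1; linarith⟩
  obtain ⟨Q, K, hQ, hK, hco⟩ := coord_bound1 B hB hδ1 hδ1'
  have hN0 : (0 : ℝ) < N := by exact_mod_cast hN
  refine ⟨Q, δ1 / (2 * π * N * K), hQ, by positivity, ?_⟩
  intro I Y hI hY hYI A θ
  have hI1 : (0 : ℝ) < I := by exact_mod_cast hI
  have hI2 : (0 : ℝ) < (I : ℝ) ^ 2 := by positivity
  have hJ0 : (0 : ℝ) ≤ J := Nat.cast_nonneg _
  have hδ1sq : δ1 ^ 2 ≤ δ1 := by nlinarith
  set F : Finset (Fin J) := univ.filter (fun j => δ1 * (I : ℝ) ≤ ‖m1 B A I j θ‖) with hF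
  have hone : ∀ j, ‖m1 B A I j θ‖ ^ 2 ≤ (I : ℝ) ^ 2 := fun j =>
    pow_le_pow_left₀ (norm_nonneg _) (norm_m1_le B A I j θ) 2
  rcases lt_or_ge F.card N with hlt | hge
  · have h1 : ‖kh Q Y θ - 1‖ ^ 2 ≤ 4 := by
      have : ‖kh Q Y θ - 1‖ ≤ 2 := by
        refine (norm_sub_le _ _).trans ?_
        rw [norm_one]
        linarith [norm_kh_le Q Y θ]
      nlinarith [norm_nonneg (kh Q Y θ - 1)]
    have h2 : ∑ j, ‖m1 B A I j θ‖ ^ 2 ≤ ((N : ℝ) - 1 + δ1 * J) * (I : ℝ) ^ 2 := by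
      rw [← sum_filter_add_sum_filter_not univ (fun j => δ1 * (I : ℝ) ≤ ‖m1 B A I j θ‖)]
      rw [add_mul]
      refine add_le_add ?_ ?_
      · refine (sum_le_card_nsmul _ _ _ fun j _ => hone j).trans ?_
        rw [nsmul_eq_mul]
        refine mul_le_mul_of_nonneg_right ?_ hI2.le
        have : F.card + 1 ≤ N := hlt
        have h3 : ((F.card : ℝ)) + 1 ≤ N := by exact_mod_cast this
        rw [hF] at h3
        linarith
      · refine (sum_le_card_nsmul _ _ (δ1 * (I : ℝ) ^ 2) fun j hj => ?_).trans ?_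
        · rw [mem_filter, not_le] at hj
          have h4 : ‖m1 B A I j θ‖ ^ 2 ≤ (δ1 * (I : ℝ)) ^ 2 :=
            pow_le_pow_left₀ (norm_nonneg _) hj.2.le 2
          refine h4.trans ?_
          rw [mul_pow]
          exact mul_le_mul_of_nonneg_right hδ1sq hI2.le
        · rw [nsmul_eq_mul]
          have h4 : ((univ.filter fun j : Fin J => ¬ (δ1 * (I : ℝ) ≤ ‖m1 B A I j θ‖)).card : ℝ)
              ≤ J := by
            have := card_filter_le (univ : Finset (Fin J))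
              (fun j => ¬ (δ1 * (I : ℝ) ≤ ‖m1 B A I j θ‖))
            rw [card_univ, Fintype.card_fin] at this
            exact_mod_cast this
          have h5 : (0 : ℝ) ≤ δ1 * (I : ℝ) ^ 2 := by positivity
          calc _ ≤ (J : ℝ) * (δ1 * (I : ℝ) ^ 2) := mul_le_mul_of_nonneg_right h4 h5
            _ = _ := by ring
    have h3 : 0 ≤ ∑ j, ‖m1 B A I j θ‖ ^ 2 := sum_nonneg fun _ _ => by positivity
    calc ‖kh Q Y θ - 1‖ ^ 2 * ∑ j, ‖m1 B A I j θ‖ ^ 2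
        ≤ 4 * (((N : ℝ) - 1 + δ1 * J) * (I : ℝ) ^ 2) := mul_le_mul h1 h2 h3 (by norm_num)
      _ ≤ _ := by
        have h4 : 4 * δ1 * J ≤ δ * J := mul_le_mul_of_nonneg_right hδ1'' hJ0
        have h5 : 4 * (((N : ℝ) - 1 + δ1 * J)) ≤ 4 * ((N : ℝ) - 1) + δ * J := by linarith
        calc 4 * (((N : ℝ) - 1 + δ1 * J) * (I : ℝ) ^ 2)
            = (4 * (((N : ℝ) - 1 + δ1 * J))) * (I : ℝ) ^ 2 := by ring
          _ ≤ _ := mul_le_mul_of_nonneg_right h5 hI2.le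
  · obtain ⟨F', hF', hF'c⟩ := exists_subset_card_eq hge
    have h1 := hco I hI A θ F' hF'c (fun j hj => by
      have := hF' hj
      rw [hF, mem_filter] at this
      exact this.2)
    have h2 : ‖kh Q Y θ - 1‖ ≤ δ1 := by
      refine (norm_kh_sub_one_le hY θ).trans ?_
      have h3 : ∑ s, nd (Q * θ s) ≤ N * (K / (I : ℝ) ^ 2) := by
        refine (sum_le_card_nsmul _ _ _ fun s _ => h1 s).trans (le_of_eq ?_)
        simp
      have hY0 : (0 : ℝ) ≤ Y := Nat.cast_nonneg _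
      calc 2 * π * Y * ∑ s, nd (Q * θ s)
          ≤ 2 * π * (δ1 / (2 * π * N * K) * (I : ℝ) ^ 2) * (N * (K / (I : ℝ) ^ 2)) := by
            apply mul_le_mul _ h3 (sum_nonneg fun _ _ => nd_nonneg _) (by positivity)
            exact mul_le_mul_of_nonneg_left hYI (by positivity)
        _ = δ1 := by field_simp
    have h2' : ‖kh Q Y θ - 1‖ ^ 2 ≤ δ := by
      have h6 : ‖kh Q Y θ - 1‖ ^ 2 ≤ δ1 ^ 2 := pow_le_pow_left₀ (norm_nonneg _) h2 2
      linarith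
    have h3 : ∑ j, ‖m1 B A I j θ‖ ^ 2 ≤ J * (I : ℝ) ^ 2 := by
      refine (sum_le_card_nsmul _ _ _ fun j _ => hone j).trans (le_of_eq ?_)
      simp
    have h4 : 0 ≤ ∑ j, ‖m1 B A I j θ‖ ^ 2 := sum_nonneg fun _ _ => by positivity
    have hN1 : (1 : ℝ) ≤ N := by exact_mod_cast hN
    calc ‖kh Q Y θ - 1‖ ^ 2 * ∑ j, ‖m1 B A I j θ‖ ^ 2 ≤ δ * (J * (I : ℝ) ^ 2) :=
          mul_le_mul h2' h3 h4 hδ.le
      _ ≤ _ := by
        have : 0 ≤ 4 * ((N : ℝ) - 1) * (I : ℝ) ^ 2 := by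
          have : 0 ≤ (N : ℝ) - 1 := by linarith
          positivity
        nlinarith

/-- average of `b` over the subcell `x + Q [0,Y)^N` (natural number coordinates) -/
noncomputable def Kav (Q Y : ℕ) (b : (Fin N → ℤ) → ℝ) (x : Fin N → ℤ) : ℝ :=
  ((Y : ℝ) ^ N)⁻¹ * ∑ z ∈ gr N Y, b (x + fun s => (Q : ℤ) * z s)

theorem cellAvg_eq_Kav (Q Y : ℕ) (b : (Fin N → ℤ) → ℝ) (x : Fin N → ℤ) :
    H73.cellAvg Q Y b x = Kav Q Y b x := by
  unfold H73.cellAvg Kav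
  rw [div_eq_inv_mul]
  congr 1
  symm
  refine sum_bij (fun z _ => fun s => ((z s : ℕ) : ℤ)) ?_ ?_ ?_ ?_
  · intro z hz
    unfold H73.cube
    rw [Fintype.mem_piFinset]
    intro s
    have := mem_range.mp (Fintype.mem_piFinset.mp hz s)
    rw [mem_Ico]
    exact ⟨Int.natCast_nonneg _, by exact_mod_cast this⟩
  · intro z1 _ z2 _ h
    funext s
    have := congrFun h s
    exact_mod_cast this
  · intro y hy
    unfold H73.cube at hy
    rw [Fintype.mem_piFinset] at hy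
    refine ⟨fun s => (y s).toNat, ?_, ?_⟩
    · unfold gr
      rw [Fintype.mem_piFinset]
      intro s
      have := mem_Ico.mp (hy s)
      rw [mem_range]
      omega
    · funext s
      have := (mem_Ico.mp (hy s)).1
      exact Int.toNat_of_nonneg this
  · intro z _
    congr 1

theorem exists_bound (T : Finset (Fin N → ℤ)) : ∃ R : ℕ, ∀ v ∈ T, ∀ s, |v s| ≤ R := by
  classical
  refine ⟨∑ v ∈ T, ∑ s, (v s).natAbs, fun v hv s => ?_⟩
  have h1 : (v s).natAbs ≤ ∑ s, (v s).natAbs :=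
    single_le_sum (f := fun s => (v s).natAbs) (fun _ _ => Nat.zero_le _) (mem_univ s)
  have h2 : ∑ s, (v s).natAbs ≤ ∑ v ∈ T, ∑ s, (v s).natAbs :=
    single_le_sum (f := fun v : Fin N → ℤ => ∑ s, (v s).natAbs) (fun _ _ => Nat.zero_le _) hv
  rw [Int.abs_eq_natAbs]
  exact_mod_cast h1.trans h2

/-- duality for one `j`: `M^N ∑_S a · g_j` as a sum over the dual grid -/
theorem dual_link {M : ℕ} (hM : 0 < M) (S T : Finset (Fin N → ℤ)) (a b : (Fin N → ℤ) → ℝ)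
    (hb : ∀ y ∉ T, b y = 0) (B A : Fin J → Fin N → ℤ) (I Q Y : ℕ) (j : Fin J)
    (hP : ∀ i ∈ range I, ∀ z ∈ gr N Y, ∀ x ∈ S, ∀ y ∈ T, ∀ s,
      |(x + sh B A j i + (fun s => (Q : ℤ) * z s) - y) s| < M)
    (hP' : ∀ i ∈ range I, ∀ x ∈ S, ∀ y ∈ T, ∀ s, |(x + sh B A j i - y) s| < M) :
    ∑ t ∈ gr N M, Fa S a (th M t) * Fb T b (th M t) *
        (m1 B A I j (th M t) * (1 - kh Q Y (th M t))) =
      (M : ℂ) ^ N * ((∑ x ∈ S, a x * ∑ i ∈ range I,
        (b (x + sh B A j i) - Kav Q Y b (x + sh B A j i)) : ℝ) : ℂ) := by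
  have h1 : ∀ i ∈ range I, ∑ t ∈ gr N M, Fa S a (th M t) * Fb T b (th M t) *
      (e (dot (th M t) (sh B A j i)) * (1 - kh Q Y (th M t))) =
      (M : ℂ) ^ N * ((∑ x ∈ S, a x *
        (b (x + sh B A j i) - Kav Q Y b (x + sh B A j i)) : ℝ) : ℂ) := by
    intro i hi
    have h2 := dual hM S T a b hb (sh B A j i) (hP' i hi)
    have h3 : ∀ z ∈ gr N Y, ∑ t ∈ gr N M, Fa S a (th M t) * Fb T b (th M t) *
        e (dot (th M t) (sh B A j i + (fun s => (Q : ℤ) * z s))) =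
        (M : ℂ) ^ N * ((∑ x ∈ S, a x * b (x + sh B A j i + (fun s => (Q : ℤ) * z s)) : ℝ) : ℂ) := by
      intro z hz
      have h4 := dual hM S T a b hb (sh B A j i + (fun s => (Q : ℤ) * z s))
        (by
          intro x hx y hy s
          have := hP i hi z hz x hx y hy s
          rwa [add_assoc] at this)
      rw [h4]
      simp only [add_assoc]
    have h5 : ∀ t : Fin N → ℕ, Fa S a (th M t) * Fb T b (th M t) *
        (e (dot (th M t) (sh B A j i)) * (1 - kh Q Y (th M t))) =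
        Fa S a (th M t) * Fb T b (th M t) * e (dot (th M t) (sh B A j i)) -
        ((Y : ℂ) ^ N)⁻¹ * ∑ z ∈ gr N Y, Fa S a (th M t) * Fb T b (th M t) *
          e (dot (th M t) (sh B A j i + (fun s => (Q : ℤ) * z s))) := by
      intro t
      unfold kh
      simp only [dot_add, e_add]
      rw [mul_sub, mul_one, mul_sub, ← mul_assoc]
      congr 1
      rw [mul_sum, mul_sum, mul_sum]
      refine sum_congr rfl fun z _ => ?_
      ring
    simp only [h5]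
    rw [sum_sub_distrib, h2, ← mul_sum, sum_comm, sum_congr rfl h3]
    unfold Kav
    push_cast
    rw [← mul_sum, mul_left_comm, ← mul_sub]
    congr 1
    rw [sum_comm, mul_sum, ← sum_sub_distrib]
    refine sum_congr rfl fun x _ => ?_
    rw [mul_sub, ← mul_sum]
    ring
  unfold m1
  simp only [sum_mul, mul_sum (s := range I)]
  rw [sum_comm, sum_congr rfl h1, ← mul_sum]
  congr 1
  push_cast
  rw [sum_comm]

theorem linkL2 (hN : 1 ≤ N) (B : Fin J → Fin N → ℤ) (hB : GenPos B) : H73.LinkL2 B := by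
  classical
  intro δ hδ
  obtain ⟨Q, κ, hQ, hκ, hpt⟩ := pointwise2 hN B hB hδ
  refine ⟨Q, hQ, κ, hκ, 1, ?_⟩
  intro I hI Y hY hYI A b Sb hb S
  have hsh : ∀ (x : Fin N → ℤ) (j : Fin J) (i : ℕ),
      x + (i : ℤ) • A j + ((i : ℤ) ^ 2) • B j = x + sh B A j i := by
    intro x j i
    funext s
    simp [sh]
    ring
  simp only [hsh, cellAvg_eq_Kav]
  -- the big modulus
  obtain ⟨R1, hR1⟩ := exists_bound (S ∪ Sb)
  obtain ⟨R2, hR2⟩ := exists_bound
    ((univ ×ˢ range I).image fun p : Fin J × ℕ => sh B A p.1 (p.2 : ℤ))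
  obtain ⟨M, hMdef⟩ : ∃ M : ℕ, M = 2 * R1 + R2 + Q * Y + 1 := ⟨_, rfl⟩
  have hM : 0 < M := by omega
  have hP : ∀ j : Fin J, ∀ i ∈ range I, ∀ z ∈ gr N Y, ∀ x ∈ S, ∀ y ∈ Sb, ∀ s,
      |(x + sh B A j i + (fun s => (Q : ℤ) * z s) - y) s| < M := by
    intro j i hi z hz x hx y hy s
    have h1 := hR1 x (mem_union_left _ hx) s
    have h2 := hR1 y (mem_union_right _ hy) s
    have h3 := hR2 (sh B A j i) (mem_image.mpr ⟨(j, i), mem_product.mpr ⟨mem_univ _, hi⟩, rfl⟩) s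
    have h4 : (z s : ℤ) < Y := by
      exact_mod_cast mem_range.mp (Fintype.mem_piFinset.mp hz s)
    have h5 : (Q : ℤ) * z s ≤ Q * Y := by
      exact mul_le_mul_of_nonneg_left h4.le (Int.natCast_nonneg _)
    have h6 : 0 ≤ (Q : ℤ) * z s := by positivity
    rw [abs_le] at h1 h2 h3
    simp only [Pi.add_apply, Pi.sub_apply]
    rw [hMdef, abs_lt]
    push_cast
    constructor <;> linarith
  have hP' : ∀ j : Fin J, ∀ i ∈ range I, ∀ x ∈ S, ∀ y ∈ Sb, ∀ s,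
      |(x + sh B A j i - y) s| < M := by
    intro j i hi x hx y hy s
    have h1 := hR1 x (mem_union_left _ hx) s
    have h2 := hR1 y (mem_union_right _ hy) s
    have h3 := hR2 (sh B A j i) (mem_image.mpr ⟨(j, i), mem_product.mpr ⟨mem_univ _, hi⟩, rfl⟩) s
    rw [abs_le] at h1 h2 h3
    have h6 : 0 ≤ (Q : ℤ) * Y := by positivity
    simp only [Pi.add_apply, Pi.sub_apply]
    rw [hMdef, abs_lt]
    push_cast
    constructor <;> linarith
  have hSS : ∀ x ∈ S, ∀ y ∈ S, ∀ s, |(x - y) s| < M := by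
    intro x hx y hy s
    have h1 := hR1 x (mem_union_left _ hx) s
    have h2 := hR1 y (mem_union_left _ hy) s
    rw [abs_le] at h1 h2
    have h6 : 0 ≤ (Q : ℤ) * Y := by positivity
    have h7 : 0 ≤ (R2 : ℤ) := by positivity
    rw [Pi.sub_apply, hMdef, abs_lt]
    push_cast
    constructor <;> linarith
  have hTT : ∀ x ∈ Sb, ∀ y ∈ Sb, ∀ s, |(x - y) s| < M := by
    intro x hx y hy s
    have h1 := hR1 x (mem_union_right _ hx) s
    have h2 := hR1 y (mem_union_right _ hy) s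
    rw [abs_le] at h1 h2
    have h6 : 0 ≤ (Q : ℤ) * Y := by positivity
    have h7 : 0 ≤ (R2 : ℤ) := by positivity
    rw [Pi.sub_apply, hMdef, abs_lt]
    push_cast
    constructor <;> linarith
  obtain ⟨g, hg⟩ : ∃ g : Fin J → (Fin N → ℤ) → ℝ, g = fun j x => ∑ i ∈ range I,
      (b (x + sh B A j i) - Kav Q Y b (x + sh B A j i)) := ⟨_, rfl⟩
  obtain ⟨G, hG⟩ : ∃ G : Fin J → ℝ, G = fun j => ∑ x ∈ S, g j x ^ 2 := ⟨_, rfl⟩
  obtain ⟨H, hH⟩ : ∃ H : Fin J → ℝ, H = fun j => ∑ t ∈ gr N M, ‖Fa Sb b (th M t)‖ ^ 2 *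
      (‖kh Q Y (th M t) - 1‖ ^ 2 * ‖m1 B A I j (th M t)‖ ^ 2) := ⟨_, rfl⟩
  have hMN : (0 : ℝ) < (M : ℝ) ^ N := by positivity
  have hG0 : ∀ j, 0 ≤ G j := by
    intro j; rw [hG]; exact sum_nonneg fun _ _ => by positivity
  have hH0 : ∀ j, 0 ≤ H j := by
    intro j; rw [hH]; exact sum_nonneg fun _ _ => by positivity
  have hGH : ∀ j, (M : ℝ) ^ N * G j ≤ H j := by
    intro j
    have h1 := dual_link hM S Sb (g j) b hb B A I Q Y j (hP j) (hP' j)
    have h2 : (∑ x ∈ S, g j x * ∑ i ∈ range I,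
        (b (x + sh B A j i) - Kav Q Y b (x + sh B A j i))) = G j := by
      rw [hG]
      refine sum_congr rfl fun x _ => ?_
      rw [sq, hg]
    rw [h2] at h1
    have h3 : (M : ℝ) ^ N * G j ≤ ∑ t ∈ gr N M, ‖Fa S (g j) (th M t)‖ *
        (‖Fa Sb b (th M t)‖ * (‖kh Q Y (th M t) - 1‖ * ‖m1 B A I j (th M t)‖)) := by
      have h4 : ‖(M : ℂ) ^ N * ((G j : ℝ) : ℂ)‖ = (M : ℝ) ^ N * G j := by
        rw [norm_mul, norm_pow, Complex.norm_natCast, Complex.norm_real, Real.norm_eq_abs,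
          abs_of_nonneg (hG0 j)]
      rw [← h4, ← h1]
      refine (norm_sum_le _ _).trans (sum_le_sum fun t _ => le_of_eq ?_)
      rw [norm_mul, norm_mul, norm_mul, norm_Fb, norm_sub_rev (1 : ℂ)]
      ring
    have h5 := Real.sum_mul_le_sqrt_mul_sqrt (gr N M) (fun t => ‖Fa S (g j) (th M t)‖)
      (fun t => ‖Fa Sb b (th M t)‖ * (‖kh Q Y (th M t) - 1‖ * ‖m1 B A I j (th M t)‖))
    have h6 : ∑ t ∈ gr N M, ‖Fa S (g j) (th M t)‖ ^ 2 = (M : ℝ) ^ N * G j := by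
      rw [parseval hM S (g j) hSS, hG]
    have h7 : ∑ t ∈ gr N M, (‖Fa Sb b (th M t)‖ *
        (‖kh Q Y (th M t) - 1‖ * ‖m1 B A I j (th M t)‖)) ^ 2 = H j := by
      rw [hH]
      refine sum_congr rfl fun t _ => by ring
    rw [h6, h7] at h5
    have h8 : (M : ℝ) ^ N * G j ≤ √((M : ℝ) ^ N * G j) * √(H j) := h3.trans h5
    have h9 : 0 ≤ (M : ℝ) ^ N * G j := mul_nonneg hMN.le (hG0 j)
    rcases h9.eq_or_lt with h10 | h10
    · rw [← h10]; exact hH0 j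
    · have h11 : 0 < √((M : ℝ) ^ N * G j) := Real.sqrt_pos.mpr h10
      have h12 : √((M : ℝ) ^ N * G j) * √((M : ℝ) ^ N * G j) ≤ √((M : ℝ) ^ N * G j) * √(H j) := by
        rw [Real.mul_self_sqrt h9]; exact h8
      have h13 := le_of_mul_le_mul_left h12 h11
      exact (Real.sqrt_le_sqrt_iff (hH0 j)).mp h13
  have hfin : ∑ j, H j ≤ (4 * ((N : ℝ) - 1) + δ * J) * (I : ℝ) ^ 2 *
      ((M : ℝ) ^ N * ∑ x ∈ Sb, b x ^ 2) := by
    rw [hH]
    rw [sum_comm, ← parseval hM Sb b hTT, mul_sum]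
    refine sum_le_sum fun t _ => ?_
    rw [← mul_sum, ← mul_sum, mul_comm]
    exact mul_le_mul_of_nonneg_right (hpt I Y hI hY hYI A (th M t)) (by positivity)
  have h1 : (M : ℝ) ^ N * ∑ j, G j ≤ (M : ℝ) ^ N * ((4 * ((N : ℝ) - 1) + δ * J) * (I : ℝ) ^ 2 *
      ∑ x ∈ Sb, b x ^ 2) := by
    rw [mul_sum]
    refine (sum_le_sum fun j _ => hGH j).trans (hfin.trans (le_of_eq ?_))
    ring
  have h2 := le_of_mul_le_mul_left h1 hMN
  rw [hG, hg] at h2
  exact h2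

end Vale.Agent.P011.H63
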