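import Vale.Agent.P011.H63.Weyl

/-!
# Linking lemma: quadratic shifts in boxes of `ℤ^N`

Averages of `b (x + i² B_j + i A_j)` over `i = u + w`, `u, w < I`, and over a family of vectors
`B_j ∈ ℤ^N` in general position see only the densities of `b` in the subcells
`x + Q [0, Y)^N`, where `Q` is a bounded modulus and `Y ≤ κ I²`.  Everything is uniform in the
vectors `A_j` and in the functions.
-/

namespace Vale.Agent.P011.H63

open Finset Real

variable {N J : ℕ}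

/-- pairing of a real vector with an integer vector -/
noncomputable def dot (θ : Fin N → ℝ) (n : Fin N → ℤ) : ℝ := ∑ s, θ s * n s

theorem dot_add (θ : Fin N → ℝ) (m n : Fin N → ℤ) : dot θ (m + n) = dot θ m + dot θ n := by
  simp [dot, mul_add, sum_add_distrib]

theorem dot_sub (θ : Fin N → ℝ) (m n : Fin N → ℤ) : dot θ (m - n) = dot θ m - dot θ n := by
  simp [dot, mul_sub, sum_sub_distrib]

theorem e_sum {ι : Type*} (s : Finset ι) (f : ι → ℝ) : e (∑ i ∈ s, f i) = ∏ i ∈ s, e (f i) := by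
  classical
  induction s using Finset.induction_on with
  | empty => simp
  | insert a s ha ih => rw [sum_insert ha, prod_insert ha, e_add, ih]

/-- the box `[0, M)^N` -/
def gr (N M : ℕ) : Finset (Fin N → ℕ) := Fintype.piFinset (fun _ => range M)

theorem card_gr (N M : ℕ) : (gr N M).card = M ^ N := by
  simp [gr, Fintype.card_piFinset]

/-- the grid point `t / M` -/
noncomputable def th (M : ℕ) (t : Fin N → ℕ) : Fin N → ℝ := fun s => (t s : ℝ) / M

theorem orth_one {M : ℕ} (hM : 0 < M) (n : ℤ) (hn : |n| < M) :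
    ∑ t ∈ range M, e ((t : ℝ) / M * n) = if n = 0 then (M : ℂ) else 0 := by
  have hM' : (M : ℝ) ≠ 0 := by positivity
  split_ifs with h
  · subst h; simp
  · have h1 : ∀ t : ℕ, e ((t : ℝ) / M * n) = e ((n : ℝ) / M) ^ t := by
      intro t
      rw [← e_nat_mul]
      congr 1
      ring
    simp only [h1]
    have h2 : e ((n : ℝ) / M) ≠ 1 := by
      intro h3
      have h4 := le_norm_e_sub_one ((n : ℝ) / M)
      rw [h3, sub_self, norm_zero] at h4
      have h5 : nd ((n : ℝ) / M) = 0 := le_antisymm (by linarith) (nd_nonneg _)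
      unfold nd at h5
      rw [abs_eq_zero, sub_eq_zero, div_eq_iff hM'] at h5
      have h6 : n = round ((n : ℝ) / M) * M := by exact_mod_cast h5
      have h7 : (M : ℤ) ∣ n := Dvd.intro_left _ h6.symm
      have h8 := Int.eq_zero_of_abs_lt_dvd h7 hn
      exact h h8
    have h3 : e ((n : ℝ) / M) ^ M = 1 := by
      rw [← e_nat_mul, mul_div_cancel₀ _ hM', e_int]
    have h4 := geom_sum_mul (e ((n : ℝ) / M)) M
    rw [h3, sub_self] at h4
    rcases mul_eq_zero.mp h4 with h5 | h5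
    · exact h5
    · exact absurd (sub_eq_zero.mp h5) h2

theorem orth {M : ℕ} (hM : 0 < M) (n : Fin N → ℤ) (hn : ∀ s, |n s| < M) :
    ∑ t ∈ gr N M, e (dot (th M t) n) = if n = 0 then ((M : ℂ)) ^ N else 0 := by
  have h1 : ∑ t ∈ gr N M, e (dot (th M t) n) =
      ∏ s : Fin N, ∑ t ∈ range M, e ((t : ℝ) / M * n s) := by
    rw [prod_univ_sum]
    refine sum_congr rfl fun t _ => ?_
    unfold dot th
    rw [e_sum]
  rw [h1]
  simp only [fun s => orth_one hM (n s) (hn s)]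
  split_ifs with h
  · subst h; simp
  · obtain ⟨s, hs⟩ : ∃ s, n s ≠ 0 := by
      by_contra hcon
      push Not at hcon
      exact h (funext hcon)
    exact prod_eq_zero (mem_univ s) (by rw [if_neg hs])

/-- Fourier transforms of finite sums -/
noncomputable def Fa (S : Finset (Fin N → ℤ)) (a : (Fin N → ℤ) → ℝ) (θ : Fin N → ℝ) : ℂ :=
  ∑ x ∈ S, (a x : ℂ) * e (dot θ x)

noncomputable def Fb (T : Finset (Fin N → ℤ)) (b : (Fin N → ℤ) → ℝ) (θ : Fin N → ℝ) : ℂ :=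
  ∑ y ∈ T, (b y : ℂ) * e (-dot θ y)

theorem norm_Fb (T : Finset (Fin N → ℤ)) (b : (Fin N → ℤ) → ℝ) (θ : Fin N → ℝ) :
    ‖Fb T b θ‖ = ‖Fa T b θ‖ := by
  have : Fb T b θ = (starRingEnd ℂ) (Fa T b θ) := by
    unfold Fa Fb
    rw [map_sum]
    refine sum_congr rfl fun y _ => ?_
    rw [map_mul, ← e_neg, Complex.conj_ofReal]
  rw [this, RCLike.norm_conj]

theorem dual {M : ℕ} (hM : 0 < M) (S T : Finset (Fin N → ℤ)) (a b : (Fin N → ℤ) → ℝ)
    (hb : ∀ y ∉ T, b y = 0) (P : Fin N → ℤ)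
    (hP : ∀ x ∈ S, ∀ y ∈ T, ∀ s, |(x + P - y) s| < M) :
    ∑ t ∈ gr N M, Fa S a (th M t) * Fb T b (th M t) * e (dot (th M t) P) =
      (M : ℂ) ^ N * ((∑ x ∈ S, a x * b (x + P) : ℝ) : ℂ) := by
  have h1 : ∀ t : Fin N → ℕ, Fa S a (th M t) * Fb T b (th M t) * e (dot (th M t) P) =
      ∑ x ∈ S, ∑ y ∈ T, (a x : ℂ) * b y * e (dot (th M t) (x + P - y)) := by
    intro t
    unfold Fa Fb
    rw [sum_mul_sum, sum_mul]
    refine sum_congr rfl fun x _ => ?_
    rw [sum_mul]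
    refine sum_congr rfl fun y _ => ?_
    rw [dot_sub, dot_add, sub_eq_add_neg, e_add, e_add]
    ring
  simp only [h1]
  rw [sum_comm]
  push_cast
  rw [mul_sum]
  refine sum_congr rfl fun x hx => ?_
  rw [sum_comm]
  have h2 : ∀ y ∈ T, ∑ t ∈ gr N M, (a x : ℂ) * b y * e (dot (th M t) (x + P - y)) =
      if y = x + P then (a x : ℂ) * b y * (M : ℂ) ^ N else 0 := by
    intro y hy
    rw [← mul_sum, orth hM _ (hP x hx y hy)]
    by_cases h : y = x + P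
    · rw [if_pos h, if_pos (by rw [h, sub_self])]
    · rw [if_neg h, if_neg (fun h' => h (sub_eq_zero.mp h').symm), mul_zero]
  rw [sum_congr rfl h2, sum_ite_eq']
  split_ifs with h
  · ring
  · rw [hb _ h]; simp

theorem parseval {M : ℕ} (hM : 0 < M) (S : Finset (Fin N → ℤ)) (a : (Fin N → ℤ) → ℝ)
    (hS : ∀ x ∈ S, ∀ y ∈ S, ∀ s, |(x - y) s| < M) :
    ∑ t ∈ gr N M, ‖Fa S a (th M t)‖ ^ 2 = (M : ℝ) ^ N * ∑ x ∈ S, a x ^ 2 := by
  classical
  have h0 : ∀ t : Fin N → ℕ, Fa S a (th M t) * Fb S (fun x => if x ∈ S then a x else 0) (th M t) *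
      e (dot (th M t) 0) = ((‖Fa S a (th M t)‖ ^ 2 : ℝ) : ℂ) := by
    intro t
    have h1 : Fb S (fun x => if x ∈ S then a x else 0) (th M t) =
        (starRingEnd ℂ) (Fa S a (th M t)) := by
      unfold Fa Fb
      rw [map_sum]
      refine sum_congr rfl fun y hy => ?_
      rw [map_mul, ← e_neg, Complex.conj_ofReal]
      simp only [if_pos hy]
    rw [h1]
    have h2 : dot (th M t) (0 : Fin N → ℤ) = 0 := by simp [dot]
    rw [h2, e_zero, mul_one, Complex.mul_conj']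
    push_cast
    rfl
  have h := dual hM S S a (fun x => if x ∈ S then a x else 0) (fun y hy => if_neg hy) 0
    (by intro x hx y hy s; rw [add_zero]; exact hS x hx y hy s)
  simp only [h0] at h
  rw [← Complex.ofReal_sum] at h
  have h3 : ∑ x ∈ S, a x * (if x + 0 ∈ S then a (x + 0) else 0) = ∑ x ∈ S, a x ^ 2 := by
    refine sum_congr rfl fun x hx => ?_
    rw [add_zero, if_pos hx, sq]
  rw [h3] at h
  exact_mod_cast h

/-- Cauchy-Schwarz + Parseval -/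
theorem sum_Fa_Fb_le {M : ℕ} (hM : 0 < M) (S T : Finset (Fin N → ℤ)) (a b : (Fin N → ℤ) → ℝ)
    (hS : ∀ x ∈ S, ∀ y ∈ S, ∀ s, |(x - y) s| < M)
    (hT : ∀ x ∈ T, ∀ y ∈ T, ∀ s, |(x - y) s| < M) :
    ∑ t ∈ gr N M, ‖Fa S a (th M t)‖ * ‖Fb T b (th M t)‖ ≤
      (M : ℝ) ^ N * (√(∑ x ∈ S, a x ^ 2) * √(∑ y ∈ T, b y ^ 2)) := by
  have h1 := Real.sum_mul_le_sqrt_mul_sqrt (gr N M) (fun t => ‖Fa S a (th M t)‖)
    (fun t => ‖Fb T b (th M t)‖)
  refine h1.trans (le_of_eq ?_)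
  simp only [norm_Fb]
  rw [parseval hM S a hS, parseval hM T b hT]
  rw [Real.sqrt_mul (by positivity), Real.sqrt_mul (by positivity)]
  have h2 : √((M : ℝ) ^ N) * √((M : ℝ) ^ N) = (M : ℝ) ^ N := Real.mul_self_sqrt (by positivity)
  calc √((M : ℝ) ^ N) * √(∑ x ∈ S, a x ^ 2) * (√((M : ℝ) ^ N) * √(∑ x ∈ T, b x ^ 2))
      = (√((M : ℝ) ^ N) * √((M : ℝ) ^ N)) * (√(∑ x ∈ S, a x ^ 2) * √(∑ x ∈ T, b x ^ 2)) := by ring
    _ = _ := by rw [h2]

/-! ### general position -/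

/-- any `N` of the vectors are linearly independent -/
def GenPos (B : Fin J → Fin N → ℤ) : Prop :=
  ∀ F : Finset (Fin J), F.card = N → LinearIndependent ℚ (fun j : F => fun s => (B j s : ℚ))

theorem GenPos.rel {B : Fin J → Fin N → ℤ} (hB : GenPos B) (F : Finset (Fin J))
    (hF : F.card = N) (s : Fin N) :
    ∃ (D : ℕ) (c : Fin J → ℤ), 1 ≤ D ∧
      ∀ θ : Fin N → ℝ, (D : ℝ) * θ s = ∑ j ∈ F, c j * dot θ (B j) := by
  classical
  have h1 := hB F hF
  have h2 : Submodule.span ℚ (Set.range (fun j : F => fun s => (B j s : ℚ))) = ⊤ := by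
    apply h1.span_eq_top_of_card_eq_finrank'
    rw [Fintype.card_coe, hF, Module.finrank_fin_fun]
  have h3 : (Pi.single s 1 : Fin N → ℚ) ∈
      Submodule.span ℚ (Set.range (fun j : F => fun s => (B j s : ℚ))) := by
    rw [h2]; trivial
  obtain ⟨c, hc⟩ := (Submodule.mem_span_range_iff_exists_fun ℚ).mp h3
  obtain ⟨b, hb⟩ := IsLocalization.exist_integer_multiples_of_finite (nonZeroDivisors ℤ) c
  choose m hm using hb
  have hb0 : (b : ℤ) ≠ 0 := nonZeroDivisors.ne_zero b.2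
  refine ⟨(b : ℤ).natAbs, fun j => if h : j ∈ F then (b : ℤ).sign * m ⟨j, h⟩ else 0,
    Int.natAbs_pos.mpr hb0, fun θ => ?_⟩
  have h4 : ∀ s', ((b : ℤ) : ℚ) * (Pi.single s 1 : Fin N → ℚ) s' = ∑ j : F, (m j : ℚ) * B j s' := by
    intro s'
    rw [← hc, Finset.sum_apply, mul_sum]
    refine sum_congr rfl fun j _ => ?_
    have h5 : (m j : ℚ) = (b : ℤ) * c j := by
      have := hm j
      simpa [zsmul_eq_mul] using this
    rw [h5]
    simp only [Pi.smul_apply, smul_eq_mul]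
    ring
  have h5 : ∀ s', ((b : ℤ) : ℝ) * (if s' = s then 1 else 0) = ∑ j : F, (m j : ℝ) * B j s' := by
    intro s'
    have := congrArg (fun x : ℚ => (x : ℝ)) (h4 s')
    simp only [Rat.cast_mul, Rat.cast_intCast, Rat.cast_sum] at this
    rw [← this]
    by_cases h : s' = s
    · subst h; simp
    · simp [h]
  have h6 : ((b : ℤ) : ℝ) * θ s = ∑ j : F, (m j : ℝ) * dot θ (B j) := by
    unfold dot
    simp only [mul_sum]
    rw [sum_comm]
    have h7 : ∀ s', ∑ j : F, (m j : ℝ) * (θ s' * B j s') =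
        θ s' * (((b : ℤ) : ℝ) * (if s' = s then 1 else 0)) := by
      intro s'
      rw [h5, mul_sum]
      refine sum_congr rfl fun j _ => by ring
    simp only [h7]
    simp [mul_comm]
  have h8 : (((b : ℤ).natAbs : ℕ) : ℝ) = ((b : ℤ).sign : ℝ) * ((b : ℤ) : ℝ) := by
    rw [← Int.cast_natCast, ← Int.sign_mul_self_eq_natAbs (b : ℤ), Int.cast_mul]
  rw [h8, mul_assoc, h6, mul_sum]
  rw [← sum_coe_sort F (fun j => ((if h : j ∈ F then (b : ℤ).sign * m ⟨j, h⟩ else 0 : ℤ) : ℝ) *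
    dot θ (B j))]
  refine sum_congr rfl fun j _ => ?_
  rw [dif_pos j.2]
  push_cast
  ring

/-! ### the pointwise bound on the torus -/

/-- the shift `i² B_j + i A_j` -/
def sh (B A : Fin J → Fin N → ℤ) (j : Fin J) (i : ℤ) : Fin N → ℤ :=
  fun s => i ^ 2 * B j s + i * A j s

theorem dot_sh (B A : Fin J → Fin N → ℤ) (j : Fin J) (i : ℤ) (θ : Fin N → ℝ) :
    dot θ (sh B A j i) = dot θ (B j) * (i : ℝ) ^ 2 + dot θ (A j) * i := by
  unfold dot sh
  rw [sum_mul, sum_mul, ← sum_add_distrib]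
  refine sum_congr rfl fun s _ => ?_
  push_cast
  ring

/-- the multiplier of the `j`-th average -/
noncomputable def mj (B A : Fin J → Fin N → ℤ) (I : ℕ) (j : Fin J) (θ : Fin N → ℝ) : ℂ :=
  ∑ u ∈ range I, ∑ w ∈ range I, e (dot θ (sh B A j ((u : ℤ) + w)))

theorem norm_mj_le (B A : Fin J → Fin N → ℤ) (I : ℕ) (j : Fin J) (θ : Fin N → ℝ) :
    ‖mj B A I j θ‖ ≤ (I : ℝ) ^ 2 := by
  unfold mj
  refine (norm_sum_le _ _).trans ?_
  refine (sum_le_sum fun u _ => norm_sum_le _ _).trans ?_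
  simp [sq]

/-- the multiplier of the cell average -/
noncomputable def kh (Q Y : ℕ) (θ : Fin N → ℝ) : ℂ :=
  ((Y : ℂ) ^ N)⁻¹ * ∑ z ∈ gr N Y, e (dot θ (fun s => (Q : ℤ) * z s))

theorem norm_prod_sub_one_le {ι : Type*} (s : Finset ι) (f : ι → ℂ) (hf : ∀ i ∈ s, ‖f i‖ ≤ 1) :
    ‖∏ i ∈ s, f i - 1‖ ≤ ∑ i ∈ s, ‖f i - 1‖ := by
  classical
  induction s using Finset.induction_on with
  | empty => simp
  | insert a s ha ih =>
    rw [prod_insert ha, sum_insert ha]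
    have h1 : f a * ∏ i ∈ s, f i - 1 = f a * (∏ i ∈ s, f i - 1) + (f a - 1) := by ring
    rw [h1]
    refine (norm_add_le _ _).trans ?_
    rw [norm_mul, add_comm]
    refine add_le_add le_rfl ?_
    have h2 := ih fun i hi => hf i (mem_insert_of_mem hi)
    have h3 := hf a (mem_insert_self _ _)
    calc ‖f a‖ * ‖∏ i ∈ s, f i - 1‖ ≤ 1 * ‖∏ i ∈ s, f i - 1‖ :=
          mul_le_mul_of_nonneg_right h3 (norm_nonneg _)
      _ ≤ _ := by rw [one_mul]; exact h2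

theorem nd_nat_mul_le (k : ℕ) (x : ℝ) : nd (k * x) ≤ k * nd x := by
  refine (nd_le (k * x) (k * round x)).trans (le_of_eq ?_)
  push_cast
  rw [← mul_sub, abs_mul, Nat.abs_cast]
  rfl

theorem norm_kh_sub_one_le {Q Y : ℕ} (hY : 1 ≤ Y) (θ : Fin N → ℝ) :
    ‖kh Q Y θ - 1‖ ≤ 2 * π * Y * ∑ s, nd (Q * θ s) := by
  have hYN : ((Y : ℂ) ^ N) ≠ 0 := by
    have : (Y : ℂ) ≠ 0 := by exact_mod_cast (by omega : Y ≠ 0)
    positivity
  have h1 : kh Q Y θ - 1 =
      ((Y : ℂ) ^ N)⁻¹ * ∑ z ∈ gr N Y, (e (dot θ (fun s => (Q : ℤ) * z s)) - 1) := by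
    unfold kh
    rw [sum_sub_distrib, sum_const, card_gr, nsmul_eq_mul, mul_one, mul_sub]
    push_cast
    rw [inv_mul_cancel₀ hYN]
  rw [h1, norm_mul, norm_inv, norm_pow, Complex.norm_natCast]
  rw [inv_mul_le_iff₀ (by positivity)]
  refine (norm_sum_le _ _).trans ?_
  have h2 : ∀ z ∈ gr N Y, ‖e (dot θ (fun s => (Q : ℤ) * z s)) - 1‖ ≤
      2 * π * Y * ∑ s, nd (Q * θ s) := by
    intro z hz
    unfold dot
    rw [e_sum]
    refine (norm_prod_sub_one_le _ _ fun s _ => (norm_e _).le).trans ?_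
    rw [mul_sum]
    refine sum_le_sum fun s _ => ?_
    have h3 : θ s * (((Q : ℤ) * z s : ℤ) : ℝ) = z s * (Q * θ s) := by push_cast; ring
    rw [h3]
    refine (norm_e_sub_one_le _ (round (z s * (Q * θ s)))).trans ?_
    have h4 : |(z s : ℝ) * (Q * θ s) - round ((z s : ℝ) * (Q * θ s))| ≤ z s * nd (Q * θ s) :=
      nd_nat_mul_le _ _
    have h5 : (z s : ℝ) ≤ Y := by
      have := (Fintype.mem_piFinset.mp hz s)
      exact_mod_cast (mem_range.mp this).le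
    have h6 := nd_nonneg (Q * θ s)
    have h7 : (z s : ℝ) * nd (Q * θ s) ≤ Y * nd (Q * θ s) := mul_le_mul_of_nonneg_right h5 h6
    have h8 : (0 : ℝ) < 2 * π := by positivity
    calc 2 * π * |(z s : ℝ) * (Q * θ s) - round ((z s : ℝ) * (Q * θ s))|
        ≤ 2 * π * (Y * nd (Q * θ s)) := mul_le_mul_of_nonneg_left (h4.trans h7) h8.le
      _ = _ := by ring
  refine (sum_le_card_nsmul _ _ _ h2).trans (le_of_eq ?_)
  rw [card_gr, nsmul_eq_mul]
  push_cast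
  ring

theorem nd_sum_int_mul_le {ι : Type*} (s : Finset ι) (n : ι → ℤ) (x : ι → ℝ) :
    nd (∑ i ∈ s, n i * x i) ≤ ∑ i ∈ s, |(n i : ℝ)| * nd (x i) := by
  refine (nd_le _ (∑ i ∈ s, n i * round (x i))).trans ?_
  push_cast
  rw [← sum_sub_distrib]
  refine (abs_sum_le_sum_abs _ _).trans (sum_le_sum fun i _ => ?_)
  rw [← mul_sub, abs_mul]
  rfl

theorem nd_of_dvd {q m : ℕ} (hq : 1 ≤ q) (hm : 1 ≤ m) (hqm : q ∣ m) (x : ℝ) :
    nd (m * x) ≤ m * nd (q * x) := by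
  obtain ⟨k, rfl⟩ := hqm
  have h1 : ((q * k : ℕ) : ℝ) * x = k * (q * x) := by push_cast; ring
  rw [h1]
  refine (nd_nat_mul_le _ _).trans (mul_le_mul_of_nonneg_right ?_ (nd_nonneg _))
  have : k ≤ q * k := Nat.le_mul_of_pos_left k hq
  exact_mod_cast this

theorem norm_kh_le (Q Y : ℕ) (θ : Fin N → ℝ) : ‖kh Q Y θ‖ ≤ 1 := by
  unfold kh
  rw [norm_mul, norm_inv, norm_pow, Complex.norm_natCast]
  rcases Nat.eq_zero_or_pos Y with h | h
  · subst h
    rcases Nat.eq_zero_or_pos N with hN | hN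
    · subst hN
      refine le_trans (mul_le_mul_of_nonneg_left (norm_sum_le _ _) (by positivity)) ?_
      simp [card_gr]
    · rw [Nat.cast_zero, zero_pow hN.ne', inv_zero, zero_mul]
      norm_num
  · rw [inv_mul_le_iff₀ (by positivity), mul_one]
    refine (norm_sum_le _ _).trans ?_
    simp [card_gr]

/-- Cramer: if `N` of the numbers `⟨θ, B_j⟩` are close to rationals of bounded denominators, so
are all coordinates of `θ` -/
theorem cramer_bound (B : Fin J → Fin N → ℤ) (hB : GenPos B) (Q0 : ℕ) :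
    ∃ (Q : ℕ) (K : ℝ), 1 ≤ Q ∧ 0 < K ∧ ∀ (θ : Fin N → ℝ) (F : Finset (Fin J)), F.card = N →
      ∀ r : ℝ, 0 ≤ r → (∀ j ∈ F, ∃ q : ℕ, 1 ≤ q ∧ q ≤ Q0 ∧ nd (q * dot θ (B j)) ≤ r) →
      ∀ s, nd (Q * θ s) ≤ K * r := by
  classical
  have hrel : ∀ (F : Finset (Fin J)) (s : Fin N), ∃ (D : ℕ) (c : Fin J → ℤ), 1 ≤ D ∧
      (F.card = N → ∀ θ : Fin N → ℝ, (D : ℝ) * θ s = ∑ j ∈ F, c j * dot θ (B j)) := by
    intro F s
    by_cases hF : F.card = N
    · obtain ⟨D, c, h1, h2⟩ := hB.rel F hF s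
      exact ⟨D, c, h1, fun _ => h2⟩
    · exact ⟨1, 0, le_rfl, fun h => absurd h hF⟩
  choose D c hD hc using hrel
  obtain ⟨Dt, hDt⟩ : ∃ Dt : ℕ, Dt = ∏ F : Finset (Fin J), ∏ s : Fin N, D F s := ⟨_, rfl⟩
  have hDt1 : 1 ≤ Dt := by
    rw [hDt]
    exact Nat.one_le_iff_ne_zero.mpr
      (prod_ne_zero_iff.mpr fun F _ => prod_ne_zero_iff.mpr fun s _ => by
        have := hD F s; omega)
  have hDd : ∀ F s, D F s ∣ Dt := by
    intro F s
    rw [hDt]
    exact (dvd_prod_of_mem (fun s => D F s) (mem_univ s)).trans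
      (dvd_prod_of_mem (fun F => ∏ s : Fin N, D F s) (mem_univ F))
  obtain ⟨cm, hcm⟩ : ∃ cm : ℝ, cm = 1 + ∑ F : Finset (Fin J), ∑ s : Fin N, ∑ j : Fin J,
      |(c F s j : ℝ)| := ⟨_, rfl⟩
  have hcm0 : 0 < cm := by
    rw [hcm]
    have : 0 ≤ ∑ F : Finset (Fin J), ∑ s : Fin N, ∑ j : Fin J, |(c F s j : ℝ)| :=
      sum_nonneg fun _ _ => sum_nonneg fun _ _ => sum_nonneg fun _ _ => abs_nonneg _
    linarith
  have hcle : ∀ F s, ∑ j ∈ F, |(c F s j : ℝ)| ≤ cm := by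
    intro F s
    have h1 : ∑ j ∈ F, |(c F s j : ℝ)| ≤ ∑ j : Fin J, |(c F s j : ℝ)| :=
      sum_le_sum_of_subset_of_nonneg (subset_univ _) fun _ _ _ => abs_nonneg _
    have h2 : ∑ j : Fin J, |(c F s j : ℝ)| ≤ ∑ s : Fin N, ∑ j : Fin J, |(c F s j : ℝ)| :=
      single_le_sum (f := fun s => ∑ j : Fin J, |(c F s j : ℝ)|)
        (fun _ _ => sum_nonneg fun _ _ => abs_nonneg _) (mem_univ s)
    have h3 : ∑ s : Fin N, ∑ j : Fin J, |(c F s j : ℝ)| ≤
        ∑ F : Finset (Fin J), ∑ s : Fin N, ∑ j : Fin J, |(c F s j : ℝ)| :=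
      single_le_sum (f := fun F : Finset (Fin J) => ∑ s : Fin N, ∑ j : Fin J, |(c F s j : ℝ)|)
        (fun _ _ => sum_nonneg fun _ _ => sum_nonneg fun _ _ => abs_nonneg _) (mem_univ F)
    rw [hcm]
    linarith
  have hfac : 1 ≤ Q0.factorial := Q0.factorial_pos
  refine ⟨Q0.factorial * Dt, Dt * cm * Q0.factorial, Nat.mul_pos hfac hDt1, by positivity, ?_⟩
  intro θ F hF r hr hlarge s
  have h1 : ∀ j ∈ F, nd (Q0.factorial * dot θ (B j)) ≤ Q0.factorial * r := by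
    intro j hj
    obtain ⟨q, hq1, hqQ, hq⟩ := hlarge j hj
    refine (nd_of_dvd hq1 hfac (Nat.dvd_factorial hq1 hqQ) _).trans ?_
    exact mul_le_mul_of_nonneg_left hq (Nat.cast_nonneg _)
  obtain ⟨k, hk⟩ := hDd F s
  have hk1 : (k : ℝ) ≤ Dt := by
    have : k ≤ Dt := by
      rw [hk]; exact Nat.le_mul_of_pos_left k (hD F s)
    exact_mod_cast this
  have h3 : ((Q0.factorial * Dt : ℕ) : ℝ) * θ s =
      k * ∑ j ∈ F, c F s j * (Q0.factorial * dot θ (B j)) := by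
    rw [hk]
    push_cast
    have h4 := hc F s hF θ
    calc (Q0.factorial : ℝ) * (D F s * k) * θ s = k * Q0.factorial * (D F s * θ s) := by ring
      _ = k * Q0.factorial * ∑ j ∈ F, c F s j * dot θ (B j) := by rw [h4]
      _ = _ := by
        rw [mul_sum, mul_sum]
        refine sum_congr rfl fun j _ => by ring
  rw [h3]
  refine (nd_nat_mul_le _ _).trans ?_
  have h5 : nd (∑ j ∈ F, (c F s j : ℝ) * (Q0.factorial * dot θ (B j))) ≤
      cm * (Q0.factorial * r) := by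
    refine (nd_sum_int_mul_le F (fun j => c F s j) _).trans ?_
    refine (sum_le_sum fun j hj => mul_le_mul_of_nonneg_left (h1 j hj) (abs_nonneg _)).trans ?_
    rw [← sum_mul]
    exact mul_le_mul_of_nonneg_right (hcle F s) (by positivity)
  calc (k : ℝ) * nd (∑ j ∈ F, (c F s j : ℝ) * (Q0.factorial * dot θ (B j)))
      ≤ Dt * (cm * (Q0.factorial * r)) :=
        mul_le_mul hk1 h5 (nd_nonneg _) (by positivity)
    _ = _ := by ring

/-- all coordinates are almost rational if `N` of the multipliers are large -/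
theorem coord_bound (B : Fin J → Fin N → ℤ) (hB : GenPos B) {δ : ℝ} (hδ : 0 < δ)
    (hδ1 : δ ≤ 1) : ∃ (Q : ℕ) (K : ℝ) (I0 : ℕ), 1 ≤ Q ∧ 0 < K ∧ 1 ≤ I0 ∧ ∀ I : ℕ, I0 ≤ I →
      ∀ (A : Fin J → Fin N → ℤ) (θ : Fin N → ℝ) (F : Finset (Fin J)), F.card = N →
      (∀ j ∈ F, δ * (I : ℝ) ^ 2 ≤ ‖mj B A I j θ‖) → ∀ s, nd (Q * θ s) ≤ K / (I : ℝ) ^ 2 := by
  obtain ⟨Q0, C, I0, hQ0, hC, hI0, hW⟩ := weyl_inverse hδ hδ1
  obtain ⟨Q, K, hQ, hK, hco⟩ := cramer_bound B hB Q0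
  refine ⟨Q, K * C, I0, hQ, by positivity, hI0, ?_⟩
  intro I hI A θ F hF hlarge s
  rw [mul_div_assoc]
  refine hco θ F hF _ (by positivity) (fun j hj => ?_) s
  have h2 := hlarge j hj
  unfold mj at h2
  simp only [dot_sh] at h2
  push_cast at h2
  exact hW I hI (dot θ (B j)) (dot θ (A j)) h2

/-- pointwise bound for the product of the multipliers -/
theorem pointwise (hN : 1 ≤ N) (B : Fin J → Fin N → ℤ) (hB : GenPos B) {δ : ℝ} (hδ : 0 < δ) :
    ∃ (Q : ℕ) (κ : ℝ) (I0 : ℕ), 1 ≤ Q ∧ 0 < κ ∧ 1 ≤ I0 ∧ ∀ I Y : ℕ, I0 ≤ I → 1 ≤ Y →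
      (Y : ℝ) ≤ κ * (I : ℝ) ^ 2 → ∀ (A : Fin J → Fin N → ℤ) (θ : Fin N → ℝ),
      ‖kh Q Y θ - 1‖ * ∑ j, ‖mj B A I j θ‖ ≤ (2 * ((N : ℝ) - 1) + δ * J) * (I : ℝ) ^ 2 := by
  classical
  obtain ⟨δ1, hδ1, hδ1', hδ1''⟩ : ∃ δ1 : ℝ, 0 < δ1 ∧ δ1 ≤ 1 ∧ 2 * δ1 ≤ δ :=
    ⟨min (δ / 2) 1, by positivity, min_le_right _ _, by
      have := min_le_left (δ / 2) 1; linarith⟩
  obtain ⟨Q, K, I0, hQ, hK, hI0, hco⟩ := coord_bound B hB hδ1 hδ1'
  refine ⟨Q, δ / (2 * π * N * K), I0, hQ, ?_, hI0, ?_⟩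
  · have : (0 : ℝ) < N := by exact_mod_cast hN
    positivity
  intro I Y hI hY hYI A θ
  have hN0 : (0 : ℝ) < N := by exact_mod_cast hN
  have hI1 : (0 : ℝ) < I := by exact_mod_cast hI0.trans hI
  have hI2 : (0 : ℝ) < (I : ℝ) ^ 2 := by positivity
  set F : Finset (Fin J) := univ.filter (fun j => δ1 * (I : ℝ) ^ 2 ≤ ‖mj B A I j θ‖) with hF
  rcases lt_or_ge F.card N with hlt | hge
  · have h1 : ‖kh Q Y θ - 1‖ ≤ 2 := by
      refine (norm_sub_le _ _).trans ?_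
      rw [norm_one]
      linarith [norm_kh_le Q Y θ]
    have h2 : ∑ j, ‖mj B A I j θ‖ ≤ ((N : ℝ) - 1 + δ1 * J) * (I : ℝ) ^ 2 := by
      rw [← sum_filter_add_sum_filter_not univ (fun j => δ1 * (I : ℝ) ^ 2 ≤ ‖mj B A I j θ‖)]
      rw [add_mul]
      refine add_le_add ?_ ?_
      · refine (sum_le_card_nsmul _ _ _ fun j _ => norm_mj_le B A I j θ).trans ?_
        rw [nsmul_eq_mul]
        refine mul_le_mul_of_nonneg_right ?_ hI2.le
        have : F.card + 1 ≤ N := hlt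
        have h3 : ((F.card : ℝ)) + 1 ≤ N := by exact_mod_cast this
        rw [hF] at h3
        linarith
      · refine (sum_le_card_nsmul _ _ (δ1 * (I : ℝ) ^ 2) fun j hj => ?_).trans ?_
        · rw [mem_filter, not_le] at hj
          exact hj.2.le
        · rw [nsmul_eq_mul]
          have h4 : ((univ.filter fun j : Fin J => ¬ (δ1 * (I : ℝ) ^ 2 ≤ ‖mj B A I j θ‖)).card : ℝ)
              ≤ J := by
            have := card_filter_le (univ : Finset (Fin J))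
              (fun j => ¬ (δ1 * (I : ℝ) ^ 2 ≤ ‖mj B A I j θ‖))
            rw [card_univ, Fintype.card_fin] at this
            exact_mod_cast this
          have h5 : (0 : ℝ) ≤ δ1 * (I : ℝ) ^ 2 := by positivity
          calc _ ≤ (J : ℝ) * (δ1 * (I : ℝ) ^ 2) := mul_le_mul_of_nonneg_right h4 h5
            _ = _ := by ring
    have h3 : 0 ≤ ∑ j, ‖mj B A I j θ‖ := sum_nonneg fun _ _ => norm_nonneg _
    have hJ0 : (0 : ℝ) ≤ J := Nat.cast_nonneg _
    calc ‖kh Q Y θ - 1‖ * ∑ j, ‖mj B A I j θ‖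
        ≤ 2 * (((N : ℝ) - 1 + δ1 * J) * (I : ℝ) ^ 2) := mul_le_mul h1 h2 h3 (by norm_num)
      _ ≤ _ := by
        have h4 : 2 * δ1 * J ≤ δ * J := mul_le_mul_of_nonneg_right hδ1'' hJ0
        have h5 : 2 * (((N : ℝ) - 1 + δ1 * J)) ≤ 2 * ((N : ℝ) - 1) + δ * J := by linarith
        calc 2 * (((N : ℝ) - 1 + δ1 * J) * (I : ℝ) ^ 2)
            = (2 * (((N : ℝ) - 1 + δ1 * J))) * (I : ℝ) ^ 2 := by ring
          _ ≤ _ := mul_le_mul_of_nonneg_right h5 hI2.le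
  · obtain ⟨F', hF', hF'c⟩ := exists_subset_card_eq hge
    have h1 := hco I hI A θ F' hF'c (fun j hj => by
      have := hF' hj
      rw [hF, mem_filter] at this
      exact this.2)
    have h2 : ‖kh Q Y θ - 1‖ ≤ δ := by
      refine (norm_kh_sub_one_le hY θ).trans ?_
      have h3 : ∑ s, nd (Q * θ s) ≤ N * (K / (I : ℝ) ^ 2) := by
        refine (sum_le_card_nsmul _ _ _ fun s _ => h1 s).trans (le_of_eq ?_)
        simp
      have hY0 : (0 : ℝ) ≤ Y := Nat.cast_nonneg _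
      calc 2 * π * Y * ∑ s, nd (Q * θ s)
          ≤ 2 * π * (δ / (2 * π * N * K) * (I : ℝ) ^ 2) * (N * (K / (I : ℝ) ^ 2)) := by
            apply mul_le_mul _ h3 (sum_nonneg fun _ _ => nd_nonneg _) (by positivity)
            exact mul_le_mul_of_nonneg_left hYI (by positivity)
        _ = δ := by field_simp
    have h3 : ∑ j, ‖mj B A I j θ‖ ≤ J * (I : ℝ) ^ 2 := by
      refine (sum_le_card_nsmul _ _ _ fun j _ => norm_mj_le B A I j θ).trans (le_of_eq ?_)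
      simp
    have h4 : 0 ≤ ∑ j, ‖mj B A I j θ‖ := sum_nonneg fun _ _ => norm_nonneg _
    have hN1 : (1 : ℝ) ≤ N := by exact_mod_cast hN
    calc ‖kh Q Y θ - 1‖ * ∑ j, ‖mj B A I j θ‖ ≤ δ * (J * (I : ℝ) ^ 2) :=
          mul_le_mul h2 h3 h4 hδ.le
      _ ≤ _ := by
        have : 0 ≤ 2 * ((N : ℝ) - 1) * (I : ℝ) ^ 2 := by
          have : 0 ≤ (N : ℝ) - 1 := by linarith
          positivity
        nlinarith

end Vale.Agent.P011.H63
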