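import Vale.Agent.P011.H63.DnD

/-!
# STEP a of the second relation in rank two over function fields (helper63)
-/

open Module Matrix Polynomial

set_option linter.unusedSectionVars false

namespace Vale.Agent.P011.H63.DN

open Vale.Agent.P011.H738 Vale.Agent.P011.H271 Vale.Agent.P011.H305 Vale.Agent.P011.H271.S3
open Vale.Agent.P011.H63.FB
open Vale.Agent.P011.Arith (NF)

variable {k K D : Type} [Field k] [Field K] [StarRing K]
  [DivisionRing D] [StarRing D] [Algebra k K] [Algebra k D] [Algebra K D] [IsScalarTower k K D]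
  {d : kˣ} {s : K} {n N : ℕ}

/-- The local prescription at a nonsplit place. -/
def PreF (k : Type) {K D : Type} [Field k] [Field K] [DivisionRing D] [StarRing D]
    [Algebra k K] [Algebra k D] [Algebra K D] (d : kˣ) (n : ℕ) {N : ℕ}
    (B : Basis (Fin N) k D) {Ω : Type} [Field Ω] [Algebra K Ω]
    (f : D →ₐ[K] Matrix (Fin n) (Fin n) Ω) (m b : D) (v : Place k) (g1 g2 : kˣ) : Prop :=
  ∃ (R : D) (δ : ℝ), 0 < δ ∧ star R = R ∧ ∀ r : D,
    (∀ j, v.abv (B.repr (r - R) j) < δ) →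
    r ≠ 0 ∧ b + r ≠ 0 ∧
    (∀ ν : kˣ, (f r).det = algebraMap K Ω (algebraMap k K ν) → ν * g1 ∈ NF d ⊔ LSF v) ∧
    (∀ ν : kˣ, (f (b + r)).det = algebraMap K Ω (algebraMap k K ν) → ν * g2 ∈ NF d ⊔ LSF v) ∧
    LinearIndependent k (fun i : Fin n => (m⁻¹ * r) ^ (i : ℕ)) ∧
    ∀ (E : Type) [Field E] [GFF E] [Algebra k E] (θ : E), finrank k E = n →
      (minpoly k θ).natDegree = n → aeval (m⁻¹ * r) (minpoly k θ) = 0 →
      TotSplitF E v ∧ ∃ w : Place E, Ab w v ∧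
        ∀ c : Eˣ, (c : E) = θ⁻¹ + 4⁻¹ → c ∉ LSF w

/-- STEP a, from the local prescriptions. -/
theorem stepA_of_pre (hk : IsGlobalFunctionField k) (hS : SetF k K D d s)
    (hdeg : finrank K D = n ^ 2) (B : Basis (Fin N) k D) {Ω : Type} [Field Ω] [Algebra K Ω]
    (f : D →ₐ[K] Matrix (Fin n) (Fin n) Ω)
    {b m r₀ r₀' : D} (hb : star b = b)
    (hr : star r₀ = r₀) (hr' : star r₀' = r₀') (hb0 : b ≠ 0) (hr0 : r₀ ≠ 0)
    (hr0' : r₀' ≠ 0)
    {V : Set (Place k)} (hV : V.Finite) (hVns : ∀ v ∈ V, d ∉ LSF v) (hne : V.Nonempty)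
    (hpre : ∀ v ∈ V, ∀ g1 g2 : kˣ, PreF k d n B f m b v g1 g2) :
    ∃ t p : D, t ≠ 0 ∧ p ≠ 0 ∧ b + t * r₀ * star t = p * r₀' * star p ∧
      NiceF k n V (m⁻¹ * (t * r₀ * star t)) := by
  classical
  obtain ⟨ν0, hν0⟩ := H167.Lf.exists_nrd_unit hS hdeg f hr hr0
  obtain ⟨ν1, hν1⟩ := H167.Lf.exists_nrd_unit hS hdeg f hr' hr0'
  have hinj : ∀ {ν ν' : kˣ}, algebraMap K Ω (algebraMap k K ν) =
      algebraMap K Ω (algebraMap k K ν') → ν = ν' := fun {ν ν'} h =>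
    Units.ext ((algebraMap k K).injective ((algebraMap K Ω).injective h))
  have hloc : ∀ v : Place k, ∃ (R : D) (δ : ℝ), 0 < δ ∧ (v ∈ V → star R = R ∧ ∀ r : D,
      (∀ j, v.abv (B.repr (r - R) j) < δ) →
      r ≠ 0 ∧ b + r ≠ 0 ∧
      (∀ ν : kˣ, (f r).det = algebraMap K Ω (algebraMap k K ν) → ν * ν0 ∈ NF d ⊔ LSF v) ∧
      (∀ ν : kˣ, (f (b + r)).det = algebraMap K Ω (algebraMap k K ν) →
        ν * ν1 ∈ NF d ⊔ LSF v) ∧
      LinearIndependent k (fun i : Fin n => (m⁻¹ * r) ^ (i : ℕ)) ∧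
      ∀ (E : Type) [Field E] [GFF E] [Algebra k E] (θ : E), finrank k E = n →
        (minpoly k θ).natDegree = n → aeval (m⁻¹ * r) (minpoly k θ) = 0 →
        TotSplitF E v ∧ ∃ w : Place E, Ab w v ∧
          ∀ c : Eˣ, (c : E) = θ⁻¹ + 4⁻¹ → c ∉ LSF w) := by
    intro v
    by_cases hv : v ∈ V
    · obtain ⟨R, δ, hδ, hR, h⟩ := hpre v hv ν0 ν1
      exact ⟨R, δ, hδ, fun _ => ⟨hR, h⟩⟩
    · exact ⟨0, 1, one_pos, fun h => absurd h hv⟩
  choose R δ hδ hR using hloc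
  have hPR : ∀ p ∈ V, _ := fun p hp => (hR p hp).2 (R p) fun j => by
    rw [sub_self, map_zero, Finsupp.zero_apply, AbsoluteValue.map_zero]
    exact hδ p
  obtain ⟨t, x, ht, hx, hxt, hclose⟩ := dense_coreF hk hS hdeg B f hb hr hr' hb0 hr0 hr0' hV hne
    hVns R δ hδ (fun p hp => (hR p hp).1) (fun p hp => (hPR p hp).1)
    (fun p hp => (hPR p hp).2.1)
    (fun v hv ν ν' hν hν' => by
      rw [hν0] at hν
      rw [← hinj hν, mul_comm]
      exact (hPR v hv).2.2.1 ν' hν')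
    (fun v hv ν ν' hν hν' => by
      rw [hν1] at hν
      rw [← hinj hν, mul_comm]
      exact (hPR v hv).2.2.2.1 ν' hν')
  have hPr : ∀ p ∈ V, _ := fun p hp => (hR p hp).2 (t * r₀ * star t) (hclose p hp)
  refine ⟨t, x, ht, hx, hxt, ?_, fun v hv => (hPr v hv).2.2.2.2.2⟩
  obtain ⟨p, hp⟩ := hne
  exact (hPr p hp).2.2.2.2.1

end Vale.Agent.P011.H63.DN
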