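import Mathlib

/-!
# Weyl inverse lemma (quadratic phases), elementary form

`e x = exp (2 π i x)`, `nd x = |x - round x|` the distance to the nearest integer.
-/

namespace Vale.Agent.P011.H63

open Finset Real

/-- `e x = exp (2 π i x)` -/
noncomputable def e (x : ℝ) : ℂ := Complex.exp ((2 * π * x : ℝ) * Complex.I)

/-- distance to the nearest integer -/
noncomputable def nd (x : ℝ) : ℝ := |x - round x|

theorem e_add (x y : ℝ) : e (x + y) = e x * e y := by
  unfold e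
  rw [← Complex.exp_add]
  congr 1
  push_cast
  ring

@[simp] theorem e_zero : e 0 = 1 := by simp [e]

@[simp] theorem norm_e (x : ℝ) : ‖e x‖ = 1 := by
  unfold e
  exact Complex.norm_exp_ofReal_mul_I _

theorem e_int (n : ℤ) : e n = 1 := by
  unfold e
  have : (((2 * π * (n : ℝ) : ℝ) : ℂ) * Complex.I) = n * (2 * π * Complex.I) := by
    push_cast
    ring
  rw [this]
  exact Complex.exp_int_mul_two_pi_mul_I n

theorem e_neg (x : ℝ) : e (-x) = (starRingEnd ℂ) (e x) := by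
  unfold e
  rw [← Complex.exp_conj, map_mul, Complex.conj_ofReal, Complex.conj_I]
  congr 1
  push_cast
  ring

theorem e_nat_mul (k : ℕ) (x : ℝ) : e (k * x) = e x ^ k := by
  induction k with
  | zero => simp
  | succ k ih =>
    push_cast
    rw [add_mul, one_mul, e_add, ih, pow_succ]

theorem nd_nonneg (x : ℝ) : 0 ≤ nd x := abs_nonneg _

theorem nd_le_half (x : ℝ) : nd x ≤ 1 / 2 := abs_sub_round x

/-- any integer is at distance at least `nd x` -/
theorem nd_le (x : ℝ) (n : ℤ) : nd x ≤ |x - n| := round_le x n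

theorem norm_e_sub_one_le (x : ℝ) (n : ℤ) : ‖e x - 1‖ ≤ 2 * π * |x - n| := by
  have h : e x = e (x - n) := by
    have := e_add (x - n) n
    rw [e_int, mul_one, sub_add_cancel] at this
    exact this
  rw [h]
  unfold e
  have h2 := Real.norm_exp_I_mul_ofReal_sub_one_le (x := 2 * π * (x - n))
  rw [mul_comm Complex.I] at h2
  refine h2.trans ?_
  rw [Real.norm_eq_abs, abs_mul, abs_of_pos (by positivity : (0 : ℝ) < 2 * π)]

theorem le_norm_e_sub_one (x : ℝ) : 4 * nd x ≤ ‖e x - 1‖ := by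
  have h : e x = e (x - round x) := by
    have := e_add (x - round x) (round x)
    rw [e_int, mul_one, sub_add_cancel] at this
    exact this
  rw [h]
  unfold e nd
  have h2 := Complex.norm_exp_I_mul_ofReal_sub_one (2 * π * (x - round x))
  rw [mul_comm Complex.I] at h2
  rw [h2]
  have h3 : 2 * π * (x - round x) / 2 = π * (x - round x) := by ring
  rw [h3, Real.norm_eq_abs, abs_mul, abs_two]
  have h4 : |π * (x - round x)| ≤ π / 2 := by
    rw [abs_mul, abs_of_pos pi_pos]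
    have := abs_sub_round x
    nlinarith [pi_pos]
  have h5 := Real.mul_abs_le_abs_sin h4
  rw [abs_mul, abs_of_pos pi_pos] at h5
  have h6 : 2 / π * (π * |x - round x|) = 2 * |x - round x| := by
    field_simp
  rw [h6] at h5
  linarith

/-- geometric sum bound -/
theorem norm_geom_le (x : ℝ) (n : ℕ) : 2 * nd x * ‖∑ u ∈ range n, e (u * x)‖ ≤ 1 := by
  have h1 : (∑ u ∈ range n, e (u * x)) * (e x - 1) = e (n * x) - 1 := by
    simp only [e_nat_mul]
    exact geom_sum_mul (e x) n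
  have h2 : ‖∑ u ∈ range n, e (u * x)‖ * ‖e x - 1‖ ≤ 2 := by
    rw [← norm_mul, h1]
    calc ‖e (n * x) - 1‖ ≤ ‖e (n * x)‖ + ‖(1 : ℂ)‖ := norm_sub_le _ _
      _ = 2 := by rw [norm_e, norm_one]; norm_num
  have h3 := le_norm_e_sub_one x
  have h4 : 0 ≤ ‖∑ u ∈ range n, e (u * x)‖ := norm_nonneg _
  nlinarith

theorem nd_eq_of_le_half {x : ℝ} {m : ℤ} (h : |x - m| ≤ 1 / 2) : nd x = |x - m| := by
  refine le_antisymm (nd_le x m) ?_
  by_cases hm : round x = m
  · rw [nd, hm]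
  · have h1 : (1 : ℝ) ≤ |(round x : ℝ) - m| := by
      have : (1 : ℤ) ≤ |round x - m| := Int.one_le_abs (sub_ne_zero.mpr hm)
      exact_mod_cast this
    have h2 : |(round x : ℝ) - m| ≤ |x - m| + |x - round x| := by
      have h3 : (round x : ℝ) - m = (x - m) - (x - round x) := by ring
      rw [h3]
      exact abs_sub _ _
    unfold nd
    linarith

/-- pigeonhole, step (a): two elements of `W` in one block of length `L` -/
theorem step_a {W : Finset ℕ} {I L : ℕ} (hL : 0 < L) (hW : W ⊆ range I)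
    (h : I / L + 1 < W.card) : ∃ v ∈ W, ∃ w ∈ W, v < w ∧ w - v ≤ L := by
  have hmaps : ∀ w ∈ W, w / L ∈ range (I / L + 1) := by
    intro w hw
    have := mem_range.mp (hW hw)
    rw [mem_range]
    exact Nat.lt_succ_of_le (Nat.div_le_div_right this.le)
  have hcard : (range (I / L + 1)).card * 1 < W.card := by rwa [card_range, mul_one]
  obtain ⟨y, -, hy⟩ := exists_lt_card_fiber_of_mul_lt_card_of_maps_to hmaps hcard
  obtain ⟨v, hv, w, hw, hvw⟩ := one_lt_card.mp hy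
  rw [mem_filter] at hv hw
  have key : ∀ v w : ℕ, v / L = w / L → v < w → w - v ≤ L := by
    intro v w hvw hlt
    have h1 := Nat.div_add_mod v L
    have h2 := Nat.div_add_mod w L
    have h3 := Nat.mod_lt w hL
    rw [hvw] at h1
    omega
  rcases lt_or_gt_of_ne hvw with h | h
  · exact ⟨v, hv.1, w, hw.1, h, key v w (hv.2.trans hw.2.symm) h⟩
  · exact ⟨w, hw.1, v, hv.1, h, key w v (hw.2.trans hv.2.symm) h⟩

/-- pigeonhole, step (b): two elements of `W`, congruent modulo `q`, in one block of length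
`q * L`, at distance at least `q * b` -/
theorem step_b {W : Finset ℕ} {q L R b : ℕ} (hq : 0 < q) (hL : 0 < L) (hb : 1 ≤ b)
    (hR : ∀ w ∈ W, w / (q * L) < R) (h : q * R * b < W.card) :
    ∃ v ∈ W, ∃ w ∈ W, v < w ∧ ∃ t : ℕ, w = v + q * t ∧ b ≤ t ∧ t ≤ L := by
  have hqL0 : 0 < q * L := Nat.mul_pos hq hL
  have hmaps : ∀ w ∈ W, (w % q, w / (q * L)) ∈ range q ×ˢ range R := by
    intro w hw
    rw [mem_product, mem_range, mem_range]
    exact ⟨Nat.mod_lt _ hq, hR w hw⟩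
  have hcard : (range q ×ˢ range R).card * b < W.card := by
    rwa [card_product, card_range, card_range]
  obtain ⟨y, -, hy⟩ := exists_lt_card_fiber_of_mul_lt_card_of_maps_to hmaps hcard
  obtain ⟨F, hF⟩ : ∃ F, F = W.filter (fun x => (x % q, x / (q * L)) = y) := ⟨_, rfl⟩
  rw [← hF] at hy
  have hFne : F.Nonempty := card_pos.mp (by omega)
  have hmem : ∀ x ∈ F, x ∈ W ∧ x % q = y.1 ∧ x / (q * L) = y.2 := by
    intro x hx
    rw [hF, mem_filter] at hx
    exact ⟨hx.1, (Prod.ext_iff.mp hx.2).1, (Prod.ext_iff.mp hx.2).2⟩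
  obtain ⟨v, hvF, hle⟩ : ∃ v ∈ F, ∀ x ∈ F, v ≤ x :=
    ⟨F.min' hFne, F.min'_mem hFne, fun x hx => F.min'_le x hx⟩
  obtain ⟨w, hwF, hge⟩ : ∃ w ∈ F, ∀ x ∈ F, x ≤ w :=
    ⟨F.max' hFne, F.max'_mem hFne, fun x hx => F.le_max' x hx⟩
  have hdvd : ∀ x ∈ F, q * ((x - v) / q) = x - v := by
    intro x hx
    refine Nat.mul_div_cancel' ((Nat.modEq_iff_dvd' (hle x hx)).mp ?_)
    exact (hmem v hvF).2.1.trans (hmem x hx).2.1.symm
  have hcF : F.card ≤ (w - v) / q + 1 := by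
    have hinj : Set.InjOn (fun x => (x - v) / q) F := by
      intro x hx x' hx' hxx
      have h1 := hdvd x hx
      have h2 := hdvd x' hx'
      have h3 : x - v = x' - v := by
        rw [← h1, ← h2]; exact congrArg _ hxx
      have := hle x hx
      have := hle x' hx'
      omega
    have hmap : ∀ x ∈ F, (x - v) / q ∈ range ((w - v) / q + 1) := by
      intro x hx
      rw [mem_range]
      have : x - v ≤ w - v := Nat.sub_le_sub_right (hge x hx) v
      exact Nat.lt_succ_of_le (Nat.div_le_div_right this)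
    have := card_le_card_of_injOn _ hmap hinj
    rwa [card_range] at this
  have hbt : b ≤ (w - v) / q := by omega
  have hvw := hle w hwF
  refine ⟨v, (hmem v hvF).1, w, (hmem w hwF).1, ?_, (w - v) / q, ?_, hbt, ?_⟩
  · have h1 : 0 < (w - v) / q := by omega
    have h2 := Nat.div_pos_iff.mp h1
    omega
  · rw [hdvd w hwF]
    omega
  · have h1 := Nat.div_add_mod v (q * L)
    have h2 := Nat.div_add_mod w (q * L)
    have h3 := Nat.mod_lt w hqL0
    rw [(hmem w hwF).2.2] at h2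
    rw [(hmem v hvF).2.2] at h1
    have h4 : w - v ≤ q * L := by omega
    calc (w - v) / q ≤ (q * L) / q := Nat.div_le_div_right h4
      _ = L := Nat.mul_div_cancel_left _ hq

/-- from an almost period `q` of `α` and an almost period `q * t` with `t` large one gets a very
good almost period -/
theorem step_c {α T I : ℝ} {q t : ℕ} (hI : 0 < I) (ht0 : 0 < (t : ℝ))
    (hqα : nd (α * q) ≤ T / I) (htL : (t : ℝ) ≤ I / (2 * T)) (hT : 0 < T)
    (h : nd (α * (q * t)) ≤ T / I) : t * nd (q * α) ≤ T / I := by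
  obtain ⟨η, hη⟩ : ∃ η : ℝ, η = α * q - round (α * q) := ⟨_, rfl⟩
  have hηT : |η| ≤ T / I := by rw [hη]; exact hqα
  have h1 : |(t : ℝ) * η| ≤ 1 / 2 := by
    rw [abs_mul, abs_of_pos ht0]
    calc (t : ℝ) * |η| ≤ (I / (2 * T)) * (T / I) := by
          apply mul_le_mul htL hηT (abs_nonneg _) (by positivity)
      _ = 1 / 2 := by field_simp
  have h3 : α * (q * t) - ((t : ℤ) * round (α * q) : ℤ) = t * η := by
    rw [hη]
    push_cast
    ring
  have h4 : nd (α * (q * t)) = |(t : ℝ) * η| := by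
    rw [nd_eq_of_le_half (m := (t : ℤ) * round (α * q))]
    · rw [h3]
    · rw [h3]; exact h1
  rw [h4, abs_mul, abs_of_pos ht0] at h
  have h5 : nd (q * α) = |η| := by rw [hη, mul_comm]; rfl
  rw [h5]
  exact h

theorem lt_of_ceil_succ_le {x : ℝ} {I : ℕ} (h : ⌈x⌉₊ + 1 ≤ I) : x < I := by
  have h2 : ((⌈x⌉₊ + 1 : ℕ) : ℝ) ≤ I := by exact_mod_cast h
  push_cast at h2
  linarith [Nat.le_ceil x]

theorem floor_half {x y : ℝ} (h : x = 2 * y) (hy : 1 ≤ y) :
    y ≤ (⌊x⌋₊ : ℝ) ∧ (⌊x⌋₊ : ℝ) ≤ x := by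
  refine ⟨?_, Nat.floor_le (by linarith)⟩
  have h1 : x < ⌊x⌋₊ + 1 := Nat.lt_floor_add_one _
  linarith

/-- Counting lemma: a dense set of integers in `[0, I)` whose differences are all almost periods
of `α` (up to `T / I`) forces a bounded denominator with error `O(I⁻²)`. -/
theorem count_lemma (c T : ℝ) (hc : 0 < c) (hT : 1 ≤ T) :
    ∃ (Q : ℕ) (C : ℝ) (I0 : ℕ), 1 ≤ Q ∧ 0 < C ∧ 1 ≤ I0 ∧ ∀ I : ℕ, I0 ≤ I → ∀ (α : ℝ)
      (W : Finset ℕ), W ⊆ range I → c * I ≤ W.card →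
      (∀ v ∈ W, ∀ w ∈ W, v < w → nd (α * ((w : ℝ) - v)) ≤ T / I) →
      ∃ q : ℕ, 1 ≤ q ∧ q ≤ Q ∧ nd (q * α) ≤ C / (I : ℝ) ^ 2 := by
  obtain ⟨L, hL0, hL2⟩ : ∃ L : ℕ, 0 < L ∧ 2 / c ≤ L :=
    ⟨⌈2 / c⌉₊ + 1, by omega, by push_cast; linarith [Nat.le_ceil (2 / c)]⟩
  obtain ⟨R', hR'0, hR'2⟩ : ∃ R' : ℕ, 0 < R' ∧ 4 * T < R' :=
    ⟨⌊4 * T⌋₊ + 1, by omega, by push_cast; exact Nat.lt_floor_add_one _⟩
  have hL1 : (1 : ℝ) ≤ L := by exact_mod_cast hL0
  have hR'1 : (1 : ℝ) ≤ R' := by exact_mod_cast hR'0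
  have hT0 : 0 < T := by linarith
  obtain ⟨R, hR⟩ : ∃ R : ℝ, R = L * R' := ⟨_, rfl⟩
  have hRpos : 0 < R := by rw [hR]; positivity
  refine ⟨L, 4 * R * T / c, max (⌈4 / c⌉₊ + 1) (max (⌈4 * T⌉₊ + 1) (⌈4 * R / c⌉₊ + 1)),
    hL0, by positivity, by omega, ?_⟩
  intro I hI α W hWI hWc hW
  have hI1 : 4 / c < I := lt_of_ceil_succ_le (le_trans (le_max_left _ _) hI)
  have hI2 : 4 * T < I :=
    lt_of_ceil_succ_le (le_trans (le_trans (le_max_left _ _) (le_max_right _ _)) hI)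
  have hI3 : 4 * R / c < I :=
    lt_of_ceil_succ_le (le_trans (le_trans (le_max_right _ _) (le_max_right _ _)) hI)
  have hIpos : (0 : ℝ) < I := by linarith
  have hcI : 4 < c * I := by
    rw [div_lt_iff₀ hc] at hI1; linarith
  -- step (a)
  have ha : I / L + 1 < W.card := by
    have h1 : ((I / L + 1 : ℕ) : ℝ) < W.card := by
      push_cast
      have h2 : ((I / L : ℕ) : ℝ) ≤ I / L := Nat.cast_div_le
      have h3 : (I : ℝ) / L ≤ c * I / 2 := by
        rw [div_le_iff₀ (by linarith)]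
        rw [div_le_iff₀ hc] at hL2
        nlinarith
      linarith
    exact_mod_cast h1
  obtain ⟨v₀, hv₀, w₀, hw₀, hvw₀, hqL⟩ := step_a hL0 hWI ha
  obtain ⟨q₁, hq₁⟩ : ∃ q₁ : ℕ, w₀ = v₀ + q₁ := ⟨w₀ - v₀, by omega⟩
  have hqL' : q₁ ≤ L := by omega
  have hq1 : 1 ≤ q₁ := by omega
  have hqα : nd (α * q₁) ≤ T / I := by
    have := hW v₀ hv₀ w₀ hw₀ hvw₀
    rw [hq₁] at this
    push_cast at this
    rwa [add_sub_cancel_left] at this
  have hq1r : (1 : ℝ) ≤ q₁ := by exact_mod_cast hq1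
  have hqLr : (q₁ : ℝ) ≤ L := by exact_mod_cast hqL'
  -- step (b)
  obtain ⟨L', hL'2, hL'1⟩ : ∃ L' : ℕ, (I : ℝ) / (4 * T) ≤ L' ∧ (L' : ℝ) ≤ I / (2 * T) :=
    ⟨⌊(I : ℝ) / (2 * T)⌋₊, floor_half (by field_simp; norm_num)
      (by rw [le_div_iff₀ (by positivity)]; linarith)⟩
  have hL'0 : 0 < L' := by
    have h2 : (0 : ℝ) < (I : ℝ) / (4 * T) := by positivity
    exact_mod_cast h2.trans_le hL'2
  obtain ⟨b, hb2, hb1⟩ : ∃ b : ℕ, c * I / (4 * R) ≤ b ∧ (b : ℝ) ≤ c * I / (2 * R) :=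
    ⟨⌊c * I / (2 * R)⌋₊, floor_half (by field_simp; norm_num)
      (by
        rw [le_div_iff₀ (by positivity)]
        rw [div_lt_iff₀ hc] at hI3
        linarith)⟩
  have hb0 : (0 : ℝ) < b := lt_of_lt_of_le (by positivity) hb2
  have hRR : ∀ w ∈ W, w / (q₁ * L') < R' := by
    intro w hw
    have h1 : (w : ℝ) < I := by exact_mod_cast mem_range.mp (hWI hw)
    have hqL0 : 0 < q₁ * L' := Nat.mul_pos hq1 hL'0
    have h2 : ((w / (q₁ * L') : ℕ) : ℝ) ≤ 4 * T := by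
      refine (Nat.cast_div_le (α := ℝ)).trans ?_
      rw [div_le_iff₀ (by exact_mod_cast hqL0)]
      push_cast
      rw [div_le_iff₀ (by positivity)] at hL'2
      have h4 : (L' : ℝ) ≤ q₁ * L' := by nlinarith [Nat.cast_nonneg (α := ℝ) L']
      nlinarith
    exact_mod_cast h2.trans_lt hR'2
  have hbc : q₁ * R' * b < W.card := by
    have h1 : ((q₁ * R' * b : ℕ) : ℝ) < W.card := by
      push_cast
      have h2 : (q₁ : ℝ) * R' ≤ R := by rw [hR]; nlinarith
      have h3 : (q₁ : ℝ) * R' * b ≤ R * (c * I / (2 * R)) :=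
        mul_le_mul h2 hb1 hb0.le hRpos.le
      have h4 : R * (c * I / (2 * R)) = c * I / 2 := by field_simp
      linarith
    exact_mod_cast h1
  obtain ⟨v, hv, w, hw, hvw, t, ht, hbt, htL⟩ :=
    step_b hq1 hL'0 (by exact_mod_cast hb0) hRR hbc
  -- step (c)
  have hbt' : (b : ℝ) ≤ t := by exact_mod_cast hbt
  have htL' : (t : ℝ) ≤ L' := by exact_mod_cast htL
  have ht0 : (0 : ℝ) < t := by linarith
  have h2 := hW v hv w hw hvw
  have h2' : nd (α * (q₁ * t)) ≤ T / I := by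
    rw [ht] at h2
    push_cast at h2
    rwa [add_sub_cancel_left] at h2
  have h3 := step_c hIpos ht0 hqα (by linarith) hT0 h2'
  refine ⟨q₁, hq1, hqL', ?_⟩
  rw [le_div_iff₀ (by positivity)]
  have h6 : c * I / (4 * R) * nd (q₁ * α) ≤ T / I :=
    le_trans (mul_le_mul_of_nonneg_right (by linarith) (nd_nonneg _)) h3
  rw [le_div_iff₀ hIpos] at h6
  rw [le_div_iff₀ hc]
  have h7 : c * I / (4 * R) * nd (q₁ * α) * I * (4 * R) = nd (q₁ * α) * (I : ℝ) ^ 2 * c := by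
    field_simp
  rw [← h7]
  nlinarith

theorem nd_sub_le (x y : ℝ) : nd (x - y) ≤ nd x + nd y := by
  have h := nd_le (x - y) (round x - round y)
  refine h.trans ?_
  have : x - y - ((round x - round y : ℤ) : ℝ) = (x - round x) - (y - round y) := by
    push_cast; ring
  rw [this]
  exact abs_sub _ _

/-- Cauchy-Schwarz step of Weyl differencing for the phase `α (u + w)² + β (u + w)` -/
theorem weyl_cs (I : ℕ) (α β : ℝ) :
    ‖∑ u ∈ range I, ∑ w ∈ range I, e (α * ((u : ℝ) + w) ^ 2 + β * (u + w))‖ ^ 2 ≤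
      I * ∑ w' ∈ range I, ∑ w ∈ range I, ‖∑ u ∈ range I, e (u * (2 * α * ((w : ℝ) - w')))‖ := by
  set z : ℕ → ℂ := fun w => e (α * (w : ℝ) ^ 2 + β * w) with hz
  set X : ℕ → ℂ := fun u => ∑ w ∈ range I, z w * e (u * (2 * α * w)) with hX
  have h1 : ∀ u : ℕ, ∑ w ∈ range I, e (α * ((u : ℝ) + w) ^ 2 + β * (u + w)) = z u * X u := by
    intro u
    rw [hX]
    simp only [mul_sum]
    refine sum_congr rfl fun w _ => ?_
    rw [hz]
    simp only
    rw [← e_add, ← e_add]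
    congr 1
    ring
  have hzn : ∀ w, ‖z w‖ = 1 := fun w => norm_e _
  have h2 : ‖∑ u ∈ range I, ∑ w ∈ range I, e (α * ((u : ℝ) + w) ^ 2 + β * (u + w))‖ ≤
      ∑ u ∈ range I, ‖X u‖ := by
    simp only [h1]
    refine (norm_sum_le _ _).trans (sum_le_sum fun u _ => ?_)
    rw [norm_mul, hzn, one_mul]
  have h3 : (∑ u ∈ range I, ‖X u‖) ^ 2 ≤ I * ∑ u ∈ range I, ‖X u‖ ^ 2 := by
    have := sq_sum_le_card_mul_sum_sq (s := range I) (f := fun u => ‖X u‖)
    simpa using this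
  have h4 : ∑ u ∈ range I, ‖X u‖ ^ 2 ≤
      ∑ w' ∈ range I, ∑ w ∈ range I, ‖∑ u ∈ range I, e (u * (2 * α * ((w : ℝ) - w')))‖ := by
    have h5 : ((∑ u ∈ range I, ‖X u‖ ^ 2 : ℝ) : ℂ) = ∑ w' ∈ range I, ∑ w ∈ range I,
        z w * (starRingEnd ℂ) (z w') * ∑ u ∈ range I, e (u * (2 * α * ((w : ℝ) - w'))) := by
      push_cast
      have h6 : ∀ u : ℕ, ((‖X u‖ : ℂ)) ^ 2 = ∑ w' ∈ range I, ∑ w ∈ range I,
          z w * (starRingEnd ℂ) (z w') * e (u * (2 * α * ((w : ℝ) - w'))) := by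
        intro u
        rw [← Complex.mul_conj']
        rw [hX]
        simp only
        rw [map_sum, sum_mul_sum, sum_comm]
        refine sum_congr rfl fun w' _ => sum_congr rfl fun w _ => ?_
        have h7 : e (u * (2 * α * ((w : ℝ) - w'))) = e (u * (2 * α * w)) * e (-(u * (2 * α * w'))) := by
          rw [← e_add]; congr 1; ring
        rw [map_mul, h7, e_neg (u * (2 * α * w'))]
        ring
      simp only [h6]
      rw [sum_comm]
      refine sum_congr rfl fun w' _ => ?_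
      rw [sum_comm]
      refine sum_congr rfl fun w _ => ?_
      rw [mul_sum]
    have h8 : ∑ u ∈ range I, ‖X u‖ ^ 2 = ‖((∑ u ∈ range I, ‖X u‖ ^ 2 : ℝ) : ℂ)‖ := by
      rw [Complex.norm_real, Real.norm_of_nonneg (sum_nonneg fun _ _ => by positivity)]
    rw [h8, h5]
    refine (norm_sum_le _ _).trans (sum_le_sum fun w' _ => ?_)
    refine (norm_sum_le _ _).trans (sum_le_sum fun w _ => ?_)
    rw [norm_mul, norm_mul, RCLike.norm_conj, hzn, hzn, one_mul, one_mul]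
  calc _ ≤ (∑ u ∈ range I, ‖X u‖) ^ 2 := pow_le_pow_left₀ (norm_nonneg _) h2 2
    _ ≤ I * ∑ u ∈ range I, ‖X u‖ ^ 2 := h3
    _ ≤ _ := mul_le_mul_of_nonneg_left h4 (Nat.cast_nonneg _)

/-- Weyl inverse lemma: if the exponential sum over `α (u + w)² + β (u + w)`, `u, w < I`, is not
small, then `α` has a bounded denominator up to an error `O(I⁻²)`. -/
theorem weyl_inverse {δ : ℝ} (hδ : 0 < δ) (hδ1 : δ ≤ 1) :
    ∃ (Q : ℕ) (C : ℝ) (I0 : ℕ), 1 ≤ Q ∧ 0 < C ∧ 1 ≤ I0 ∧ ∀ I : ℕ, I0 ≤ I → ∀ α β : ℝ,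
      δ * (I : ℝ) ^ 2 ≤
        ‖∑ u ∈ range I, ∑ w ∈ range I, e (α * ((u : ℝ) + w) ^ 2 + β * (u + w))‖ →
      ∃ q : ℕ, 1 ≤ q ∧ q ≤ Q ∧ nd (q * α) ≤ C / (I : ℝ) ^ 2 := by
  have hT : 1 ≤ 2 / δ ^ 2 := by
    rw [le_div_iff₀ (by positivity)]; nlinarith
  obtain ⟨Q, C, I0, hQ, hC, hI0, h⟩ := count_lemma (δ ^ 2 / 2) (2 / δ ^ 2) (by positivity) hT
  refine ⟨2 * Q, C, I0, by omega, hC, hI0, ?_⟩
  intro I hI α β hS
  have hI1 : 1 ≤ I := hI0.trans hI
  have hIpos : (0 : ℝ) < I := by exact_mod_cast hI1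
  set g : ℕ → ℕ → ℝ := fun w' w => ‖∑ u ∈ range I, e (u * (2 * α * ((w : ℝ) - w')))‖ with hg
  have h1 : (δ * (I : ℝ) ^ 2) ^ 2 ≤ I * ∑ w' ∈ range I, ∑ w ∈ range I, g w' w :=
    (pow_le_pow_left₀ (by positivity) hS 2).trans (weyl_cs I α β)
  obtain ⟨w', hw', hw'2⟩ : ∃ w' ∈ range I, δ ^ 2 * (I : ℝ) ^ 2 ≤ ∑ w ∈ range I, g w' w := by
    by_contra hcon
    push Not at hcon
    have h2 : ∑ w' ∈ range I, ∑ w ∈ range I, g w' w < ∑ w' ∈ range I, δ ^ 2 * (I : ℝ) ^ 2 :=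
      sum_lt_sum_of_nonempty (nonempty_range_iff.mpr (by omega)) hcon
    rw [sum_const, card_range, nsmul_eq_mul] at h2
    nlinarith
  set W : Finset ℕ := (range I).filter (fun w => δ ^ 2 * I / 2 ≤ g w' w) with hW
  have hgI : ∀ w, g w' w ≤ I := by
    intro w
    refine (norm_sum_le _ _).trans ?_
    simp
  have hcard : δ ^ 2 / 2 * I ≤ W.card := by
    have h3 : ∑ w ∈ range I, g w' w ≤ I * W.card + I * (δ ^ 2 * I / 2) := by
      rw [← sum_filter_add_sum_filter_not (range I) (fun w => δ ^ 2 * I / 2 ≤ g w' w)]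
      refine add_le_add ?_ ?_
      · refine (sum_le_card_nsmul _ _ (I : ℝ) fun w _ => hgI w).trans ?_
        rw [nsmul_eq_mul, mul_comm]
      · refine (sum_le_card_nsmul _ _ (δ ^ 2 * I / 2) fun w hw => ?_).trans ?_
        · rw [mem_filter, not_le] at hw
          exact hw.2.le
        · rw [nsmul_eq_mul]
          refine mul_le_mul_of_nonneg_right ?_ (by positivity)
          have := card_filter_le (range I) (fun w => ¬ (δ ^ 2 * I / 2 ≤ g w' w))
          rw [card_range] at this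
          exact_mod_cast this
    have h4 : δ ^ 2 * (I : ℝ) ^ 2 ≤ I * W.card + I * (δ ^ 2 * I / 2) := hw'2.trans h3
    nlinarith
  have hnd : ∀ w ∈ W, nd (2 * α * ((w : ℝ) - w')) ≤ 1 / (δ ^ 2 * I) := by
    intro w hw
    rw [hW, mem_filter] at hw
    have h3 : 2 * nd (2 * α * ((w : ℝ) - w')) * g w' w ≤ 1 := norm_geom_le _ _
    rw [le_div_iff₀ (by positivity)]
    have h4 := nd_nonneg (2 * α * ((w : ℝ) - w'))
    nlinarith [mul_le_mul_of_nonneg_left hw.2 h4]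
  obtain ⟨q, hq1, hqQ, hq⟩ := h I hI (2 * α) W (filter_subset _ _) hcard (by
    intro v hv w hw _
    have h3 : 2 * α * ((w : ℝ) - v) = 2 * α * ((w : ℝ) - w') - 2 * α * ((v : ℝ) - w') := by ring
    rw [h3]
    refine (nd_sub_le _ _).trans ((add_le_add (hnd w hw) (hnd v hv)).trans (le_of_eq ?_))
    field_simp
    norm_num)
  refine ⟨2 * q, by omega, by omega, ?_⟩
  push_cast
  rw [show (2 * (q : ℝ)) * α = q * (2 * α) by ring]
  exact hq

end Vale.Agent.P011.H63
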